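import Vale.Agent.Lib.P100.Cover

/-!
Rational certificates, dimension 5.
-/

namespace Vale.Agent.Lib.P100

theorem rowL5_0 {p q : ℝ} (hp : 0 < p) (hpb : p ≤ (3016279 / 2000000 : ℝ)) (hq : 0 < q) (hqb : q ≤ (39408871 / 10000000 : ℝ))
    (hpq : 1 < p * q) : NoSol 5 p q :=
  noSol_rect (n := 5) (by norm_num) (N := 5) (a := (67023 / 100000 : ℝ)) (b := (148553 / 250000 : ℝ))
    (τ := (3170329 / 10000000 : ℝ)) (A5 := (513729 / 1000000 : ℝ)) (A6 := (149753 / 200000 : ℝ))
    (A9 := (901973 / 1000000 : ℝ)) (A10 := (117871 / 200000 : ℝ)) (s := (27 / 250 : ℝ)) (e := (1 / 10000000 : ℝ))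
    (pb := (3016279 / 2000000 : ℝ)) (qb := (39408871 / 10000000 : ℝ)) (by norm_num)
    (by norm_num) (by norm_num) (by norm_num) (by norm_num) (by norm_num) (by norm_num) (by norm_num)
    (by norm_num) (by norm_num)
    (by norm_num) (by norm_num) (by norm_num) (by norm_num) (by norm_num)
    rfl rfl rfl rfl rfl rfl (by norm_num) (by norm_num) (by norm_num) hp hpb hq hqb hpq

theorem rowL5_1 {p q : ℝ} (hp : 0 < p) (hpb : p ≤ (15088029 / 10000000 : ℝ)) (hq : 0 < q) (hqb : q ≤ (19692031 / 5000000 : ℝ))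
    (hpq : 1 < p * q) : NoSol 5 p q :=
  noSol_rect (n := 5) (by norm_num) (N := 5) (a := (16839 / 25000 : ℝ)) (b := (591793 / 1000000 : ℝ))
    (τ := (198501 / 625000 : ℝ)) (A5 := (512611 / 1000000 : ℝ)) (A6 := (750423 / 1000000 : ℝ))
    (A9 := (451029 / 500000 : ℝ)) (A10 := (18383 / 31250 : ℝ)) (s := (10821 / 100000 : ℝ)) (e := (1 / 10000000 : ℝ))
    (pb := (15088029 / 10000000 : ℝ)) (qb := (19692031 / 5000000 : ℝ)) (by norm_num)
    (by norm_num) (by norm_num) (by norm_num) (by norm_num) (by norm_num) (by norm_num) (by norm_num)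
    (by norm_num) (by norm_num)
    (by norm_num) (by norm_num) (by norm_num) (by norm_num) (by norm_num)
    rfl rfl rfl rfl rfl rfl (by norm_num) (by norm_num) (by norm_num) hp hpb hq hqb hpq

theorem rowL5_2 {p q : ℝ} (hp : 0 < p) (hpb : p ≤ (1886843 / 1250000 : ℝ)) (hq : 0 < q) (hqb : q ≤ (9839591 / 2500000 : ℝ))
    (hpq : 1 < p * q) : NoSol 5 p q :=
  noSol_rect (n := 5) (by norm_num) (N := 5) (a := (672657 / 1000000 : ℝ)) (b := (592307 / 1000000 : ℝ))
    (τ := (1592651 / 5000000 : ℝ)) (A5 := (8013 / 15625 : ℝ)) (A6 := (750621 / 1000000 : ℝ))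
    (A9 := (899949 / 1000000 : ℝ)) (A10 := (147327 / 250000 : ℝ)) (s := (10831 / 100000 : ℝ)) (e := (1 / 10000000 : ℝ))
    (pb := (1886843 / 1250000 : ℝ)) (qb := (9839591 / 2500000 : ℝ)) (by norm_num)
    (by norm_num) (by norm_num) (by norm_num) (by norm_num) (by norm_num) (by norm_num) (by norm_num)
    (by norm_num) (by norm_num)
    (by norm_num) (by norm_num) (by norm_num) (by norm_num) (by norm_num)
    rfl rfl rfl rfl rfl rfl (by norm_num) (by norm_num) (by norm_num) hp hpb hq hqb hpq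

theorem rowL5_3 {p q : ℝ} (hp : 0 < p) (hpb : p ≤ (7550787 / 5000000 : ℝ)) (hq : 0 < q) (hqb : q ≤ (4916549 / 1250000 : ℝ))
    (hpq : 1 < p * q) : NoSol 5 p q :=
  noSol_rect (n := 5) (by norm_num) (N := 5) (a := (672719 / 1000000 : ℝ)) (b := (592069 / 1000000 : ℝ))
    (τ := (398737 / 1250000 : ℝ)) (A5 := (513069 / 1000000 : ℝ)) (A6 := (750351 / 1000000 : ℝ))
    (A9 := (449767 / 500000 : ℝ)) (A10 := (589561 / 1000000 : ℝ)) (s := (5419 / 50000 : ℝ)) (e := (1 / 10000000 : ℝ))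
    (pb := (7550787 / 5000000 : ℝ)) (qb := (4916549 / 1250000 : ℝ)) (by norm_num)
    (by norm_num) (by norm_num) (by norm_num) (by norm_num) (by norm_num) (by norm_num) (by norm_num)
    (by norm_num) (by norm_num)
    (by norm_num) (by norm_num) (by norm_num) (by norm_num) (by norm_num)
    rfl rfl rfl rfl rfl rfl (by norm_num) (by norm_num) (by norm_num) hp hpb hq hqb hpq

theorem rowL5_4 {p q : ℝ} (hp : 0 < p) (hpb : p ≤ (15108417 / 10000000 : ℝ)) (hq : 0 < q) (hqb : q ≤ (39306019 / 10000000 : ℝ))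
    (hpq : 1 < p * q) : NoSol 5 p q :=
  noSol_rect (n := 5) (by norm_num) (N := 5) (a := (683501 / 1000000 : ℝ)) (b := (579641 / 1000000 : ℝ))
    (τ := (1602773 / 5000000 : ℝ)) (A5 := (255407 / 500000 : ℝ)) (A6 := (376159 / 500000 : ℝ))
    (A9 := (44931 / 50000 : ℝ)) (A10 := (118033 / 200000 : ℝ)) (s := (137 / 1250 : ℝ)) (e := (1 / 10000000 : ℝ))
    (pb := (15108417 / 10000000 : ℝ)) (qb := (39306019 / 10000000 : ℝ)) (by norm_num)
    (by norm_num) (by norm_num) (by norm_num) (by norm_num) (by norm_num) (by norm_num) (by norm_num)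
    (by norm_num) (by norm_num)
    (by norm_num) (by norm_num) (by norm_num) (by norm_num) (by norm_num)
    rfl rfl rfl rfl rfl rfl (by norm_num) (by norm_num) (by norm_num) hp hpb hq hqb hpq

theorem rowL5_5 {p q : ℝ} (hp : 0 < p) (hpb : p ≤ (604619 / 400000 : ℝ)) (hq : 0 < q) (hqb : q ≤ (19639819 / 5000000 : ℝ))
    (hpq : 1 < p * q) : NoSol 5 p q :=
  noSol_rect (n := 5) (by norm_num) (N := 5) (a := (34003 / 50000 : ℝ)) (b := (291743 / 500000 : ℝ))
    (τ := (798617 / 2500000 : ℝ)) (A5 := (257061 / 500000 : ℝ)) (A6 := (748791 / 1000000 : ℝ))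
    (A9 := (449919 / 500000 : ℝ)) (A10 := (294897 / 500000 : ℝ)) (s := (5457 / 50000 : ℝ)) (e := (1 / 10000000 : ℝ))
    (pb := (604619 / 400000 : ℝ)) (qb := (19639819 / 5000000 : ℝ)) (by norm_num)
    (by norm_num) (by norm_num) (by norm_num) (by norm_num) (by norm_num) (by norm_num) (by norm_num)
    (by norm_num) (by norm_num)
    (by norm_num) (by norm_num) (by norm_num) (by norm_num) (by norm_num)
    rfl rfl rfl rfl rfl rfl (by norm_num) (by norm_num) (by norm_num) hp hpb hq hqb hpq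

theorem rowL5_6 {p q : ℝ} (hp : 0 < p) (hpb : p ≤ (7561321 / 5000000 : ℝ)) (hq : 0 < q) (hqb : q ≤ (4906559 / 1250000 : ℝ))
    (hpq : 1 < p * q) : NoSol 5 p q :=
  noSol_rect (n := 5) (by norm_num) (N := 5) (a := (680657 / 1000000 : ℝ)) (b := (293867 / 500000 : ℝ))
    (τ := (3185041 / 10000000 : ℝ)) (A5 := (128427 / 250000 : ℝ)) (A6 := (749169 / 1000000 : ℝ))
    (A9 := (904067 / 1000000 : ℝ)) (A10 := (4689 / 8000 : ℝ)) (s := (339 / 3125 : ℝ)) (e := (1 / 10000000 : ℝ))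
    (pb := (7561321 / 5000000 : ℝ)) (qb := (4906559 / 1250000 : ℝ)) (by norm_num)
    (by norm_num) (by norm_num) (by norm_num) (by norm_num) (by norm_num) (by norm_num) (by norm_num)
    (by norm_num) (by norm_num)
    (by norm_num) (by norm_num) (by norm_num) (by norm_num) (by norm_num)
    rfl rfl rfl rfl rfl rfl (by norm_num) (by norm_num) (by norm_num) hp hpb hq hqb hpq

theorem rowL5_7 {p q : ℝ} (hp : 0 < p) (hpb : p ≤ (1512993 / 1000000 : ℝ)) (hq : 0 < q) (hqb : q ≤ (19612467 / 5000000 : ℝ))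
    (hpq : 1 < p * q) : NoSol 5 p q :=
  noSol_rect (n := 5) (by norm_num) (N := 5) (a := (680389 / 1000000 : ℝ)) (b := (23511 / 40000 : ℝ))
    (τ := (127529 / 400000 : ℝ)) (A5 := (64179 / 125000 : ℝ)) (A6 := (149907 / 200000 : ℝ))
    (A9 := (904517 / 1000000 : ℝ)) (A10 := (585419 / 1000000 : ℝ)) (s := (339 / 3125 : ℝ)) (e := (1 / 10000000 : ℝ))
    (pb := (1512993 / 1000000 : ℝ)) (qb := (19612467 / 5000000 : ℝ)) (by norm_num)
    (by norm_num) (by norm_num) (by norm_num) (by norm_num) (by norm_num) (by norm_num) (by norm_num)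
    (by norm_num) (by norm_num)
    (by norm_num) (by norm_num) (by norm_num) (by norm_num) (by norm_num)
    rfl rfl rfl rfl rfl rfl (by norm_num) (by norm_num) (by norm_num) hp hpb hq hqb hpq

theorem rowL5_8 {p q : ℝ} (hp : 0 < p) (hpb : p ≤ (15137313 / 10000000 : ℝ)) (hq : 0 < q) (hqb : q ≤ (19598489 / 5000000 : ℝ))
    (hpq : 1 < p * q) : NoSol 5 p q :=
  noSol_rect (n := 5) (by norm_num) (N := 5) (a := (136217 / 200000 : ℝ)) (b := (293263 / 500000 : ℝ))
    (τ := (3190903 / 10000000 : ℝ)) (A5 := (257417 / 500000 : ℝ)) (A6 := (747541 / 1000000 : ℝ))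
    (A9 := (904047 / 1000000 : ℝ)) (A10 := (586607 / 1000000 : ℝ)) (s := (679 / 6250 : ℝ)) (e := (1 / 10000000 : ℝ))
    (pb := (15137313 / 10000000 : ℝ)) (qb := (19598489 / 5000000 : ℝ)) (by norm_num)
    (by norm_num) (by norm_num) (by norm_num) (by norm_num) (by norm_num) (by norm_num) (by norm_num)
    (by norm_num) (by norm_num)
    (by norm_num) (by norm_num) (by norm_num) (by norm_num) (by norm_num)
    rfl rfl rfl rfl rfl rfl (by norm_num) (by norm_num) (by norm_num) hp hpb hq hqb hpq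

theorem rowL5_9 {p q : ℝ} (hp : 0 < p) (hpb : p ≤ (15144889 / 10000000 : ℝ)) (hq : 0 < q) (hqb : q ≤ (19584353 / 5000000 : ℝ))
    (hpq : 1 < p * q) : NoSol 5 p q :=
  noSol_rect (n := 5) (by norm_num) (N := 5) (a := (340101 / 500000 : ℝ)) (b := (292949 / 500000 : ℝ))
    (τ := (1598873 / 5000000 : ℝ)) (A5 := (257231 / 500000 : ℝ)) (A6 := (37411 / 50000 : ℝ))
    (A9 := (903427 / 1000000 : ℝ)) (A10 := (586479 / 1000000 : ℝ)) (s := (5439 / 50000 : ℝ)) (e := (1 / 10000000 : ℝ))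
    (pb := (15144889 / 10000000 : ℝ)) (qb := (19584353 / 5000000 : ℝ)) (by norm_num)
    (by norm_num) (by norm_num) (by norm_num) (by norm_num) (by norm_num) (by norm_num) (by norm_num)
    (by norm_num) (by norm_num)
    (by norm_num) (by norm_num) (by norm_num) (by norm_num) (by norm_num)
    rfl rfl rfl rfl rfl rfl (by norm_num) (by norm_num) (by norm_num) hp hpb hq hqb hpq

theorem rowL5_10 {p q : ℝ} (hp : 0 < p) (hpb : p ≤ (15152609 / 10000000 : ℝ)) (hq : 0 < q) (hqb : q ≤ (19569873 / 5000000 : ℝ))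
    (hpq : 1 < p * q) : NoSol 5 p q :=
  noSol_rect (n := 5) (by norm_num) (N := 5) (a := (679929 / 1000000 : ℝ)) (b := (146531 / 250000 : ℝ))
    (τ := (400373 / 1250000 : ℝ)) (A5 := (128597 / 250000 : ℝ)) (A6 := (748421 / 1000000 : ℝ))
    (A9 := (451571 / 500000 : ℝ)) (A10 := (586349 / 1000000 : ℝ)) (s := (10881 / 100000 : ℝ)) (e := (1 / 10000000 : ℝ))
    (pb := (15152609 / 10000000 : ℝ)) (qb := (19569873 / 5000000 : ℝ)) (by norm_num)
    (by norm_num) (by norm_num) (by norm_num) (by norm_num) (by norm_num) (by norm_num) (by norm_num)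
    (by norm_num) (by norm_num)
    (by norm_num) (by norm_num) (by norm_num) (by norm_num) (by norm_num)
    rfl rfl rfl rfl rfl rfl (by norm_num) (by norm_num) (by norm_num) hp hpb hq hqb hpq

theorem rowL5_11 {p q : ℝ} (hp : 0 < p) (hpb : p ≤ (15160313 / 10000000 : ℝ)) (hq : 0 < q) (hqb : q ≤ (39110289 / 10000000 : ℝ))
    (hpq : 1 < p * q) : NoSol 5 p q :=
  noSol_rect (n := 5) (by norm_num) (N := 5) (a := (42327 / 62500 : ℝ)) (b := (588253 / 1000000 : ℝ))
    (τ := (159813 / 500000 : ℝ)) (A5 := (514877 / 1000000 : ℝ)) (A6 := (14967 / 20000 : ℝ))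
    (A9 := (45273 / 50000 : ℝ)) (A10 := (583787 / 1000000 : ℝ)) (s := (10847 / 100000 : ℝ)) (e := (1 / 10000000 : ℝ))
    (pb := (15160313 / 10000000 : ℝ)) (qb := (39110289 / 10000000 : ℝ)) (by norm_num)
    (by norm_num) (by norm_num) (by norm_num) (by norm_num) (by norm_num) (by norm_num) (by norm_num)
    (by norm_num) (by norm_num)
    (by norm_num) (by norm_num) (by norm_num) (by norm_num) (by norm_num)
    rfl rfl rfl rfl rfl rfl (by norm_num) (by norm_num) (by norm_num) hp hpb hq hqb hpq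

theorem rowL5_12 {p q : ℝ} (hp : 0 < p) (hpb : p ≤ (3033651 / 2000000 : ℝ)) (hq : 0 < q) (hqb : q ≤ (19540473 / 5000000 : ℝ))
    (hpq : 1 < p * q) : NoSol 5 p q :=
  noSol_rect (n := 5) (by norm_num) (N := 5) (a := (67883 / 100000 : ℝ)) (b := (589197 / 1000000 : ℝ))
    (τ := (1612383 / 5000000 : ℝ)) (A5 := (514213 / 1000000 : ℝ)) (A6 := (749697 / 1000000 : ℝ))
    (A9 := (179761 / 200000 : ℝ)) (A10 := (588069 / 1000000 : ℝ)) (s := (2721 / 25000 : ℝ)) (e := (1 / 10000000 : ℝ))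
    (pb := (3033651 / 2000000 : ℝ)) (qb := (19540473 / 5000000 : ℝ)) (by norm_num)
    (by norm_num) (by norm_num) (by norm_num) (by norm_num) (by norm_num) (by norm_num) (by norm_num)
    (by norm_num) (by norm_num)
    (by norm_num) (by norm_num) (by norm_num) (by norm_num) (by norm_num)
    rfl rfl rfl rfl rfl rfl (by norm_num) (by norm_num) (by norm_num) hp hpb hq hqb hpq

theorem rowL5_13 {p q : ℝ} (hp : 0 < p) (hpb : p ≤ (7588213 / 5000000 : ℝ)) (hq : 0 < q) (hqb : q ≤ (39050753 / 10000000 : ℝ))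
    (hpq : 1 < p * q) : NoSol 5 p q :=
  noSol_rect (n := 5) (by norm_num) (N := 5) (a := (67879 / 100000 : ℝ)) (b := (146653 / 250000 : ℝ))
    (τ := (3232139 / 10000000 : ℝ)) (A5 := (2567 / 5000 : ℝ)) (A6 := (750479 / 1000000 : ℝ))
    (A9 := (179769 / 200000 : ℝ)) (A10 := (117553 / 200000 : ℝ)) (s := (5457 / 50000 : ℝ)) (e := (1 / 10000000 : ℝ))
    (pb := (7588213 / 5000000 : ℝ)) (qb := (39050753 / 10000000 : ℝ)) (by norm_num)
    (by norm_num) (by norm_num) (by norm_num) (by norm_num) (by norm_num) (by norm_num) (by norm_num)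
    (by norm_num) (by norm_num)
    (by norm_num) (by norm_num) (by norm_num) (by norm_num) (by norm_num)
    rfl rfl rfl rfl rfl rfl (by norm_num) (by norm_num) (by norm_num) hp hpb hq hqb hpq

theorem rowL5_14 {p q : ℝ} (hp : 0 < p) (hpb : p ≤ (3036949 / 2000000 : ℝ)) (hq : 0 < q) (hqb : q ≤ (39019747 / 10000000 : ℝ))
    (hpq : 1 < p * q) : NoSol 5 p q :=
  noSol_rect (n := 5) (by norm_num) (N := 5) (a := (84913 / 125000 : ℝ)) (b := (293319 / 500000 : ℝ))
    (τ := (1619137 / 5000000 : ℝ)) (A5 := (64159 / 125000 : ℝ)) (A6 := (750557 / 1000000 : ℝ))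
    (A9 := (224653 / 250000 : ℝ)) (A10 := (587803 / 1000000 : ℝ)) (s := (10919 / 100000 : ℝ)) (e := (1 / 10000000 : ℝ))
    (pb := (3036949 / 2000000 : ℝ)) (qb := (39019747 / 10000000 : ℝ)) (by norm_num)
    (by norm_num) (by norm_num) (by norm_num) (by norm_num) (by norm_num) (by norm_num) (by norm_num)
    (by norm_num) (by norm_num)
    (by norm_num) (by norm_num) (by norm_num) (by norm_num) (by norm_num)
    rfl rfl rfl rfl rfl rfl (by norm_num) (by norm_num) (by norm_num) hp hpb hq hqb hpq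

theorem rowL5_15 {p q : ℝ} (hp : 0 < p) (hpb : p ≤ (7596489 / 5000000 : ℝ)) (hq : 0 < q) (hqb : q ≤ (487353 / 125000 : ℝ))
    (hpq : 1 < p * q) : NoSol 5 p q :=
  noSol_rect (n := 5) (by norm_num) (N := 5) (a := (678451 / 1000000 : ℝ)) (b := (14739 / 25000 : ℝ))
    (τ := (201251 / 625000 : ℝ)) (A5 := (64551 / 125000 : ℝ)) (A6 := (373327 / 500000 : ℝ))
    (A9 := (180517 / 200000 : ℝ)) (A10 := (585797 / 1000000 : ℝ)) (s := (10863 / 100000 : ℝ)) (e := (1 / 10000000 : ℝ))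
    (pb := (7596489 / 5000000 : ℝ)) (qb := (487353 / 125000 : ℝ)) (by norm_num)
    (by norm_num) (by norm_num) (by norm_num) (by norm_num) (by norm_num) (by norm_num) (by norm_num)
    (by norm_num) (by norm_num)
    (by norm_num) (by norm_num) (by norm_num) (by norm_num) (by norm_num)
    rfl rfl rfl rfl rfl rfl (by norm_num) (by norm_num) (by norm_num) hp hpb hq hqb hpq

theorem rowL5_16 {p q : ℝ} (hp : 0 < p) (hpb : p ≤ (3040283 / 2000000 : ℝ)) (hq : 0 < q) (hqb : q ≤ (38957119 / 10000000 : ℝ))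
    (hpq : 1 < p * q) : NoSol 5 p q :=
  noSol_rect (n := 5) (by norm_num) (N := 5) (a := (339157 / 500000 : ℝ)) (b := (588827 / 1000000 : ℝ))
    (τ := (201667 / 625000 : ℝ)) (A5 := (51623 / 100000 : ℝ)) (A6 := (186721 / 250000 : ℝ))
    (A9 := (45109 / 50000 : ℝ)) (A10 := (585837 / 1000000 : ℝ)) (s := (10877 / 100000 : ℝ)) (e := (1 / 10000000 : ℝ))
    (pb := (3040283 / 2000000 : ℝ)) (qb := (38957119 / 10000000 : ℝ)) (by norm_num)
    (by norm_num) (by norm_num) (by norm_num) (by norm_num) (by norm_num) (by norm_num) (by norm_num)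
    (by norm_num) (by norm_num)
    (by norm_num) (by norm_num) (by norm_num) (by norm_num) (by norm_num)
    rfl rfl rfl rfl rfl rfl (by norm_num) (by norm_num) (by norm_num) hp hpb hq hqb hpq

theorem rowL5_17 {p q : ℝ} (hp : 0 < p) (hpb : p ≤ (7604911 / 5000000 : ℝ)) (hq : 0 < q) (hqb : q ≤ (3892529 / 1000000 : ℝ))
    (hpq : 1 < p * q) : NoSol 5 p q :=
  noSol_rect (n := 5) (by norm_num) (N := 5) (a := (43061 / 62500 : ℝ)) (b := (582571 / 1000000 : ℝ))
    (τ := (3280489 / 10000000 : ℝ)) (A5 := (15999 / 31250 : ℝ)) (A6 := (150479 / 200000 : ℝ))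
    (A9 := (891781 / 1000000 : ℝ)) (A10 := (295969 / 500000 : ℝ)) (s := (2201 / 20000 : ℝ)) (e := (1 / 10000000 : ℝ))
    (pb := (7604911 / 5000000 : ℝ)) (qb := (3892529 / 1000000 : ℝ)) (by norm_num)
    (by norm_num) (by norm_num) (by norm_num) (by norm_num) (by norm_num) (by norm_num) (by norm_num)
    (by norm_num) (by norm_num)
    (by norm_num) (by norm_num) (by norm_num) (by norm_num) (by norm_num)
    rfl rfl rfl rfl rfl rfl (by norm_num) (by norm_num) (by norm_num) hp hpb hq hqb hpq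

theorem rowL5_18 {p q : ℝ} (hp : 0 < p) (hpb : p ≤ (3043709 / 2000000 : ℝ)) (hq : 0 < q) (hqb : q ≤ (7778727 / 2000000 : ℝ))
    (hpq : 1 < p * q) : NoSol 5 p q :=
  noSol_rect (n := 5) (by norm_num) (N := 5) (a := (689721 / 1000000 : ℝ)) (b := (145543 / 250000 : ℝ))
    (τ := (3278281 / 10000000 : ℝ)) (A5 := (512119 / 1000000 : ℝ)) (A6 := (752033 / 1000000 : ℝ))
    (A9 := (893761 / 1000000 : ℝ)) (A10 := (295199 / 500000 : ℝ)) (s := (5499 / 50000 : ℝ)) (e := (1 / 10000000 : ℝ))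
    (pb := (3043709 / 2000000 : ℝ)) (qb := (7778727 / 2000000 : ℝ)) (by norm_num)
    (by norm_num) (by norm_num) (by norm_num) (by norm_num) (by norm_num) (by norm_num) (by norm_num)
    (by norm_num) (by norm_num)
    (by norm_num) (by norm_num) (by norm_num) (by norm_num) (by norm_num)
    rfl rfl rfl rfl rfl rfl (by norm_num) (by norm_num) (by norm_num) hp hpb hq hqb hpq

theorem rowL5_19 {p q : ℝ} (hp : 0 < p) (hpb : p ≤ (3045503 / 2000000 : ℝ)) (hq : 0 < q) (hqb : q ≤ (38860857 / 10000000 : ℝ))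
    (hpq : 1 < p * q) : NoSol 5 p q :=
  noSol_rect (n := 5) (by norm_num) (N := 5) (a := (689061 / 1000000 : ℝ)) (b := (581391 / 1000000 : ℝ))
    (τ := (3278783 / 10000000 : ℝ)) (A5 := (256327 / 500000 : ℝ)) (A6 := (375763 / 500000 : ℝ))
    (A9 := (178897 / 200000 : ℝ)) (A10 := (294819 / 500000 : ℝ)) (s := (11003 / 100000 : ℝ)) (e := (1 / 10000000 : ℝ))
    (pb := (3045503 / 2000000 : ℝ)) (qb := (38860857 / 10000000 : ℝ)) (by norm_num)
    (by norm_num) (by norm_num) (by norm_num) (by norm_num) (by norm_num) (by norm_num) (by norm_num)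
    (by norm_num) (by norm_num)
    (by norm_num) (by norm_num) (by norm_num) (by norm_num) (by norm_num)
    rfl rfl rfl rfl rfl rfl (by norm_num) (by norm_num) (by norm_num) hp hpb hq hqb hpq

theorem rowL5_20 {p q : ℝ} (hp : 0 < p) (hpb : p ≤ (7618203 / 5000000 : ℝ)) (hq : 0 < q) (hqb : q ≤ (1941361 / 500000 : ℝ))
    (hpq : 1 < p * q) : NoSol 5 p q :=
  noSol_rect (n := 5) (by norm_num) (N := 5) (a := (172127 / 250000 : ℝ)) (b := (287007 / 500000 : ℝ))
    (τ := (3265009 / 10000000 : ℝ)) (A5 := (514237 / 1000000 : ℝ)) (A6 := (37533 / 50000 : ℝ))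
    (A9 := (897559 / 1000000 : ℝ)) (A10 := (146541 / 250000 : ℝ)) (s := (2761 / 25000 : ℝ)) (e := (1 / 10000000 : ℝ))
    (pb := (7618203 / 5000000 : ℝ)) (qb := (1941361 / 500000 : ℝ)) (by norm_num)
    (by norm_num) (by norm_num) (by norm_num) (by norm_num) (by norm_num) (by norm_num) (by norm_num)
    (by norm_num) (by norm_num)
    (by norm_num) (by norm_num) (by norm_num) (by norm_num) (by norm_num)
    rfl rfl rfl rfl rfl rfl (by norm_num) (by norm_num) (by norm_num) hp hpb hq hqb hpq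

theorem rowL5_21 {p q : ℝ} (hp : 0 < p) (hpb : p ≤ (609821 / 400000 : ℝ)) (hq : 0 < q) (hqb : q ≤ (9698487 / 2500000 : ℝ))
    (hpq : 1 < p * q) : NoSol 5 p q :=
  noSol_rect (n := 5) (by norm_num) (N := 5) (a := (6837 / 10000 : ℝ)) (b := (36309 / 62500 : ℝ))
    (τ := (1640473 / 5000000 : ℝ)) (A5 := (31971 / 62500 : ℝ)) (A6 := (15071 / 20000 : ℝ))
    (A9 := (448541 / 500000 : ℝ)) (A10 := (585711 / 1000000 : ℝ)) (s := (11 / 100 : ℝ)) (e := (1 / 10000000 : ℝ))
    (pb := (609821 / 400000 : ℝ)) (qb := (9698487 / 2500000 : ℝ)) (by norm_num)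
    (by norm_num) (by norm_num) (by norm_num) (by norm_num) (by norm_num) (by norm_num) (by norm_num)
    (by norm_num) (by norm_num)
    (by norm_num) (by norm_num) (by norm_num) (by norm_num) (by norm_num)
    rfl rfl rfl rfl rfl rfl (by norm_num) (by norm_num) (by norm_num) hp hpb hq hqb hpq

theorem rowL5_22 {p q : ℝ} (hp : 0 < p) (hpb : p ≤ (15254867 / 10000000 : ℝ)) (hq : 0 < q) (hqb : q ≤ (19379947 / 5000000 : ℝ))
    (hpq : 1 < p * q) : NoSol 5 p q :=
  noSol_rect (n := 5) (by norm_num) (N := 5) (a := (34177 / 50000 : ℝ)) (b := (582047 / 1000000 : ℝ))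
    (τ := (1642669 / 5000000 : ℝ)) (A5 := (256001 / 500000 : ℝ)) (A6 := (376299 / 500000 : ℝ))
    (A9 := (224317 / 250000 : ℝ)) (A10 := (14651 / 25000 : ℝ)) (s := (5497 / 50000 : ℝ)) (e := (1 / 10000000 : ℝ))
    (pb := (15254867 / 10000000 : ℝ)) (qb := (19379947 / 5000000 : ℝ)) (by norm_num)
    (by norm_num) (by norm_num) (by norm_num) (by norm_num) (by norm_num) (by norm_num) (by norm_num)
    (by norm_num) (by norm_num)
    (by norm_num) (by norm_num) (by norm_num) (by norm_num) (by norm_num)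
    rfl rfl rfl rfl rfl rfl (by norm_num) (by norm_num) (by norm_num) hp hpb hq hqb hpq

theorem rowL5_23 {p q : ℝ} (hp : 0 < p) (hpb : p ≤ (15264337 / 10000000 : ℝ)) (hq : 0 < q) (hqb : q ≤ (19362541 / 5000000 : ℝ))
    (hpq : 1 < p * q) : NoSol 5 p q :=
  noSol_rect (n := 5) (by norm_num) (N := 5) (a := (87257 / 125000 : ℝ)) (b := (285253 / 500000 : ℝ))
    (τ := (3279867 / 10000000 : ℝ)) (A5 := (513591 / 1000000 : ℝ)) (A6 := (750937 / 1000000 : ℝ))
    (A9 := (449379 / 500000 : ℝ)) (A10 := (584913 / 1000000 : ℝ)) (s := (1107 / 10000 : ℝ)) (e := (1 / 10000000 : ℝ))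
    (pb := (15264337 / 10000000 : ℝ)) (qb := (19362541 / 5000000 : ℝ)) (by norm_num)
    (by norm_num) (by norm_num) (by norm_num) (by norm_num) (by norm_num) (by norm_num) (by norm_num)
    (by norm_num) (by norm_num)
    (by norm_num) (by norm_num) (by norm_num) (by norm_num) (by norm_num)
    rfl rfl rfl rfl rfl rfl (by norm_num) (by norm_num) (by norm_num) hp hpb hq hqb hpq

theorem rowL5_24 {p q : ℝ} (hp : 0 < p) (hpb : p ≤ (15274109 / 10000000 : ℝ)) (hq : 0 < q) (hqb : q ≤ (3868987 / 1000000 : ℝ))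
    (hpq : 1 < p * q) : NoSol 5 p q :=
  noSol_rect (n := 5) (by norm_num) (N := 5) (a := (350257 / 500000 : ℝ)) (b := (570387 / 1000000 : ℝ))
    (τ := (3287237 / 10000000 : ℝ)) (A5 := (25721 / 50000 : ℝ)) (A6 := (374963 / 500000 : ℝ))
    (A9 := (448803 / 500000 : ℝ)) (A10 := (73251 / 125000 : ℝ)) (s := (5539 / 50000 : ℝ)) (e := (1 / 10000000 : ℝ))
    (pb := (15274109 / 10000000 : ℝ)) (qb := (3868987 / 1000000 : ℝ)) (by norm_num)
    (by norm_num) (by norm_num) (by norm_num) (by norm_num) (by norm_num) (by norm_num) (by norm_num)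
    (by norm_num) (by norm_num)
    (by norm_num) (by norm_num) (by norm_num) (by norm_num) (by norm_num)
    rfl rfl rfl rfl rfl rfl (by norm_num) (by norm_num) (by norm_num) hp hpb hq hqb hpq

theorem rowL5_25 {p q : ℝ} (hp : 0 < p) (hpb : p ≤ (7642011 / 5000000 : ℝ)) (hq : 0 < q) (hqb : q ≤ (38653617 / 10000000 : ℝ))
    (hpq : 1 < p * q) : NoSol 5 p q :=
  noSol_rect (n := 5) (by norm_num) (N := 5) (a := (35231 / 50000 : ℝ)) (b := (284101 / 500000 : ℝ))
    (τ := (3294857 / 10000000 : ℝ)) (A5 := (16043 / 31250 : ℝ)) (A6 := (46877 / 62500 : ℝ))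
    (A9 := (898813 / 1000000 : ℝ)) (A10 := (73229 / 125000 : ℝ)) (s := (2773 / 25000 : ℝ)) (e := (1 / 10000000 : ℝ))
    (pb := (7642011 / 5000000 : ℝ)) (qb := (38653617 / 10000000 : ℝ)) (by norm_num)
    (by norm_num) (by norm_num) (by norm_num) (by norm_num) (by norm_num) (by norm_num) (by norm_num)
    (by norm_num) (by norm_num)
    (by norm_num) (by norm_num) (by norm_num) (by norm_num) (by norm_num)
    rfl rfl rfl rfl rfl rfl (by norm_num) (by norm_num) (by norm_num) hp hpb hq hqb hpq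

theorem rowL5_26 {p q : ℝ} (hp : 0 < p) (hpb : p ≤ (1529401 / 1000000 : ℝ)) (hq : 0 < q) (hqb : q ≤ (38616923 / 10000000 : ℝ))
    (hpq : 1 < p * q) : NoSol 5 p q :=
  noSol_rect (n := 5) (by norm_num) (N := 5) (a := (711621 / 1000000 : ℝ)) (b := (565081 / 1000000 : ℝ))
    (τ := (3288531 / 10000000 : ℝ)) (A5 := (6423 / 12500 : ℝ)) (A6 := (187393 / 250000 : ℝ))
    (A9 := (901647 / 1000000 : ℝ)) (A10 := (23333 / 40000 : ℝ)) (s := (11091 / 100000 : ℝ)) (e := (1 / 10000000 : ℝ))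
    (pb := (1529401 / 1000000 : ℝ)) (qb := (38616923 / 10000000 : ℝ)) (by norm_num)
    (by norm_num) (by norm_num) (by norm_num) (by norm_num) (by norm_num) (by norm_num) (by norm_num)
    (by norm_num) (by norm_num)
    (by norm_num) (by norm_num) (by norm_num) (by norm_num) (by norm_num)
    rfl rfl rfl rfl rfl rfl (by norm_num) (by norm_num) (by norm_num) hp hpb hq hqb hpq

theorem rowL5_27 {p q : ℝ} (hp : 0 < p) (hpb : p ≤ (3060749 / 2000000 : ℝ)) (hq : 0 < q) (hqb : q ≤ (19290019 / 5000000 : ℝ))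
    (hpq : 1 < p * q) : NoSol 5 p q :=
  noSol_rect (n := 5) (by norm_num) (N := 5) (a := (14307 / 20000 : ℝ)) (b := (17733 / 31250 : ℝ))
    (τ := (329123 / 1000000 : ℝ)) (A5 := (4097 / 8000 : ℝ)) (A6 := (751019 / 1000000 : ℝ))
    (A9 := (226079 / 250000 : ℝ)) (A10 := (145241 / 250000 : ℝ)) (s := (2211 / 20000 : ℝ)) (e := (1 / 10000000 : ℝ))
    (pb := (3060749 / 2000000 : ℝ)) (qb := (19290019 / 5000000 : ℝ)) (by norm_num)
    (by norm_num) (by norm_num) (by norm_num) (by norm_num) (by norm_num) (by norm_num) (by norm_num)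
    (by norm_num) (by norm_num)
    (by norm_num) (by norm_num) (by norm_num) (by norm_num) (by norm_num)
    rfl rfl rfl rfl rfl rfl (by norm_num) (by norm_num) (by norm_num) hp hpb hq hqb hpq

theorem rowL5_28 {p q : ℝ} (hp : 0 < p) (hpb : p ≤ (15313269 / 10000000 : ℝ)) (hq : 0 < q) (hqb : q ≤ (4818021 / 1250000 : ℝ))
    (hpq : 1 < p * q) : NoSol 5 p q :=
  noSol_rect (n := 5) (by norm_num) (N := 5) (a := (177591 / 250000 : ℝ)) (b := (17503 / 31250 : ℝ))
    (τ := (825091 / 2500000 : ℝ)) (A5 := (32553 / 62500 : ℝ)) (A6 := (743843 / 1000000 : ℝ))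
    (A9 := (13964 / 15625 : ℝ)) (A10 := (73599 / 125000 : ℝ)) (s := (559 / 5000 : ℝ)) (e := (1 / 10000000 : ℝ))
    (pb := (15313269 / 10000000 : ℝ)) (qb := (4818021 / 1250000 : ℝ)) (by norm_num)
    (by norm_num) (by norm_num) (by norm_num) (by norm_num) (by norm_num) (by norm_num) (by norm_num)
    (by norm_num) (by norm_num)
    (by norm_num) (by norm_num) (by norm_num) (by norm_num) (by norm_num)
    rfl rfl rfl rfl rfl rfl (by norm_num) (by norm_num) (by norm_num) hp hpb hq hqb hpq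

theorem rowL5_29 {p q : ℝ} (hp : 0 < p) (hpb : p ≤ (15323737 / 10000000 : ℝ)) (hq : 0 < q) (hqb : q ≤ (38509153 / 10000000 : ℝ))
    (hpq : 1 < p * q) : NoSol 5 p q :=
  noSol_rect (n := 5) (by norm_num) (N := 5) (a := (359613 / 500000 : ℝ)) (b := (561887 / 1000000 : ℝ))
    (τ := (3306361 / 10000000 : ℝ)) (A5 := (517463 / 1000000 : ℝ)) (A6 := (373017 / 500000 : ℝ))
    (A9 := (179567 / 200000 : ℝ)) (A10 := (18319 / 31250 : ℝ)) (s := (5569 / 50000 : ℝ)) (e := (1 / 10000000 : ℝ))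
    (pb := (15323737 / 10000000 : ℝ)) (qb := (38509153 / 10000000 : ℝ)) (by norm_num)
    (by norm_num) (by norm_num) (by norm_num) (by norm_num) (by norm_num) (by norm_num) (by norm_num)
    (by norm_num) (by norm_num)
    (by norm_num) (by norm_num) (by norm_num) (by norm_num) (by norm_num)
    rfl rfl rfl rfl rfl rfl (by norm_num) (by norm_num) (by norm_num) hp hpb hq hqb hpq

theorem rowL5_30 {p q : ℝ} (hp : 0 < p) (hpb : p ≤ (3066893 / 2000000 : ℝ)) (hq : 0 < q) (hqb : q ≤ (38470757 / 10000000 : ℝ))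
    (hpq : 1 < p * q) : NoSol 5 p q :=
  noSol_rect (n := 5) (by norm_num) (N := 5) (a := (716217 / 1000000 : ℝ)) (b := (279401 / 500000 : ℝ))
    (τ := (3326451 / 10000000 : ℝ)) (A5 := (515021 / 1000000 : ℝ)) (A6 := (749473 / 1000000 : ℝ))
    (A9 := (223911 / 250000 : ℝ)) (A10 := (586117 / 1000000 : ℝ)) (s := (11193 / 100000 : ℝ)) (e := (1 / 10000000 : ℝ))
    (pb := (3066893 / 2000000 : ℝ)) (qb := (38470757 / 10000000 : ℝ)) (by norm_num)
    (by norm_num) (by norm_num) (by norm_num) (by norm_num) (by norm_num) (by norm_num) (by norm_num)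
    (by norm_num) (by norm_num)
    (by norm_num) (by norm_num) (by norm_num) (by norm_num) (by norm_num)
    rfl rfl rfl rfl rfl rfl (by norm_num) (by norm_num) (by norm_num) hp hpb hq hqb hpq

theorem rowL5_31 {p q : ℝ} (hp : 0 < p) (hpb : p ≤ (15345339 / 10000000 : ℝ)) (hq : 0 < q) (hqb : q ≤ (38431503 / 10000000 : ℝ))
    (hpq : 1 < p * q) : NoSol 5 p q :=
  noSol_rect (n := 5) (by norm_num) (N := 5) (a := (91573 / 125000 : ℝ)) (b := (556217 / 1000000 : ℝ))
    (τ := (1667509 / 5000000 : ℝ)) (A5 := (514987 / 1000000 : ℝ)) (A6 := (93659 / 125000 : ℝ))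
    (A9 := (179047 / 200000 : ℝ)) (A10 := (293249 / 500000 : ℝ)) (s := (2801 / 25000 : ℝ)) (e := (1 / 10000000 : ℝ))
    (pb := (15345339 / 10000000 : ℝ)) (qb := (38431503 / 10000000 : ℝ)) (by norm_num)
    (by norm_num) (by norm_num) (by norm_num) (by norm_num) (by norm_num) (by norm_num) (by norm_num)
    (by norm_num) (by norm_num)
    (by norm_num) (by norm_num) (by norm_num) (by norm_num) (by norm_num)
    rfl rfl rfl rfl rfl rfl (by norm_num) (by norm_num) (by norm_num) hp hpb hq hqb hpq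

theorem rowL5_32 {p q : ℝ} (hp : 0 < p) (hpb : p ≤ (383901 / 250000 : ℝ)) (hq : 0 < q) (hqb : q ≤ (38391813 / 10000000 : ℝ))
    (hpq : 1 < p * q) : NoSol 5 p q :=
  noSol_rect (n := 5) (by norm_num) (N := 5) (a := (364931 / 500000 : ℝ)) (b := (562939 / 1000000 : ℝ))
    (τ := (839299 / 2500000 : ℝ)) (A5 := (510793 / 1000000 : ℝ)) (A6 := (752569 / 1000000 : ℝ))
    (A9 := (895729 / 1000000 : ℝ)) (A10 := (586353 / 1000000 : ℝ)) (s := (279 / 2500 : ℝ)) (e := (1 / 10000000 : ℝ))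
    (pb := (383901 / 250000 : ℝ)) (qb := (38391813 / 10000000 : ℝ)) (by norm_num)
    (by norm_num) (by norm_num) (by norm_num) (by norm_num) (by norm_num) (by norm_num) (by norm_num)
    (by norm_num) (by norm_num)
    (by norm_num) (by norm_num) (by norm_num) (by norm_num) (by norm_num)
    rfl rfl rfl rfl rfl rfl (by norm_num) (by norm_num) (by norm_num) hp hpb hq hqb hpq

theorem rowL5_33 {p q : ℝ} (hp : 0 < p) (hpb : p ≤ (48023 / 31250 : ℝ)) (hq : 0 < q) (hqb : q ≤ (38352851 / 10000000 : ℝ))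
    (hpq : 1 < p * q) : NoSol 5 p q :=
  noSol_rect (n := 5) (by norm_num) (N := 5) (a := (724159 / 1000000 : ℝ)) (b := (55981 / 100000 : ℝ))
    (τ := (52311 / 156250 : ℝ)) (A5 := (513831 / 1000000 : ℝ)) (A6 := (149889 / 200000 : ℝ))
    (A9 := (897059 / 1000000 : ℝ)) (A10 := (585589 / 1000000 : ℝ)) (s := (559 / 5000 : ℝ)) (e := (1 / 10000000 : ℝ))
    (pb := (48023 / 31250 : ℝ)) (qb := (38352851 / 10000000 : ℝ)) (by norm_num)
    (by norm_num) (by norm_num) (by norm_num) (by norm_num) (by norm_num) (by norm_num) (by norm_num)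
    (by norm_num) (by norm_num)
    (by norm_num) (by norm_num) (by norm_num) (by norm_num) (by norm_num)
    rfl rfl rfl rfl rfl rfl (by norm_num) (by norm_num) (by norm_num) hp hpb hq hqb hpq

theorem rowL5_34 {p q : ℝ} (hp : 0 < p) (hpb : p ≤ (3844729 / 2500000 : ℝ)) (hq : 0 < q) (hqb : q ≤ (38311739 / 10000000 : ℝ))
    (hpq : 1 < p * q) : NoSol 5 p q :=
  noSol_rect (n := 5) (by norm_num) (N := 5) (a := (715657 / 1000000 : ℝ)) (b := (17723 / 31250 : ℝ))
    (τ := (3372611 / 10000000 : ℝ)) (A5 := (25601 / 50000 : ℝ)) (A6 := (150493 / 200000 : ℝ))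
    (A9 := (223273 / 250000 : ℝ)) (A10 := (117361 / 200000 : ℝ)) (s := (2233 / 20000 : ℝ)) (e := (1 / 10000000 : ℝ))
    (pb := (3844729 / 2500000 : ℝ)) (qb := (38311739 / 10000000 : ℝ)) (by norm_num)
    (by norm_num) (by norm_num) (by norm_num) (by norm_num) (by norm_num) (by norm_num) (by norm_num)
    (by norm_num) (by norm_num)
    (by norm_num) (by norm_num) (by norm_num) (by norm_num) (by norm_num)
    rfl rfl rfl rfl rfl rfl (by norm_num) (by norm_num) (by norm_num) hp hpb hq hqb hpq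

theorem rowL5_35 {p q : ℝ} (hp : 0 < p) (hpb : p ≤ (7695337 / 5000000 : ℝ)) (hq : 0 < q) (hqb : q ≤ (38269881 / 10000000 : ℝ))
    (hpq : 1 < p * q) : NoSol 5 p q :=
  noSol_rect (n := 5) (by norm_num) (N := 5) (a := (143139 / 200000 : ℝ)) (b := (56733 / 100000 : ℝ))
    (τ := (1686121 / 5000000 : ℝ)) (A5 := (512727 / 1000000 : ℝ)) (A6 := (11741 / 15625 : ℝ))
    (A9 := (178913 / 200000 : ℝ)) (A10 := (292923 / 500000 : ℝ)) (s := (2231 / 20000 : ℝ)) (e := (1 / 10000000 : ℝ))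
    (pb := (7695337 / 5000000 : ℝ)) (qb := (38269881 / 10000000 : ℝ)) (by norm_num)
    (by norm_num) (by norm_num) (by norm_num) (by norm_num) (by norm_num) (by norm_num) (by norm_num)
    (by norm_num) (by norm_num)
    (by norm_num) (by norm_num) (by norm_num) (by norm_num) (by norm_num)
    rfl rfl rfl rfl rfl rfl (by norm_num) (by norm_num) (by norm_num) hp hpb hq hqb hpq

theorem rowL5_36 {p q : ℝ} (hp : 0 < p) (hpb : p ≤ (1925333 / 1250000 : ℝ)) (hq : 0 < q) (hqb : q ≤ (38227403 / 10000000 : ℝ))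
    (hpq : 1 < p * q) : NoSol 5 p q :=
  noSol_rect (n := 5) (by norm_num) (N := 5) (a := (715613 / 1000000 : ℝ)) (b := (56641 / 100000 : ℝ))
    (τ := (1689393 / 5000000 : ℝ)) (A5 := (25651 / 50000 : ℝ)) (A6 := (750977 / 1000000 : ℝ))
    (A9 := (447253 / 500000 : ℝ)) (A10 := (585867 / 1000000 : ℝ)) (s := (11167 / 100000 : ℝ)) (e := (1 / 10000000 : ℝ))
    (pb := (1925333 / 1250000 : ℝ)) (qb := (38227403 / 10000000 : ℝ)) (by norm_num)
    (by norm_num) (by norm_num) (by norm_num) (by norm_num) (by norm_num) (by norm_num) (by norm_num)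
    (by norm_num) (by norm_num)
    (by norm_num) (by norm_num) (by norm_num) (by norm_num) (by norm_num)
    rfl rfl rfl rfl rfl rfl (by norm_num) (by norm_num) (by norm_num) hp hpb hq hqb hpq

theorem rowL5_37 {p q : ℝ} (hp : 0 < p) (hpb : p ≤ (15414237 / 10000000 : ℝ)) (hq : 0 < q) (hqb : q ≤ (7636841 / 2000000 : ℝ))
    (hpq : 1 < p * q) : NoSol 5 p q :=
  noSol_rect (n := 5) (by norm_num) (N := 5) (a := (710419 / 1000000 : ℝ)) (b := (71421 / 125000 : ℝ))
    (τ := (3350971 / 10000000 : ℝ)) (A5 := (514533 / 1000000 : ℝ)) (A6 := (149949 / 200000 : ℝ))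
    (A9 := (902019 / 1000000 : ℝ)) (A10 := (579217 / 1000000 : ℝ)) (s := (5537 / 50000 : ℝ)) (e := (1 / 10000000 : ℝ))
    (pb := (15414237 / 10000000 : ℝ)) (qb := (7636841 / 2000000 : ℝ)) (by norm_num)
    (by norm_num) (by norm_num) (by norm_num) (by norm_num) (by norm_num) (by norm_num) (by norm_num)
    (by norm_num) (by norm_num)
    (by norm_num) (by norm_num) (by norm_num) (by norm_num) (by norm_num)
    rfl rfl rfl rfl rfl rfl (by norm_num) (by norm_num) (by norm_num) hp hpb hq hqb hpq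

theorem rowL5_38 {p q : ℝ} (hp : 0 < p) (hpb : p ≤ (1928293 / 1250000 : ℝ)) (hq : 0 < q) (hqb : q ≤ (38142621 / 10000000 : ℝ))
    (hpq : 1 < p * q) : NoSol 5 p q :=
  noSol_rect (n := 5) (by norm_num) (N := 5) (a := (357113 / 500000 : ℝ)) (b := (286019 / 500000 : ℝ))
    (τ := (3401423 / 10000000 : ℝ)) (A5 := (258253 / 500000 : ℝ)) (A6 := (748543 / 1000000 : ℝ))
    (A9 := (887997 / 1000000 : ℝ)) (A10 := (14747 / 25000 : ℝ)) (s := (5583 / 50000 : ℝ)) (e := (1 / 10000000 : ℝ))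
    (pb := (1928293 / 1250000 : ℝ)) (qb := (38142621 / 10000000 : ℝ)) (by norm_num)
    (by norm_num) (by norm_num) (by norm_num) (by norm_num) (by norm_num) (by norm_num) (by norm_num)
    (by norm_num) (by norm_num)
    (by norm_num) (by norm_num) (by norm_num) (by norm_num) (by norm_num)
    rfl rfl rfl rfl rfl rfl (by norm_num) (by norm_num) (by norm_num) hp hpb hq hqb hpq

theorem rowL5_39 {p q : ℝ} (hp : 0 < p) (hpb : p ≤ (15438863 / 10000000 : ℝ)) (hq : 0 < q) (hqb : q ≤ (9524809 / 2500000 : ℝ))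
    (hpq : 1 < p * q) : NoSol 5 p q :=
  noSol_rect (n := 5) (by norm_num) (N := 5) (a := (719411 / 1000000 : ℝ)) (b := (140073 / 250000 : ℝ))
    (τ := (1711271 / 5000000 : ℝ)) (A5 := (513307 / 1000000 : ℝ)) (A6 := (47027 / 62500 : ℝ))
    (A9 := (177393 / 200000 : ℝ)) (A10 := (36821 / 62500 : ℝ)) (s := (11281 / 100000 : ℝ)) (e := (1 / 10000000 : ℝ))
    (pb := (15438863 / 10000000 : ℝ)) (qb := (9524809 / 2500000 : ℝ)) (by norm_num)
    (by norm_num) (by norm_num) (by norm_num) (by norm_num) (by norm_num) (by norm_num) (by norm_num)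
    (by norm_num) (by norm_num)
    (by norm_num) (by norm_num) (by norm_num) (by norm_num) (by norm_num)
    rfl rfl rfl rfl rfl rfl (by norm_num) (by norm_num) (by norm_num) hp hpb hq hqb hpq

end Vale.Agent.Lib.P100
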