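import Vale.Agent.Lib.P100.Cover

/-!
Rational certificates, dimension 5.
-/

namespace Vale.Agent.Lib.P100

theorem rowL5_40 {p q : ℝ} (hp : 0 < p) (hpb : p ≤ (3862907 / 2500000 : ℝ)) (hq : 0 < q) (hqb : q ≤ (76109 / 20000 : ℝ))
    (hpq : 1 < p * q) : NoSol 5 p q :=
  noSol_rect (n := 5) (by norm_num) (N := 5) (a := (22519 / 31250 : ℝ)) (b := (559267 / 1000000 : ℝ))
    (τ := (1711433 / 5000000 : ℝ)) (A5 := (512613 / 1000000 : ℝ)) (A6 := (752669 / 1000000 : ℝ))
    (A9 := (222461 / 250000 : ℝ)) (A10 := (586939 / 1000000 : ℝ)) (s := (11273 / 100000 : ℝ)) (e := (1 / 10000000 : ℝ))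
    (pb := (3862907 / 2500000 : ℝ)) (qb := (76109 / 20000 : ℝ)) (by norm_num)
    (by norm_num) (by norm_num) (by norm_num) (by norm_num) (by norm_num) (by norm_num) (by norm_num)
    (by norm_num) (by norm_num)
    (by norm_num) (by norm_num) (by norm_num) (by norm_num) (by norm_num)
    rfl rfl rfl rfl rfl rfl (by norm_num) (by norm_num) (by norm_num) hp hpb hq hqb hpq

theorem rowL5_41 {p q : ℝ} (hp : 0 < p) (hpb : p ≤ (1933073 / 1250000 : ℝ)) (hq : 0 < q) (hqb : q ≤ (7601803 / 2000000 : ℝ))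
    (hpq : 1 < p * q) : NoSol 5 p q :=
  noSol_rect (n := 5) (by norm_num) (N := 5) (a := (144061 / 200000 : ℝ)) (b := (139861 / 250000 : ℝ))
    (τ := (343533 / 1000000 : ℝ)) (A5 := (512161 / 1000000 : ℝ)) (A6 := (753317 / 1000000 : ℝ))
    (A9 := (444437 / 500000 : ℝ)) (A10 := (587147 / 1000000 : ℝ)) (s := (2257 / 20000 : ℝ)) (e := (1 / 10000000 : ℝ))
    (pb := (1933073 / 1250000 : ℝ)) (qb := (7601803 / 2000000 : ℝ)) (by norm_num)
    (by norm_num) (by norm_num) (by norm_num) (by norm_num) (by norm_num) (by norm_num) (by norm_num)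
    (by norm_num) (by norm_num)
    (by norm_num) (by norm_num) (by norm_num) (by norm_num) (by norm_num)
    rfl rfl rfl rfl rfl rfl (by norm_num) (by norm_num) (by norm_num) hp hpb hq hqb hpq

theorem rowL5_42 {p q : ℝ} (hp : 0 < p) (hpb : p ≤ (15477849 / 10000000 : ℝ)) (hq : 0 < q) (hqb : q ≤ (4745373 / 1250000 : ℝ))
    (hpq : 1 < p * q) : NoSol 5 p q :=
  noSol_rect (n := 5) (by norm_num) (N := 5) (a := (717321 / 1000000 : ℝ)) (b := (351 / 625 : ℝ))
    (τ := (855609 / 2500000 : ℝ)) (A5 := (257487 / 500000 : ℝ)) (A6 := (750349 / 1000000 : ℝ))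
    (A9 := (445809 / 500000 : ℝ)) (A10 := (36573 / 62500 : ℝ)) (s := (11247 / 100000 : ℝ)) (e := (1 / 10000000 : ℝ))
    (pb := (15477849 / 10000000 : ℝ)) (qb := (4745373 / 1250000 : ℝ)) (by norm_num)
    (by norm_num) (by norm_num) (by norm_num) (by norm_num) (by norm_num) (by norm_num) (by norm_num)
    (by norm_num) (by norm_num)
    (by norm_num) (by norm_num) (by norm_num) (by norm_num) (by norm_num)
    rfl rfl rfl rfl rfl rfl (by norm_num) (by norm_num) (by norm_num) hp hpb hq hqb hpq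

theorem rowL5_43 {p q : ℝ} (hp : 0 < p) (hpb : p ≤ (7745719 / 5000000 : ℝ)) (hq : 0 < q) (hqb : q ≤ (9478999 / 2500000 : ℝ))
    (hpq : 1 < p * q) : NoSol 5 p q :=
  noSol_rect (n := 5) (by norm_num) (N := 5) (a := (144543 / 200000 : ℝ)) (b := (56189 / 100000 : ℝ))
    (τ := (215133 / 625000 : ℝ)) (A5 := (102877 / 200000 : ℝ)) (A6 := (93799 / 125000 : ℝ))
    (A9 := (444779 / 500000 : ℝ)) (A10 := (587213 / 1000000 : ℝ)) (s := (563 / 5000 : ℝ)) (e := (1 / 10000000 : ℝ))
    (pb := (7745719 / 5000000 : ℝ)) (qb := (9478999 / 2500000 : ℝ)) (by norm_num)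
    (by norm_num) (by norm_num) (by norm_num) (by norm_num) (by norm_num) (by norm_num) (by norm_num)
    (by norm_num) (by norm_num)
    (by norm_num) (by norm_num) (by norm_num) (by norm_num) (by norm_num)
    rfl rfl rfl rfl rfl rfl (by norm_num) (by norm_num) (by norm_num) hp hpb hq hqb hpq

theorem rowL5_44 {p q : ℝ} (hp : 0 < p) (hpb : p ≤ (3101053 / 2000000 : ℝ)) (hq : 0 < q) (hqb : q ≤ (7573601 / 2000000 : ℝ))
    (hpq : 1 < p * q) : NoSol 5 p q :=
  noSol_rect (n := 5) (by norm_num) (N := 5) (a := (359953 / 500000 : ℝ)) (b := (112403 / 200000 : ℝ))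
    (τ := (107783 / 312500 : ℝ)) (A5 := (51511 / 100000 : ℝ)) (A6 := (375089 / 500000 : ℝ))
    (A9 := (888773 / 1000000 : ℝ)) (A10 := (293507 / 500000 : ℝ)) (s := (11271 / 100000 : ℝ)) (e := (1 / 10000000 : ℝ))
    (pb := (3101053 / 2000000 : ℝ)) (qb := (7573601 / 2000000 : ℝ)) (by norm_num)
    (by norm_num) (by norm_num) (by norm_num) (by norm_num) (by norm_num) (by norm_num) (by norm_num)
    (by norm_num) (by norm_num)
    (by norm_num) (by norm_num) (by norm_num) (by norm_num) (by norm_num)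
    rfl rfl rfl rfl rfl rfl (by norm_num) (by norm_num) (by norm_num) hp hpb hq hqb hpq

theorem rowL5_45 {p q : ℝ} (hp : 0 < p) (hpb : p ≤ (3879833 / 2500000 : ℝ)) (hq : 0 < q) (hqb : q ≤ (1512773 / 400000 : ℝ))
    (hpq : 1 < p * q) : NoSol 5 p q :=
  noSol_rect (n := 5) (by norm_num) (N := 5) (a := (359909 / 500000 : ℝ)) (b := (281177 / 500000 : ℝ))
    (τ := (432363 / 1250000 : ℝ)) (A5 := (515119 / 1000000 : ℝ)) (A6 := (150063 / 200000 : ℝ))
    (A9 := (444123 / 500000 : ℝ)) (A10 := (293481 / 500000 : ℝ)) (s := (11277 / 100000 : ℝ)) (e := (1 / 10000000 : ℝ))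
    (pb := (3879833 / 2500000 : ℝ)) (qb := (1512773 / 400000 : ℝ)) (by norm_num)
    (by norm_num) (by norm_num) (by norm_num) (by norm_num) (by norm_num) (by norm_num) (by norm_num)
    (by norm_num) (by norm_num)
    (by norm_num) (by norm_num) (by norm_num) (by norm_num) (by norm_num)
    rfl rfl rfl rfl rfl rfl (by norm_num) (by norm_num) (by norm_num) hp hpb hq hqb hpq

theorem rowL5_46 {p q : ℝ} (hp : 0 < p) (hpb : p ≤ (7766821 / 5000000 : ℝ)) (hq : 0 < q) (hqb : q ≤ (7553991 / 2000000 : ℝ))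
    (hpq : 1 < p * q) : NoSol 5 p q :=
  noSol_rect (n := 5) (by norm_num) (N := 5) (a := (359973 / 500000 : ℝ)) (b := (5623 / 10000 : ℝ))
    (τ := (3467471 / 10000000 : ℝ)) (A5 := (515249 / 1000000 : ℝ)) (A6 := (375081 / 500000 : ℝ))
    (A9 := (888099 / 1000000 : ℝ)) (A10 := (293411 / 500000 : ℝ)) (s := (2821 / 25000 : ℝ)) (e := (1 / 10000000 : ℝ))
    (pb := (7766821 / 5000000 : ℝ)) (qb := (7553991 / 2000000 : ℝ)) (by norm_num)
    (by norm_num) (by norm_num) (by norm_num) (by norm_num) (by norm_num) (by norm_num) (by norm_num)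
    (by norm_num) (by norm_num)
    (by norm_num) (by norm_num) (by norm_num) (by norm_num) (by norm_num)
    rfl rfl rfl rfl rfl rfl (by norm_num) (by norm_num) (by norm_num) hp hpb hq hqb hpq

theorem rowL5_47 {p q : ℝ} (hp : 0 < p) (hpb : p ≤ (15548167 / 10000000 : ℝ)) (hq : 0 < q) (hqb : q ≤ (37719893 / 10000000 : ℝ))
    (hpq : 1 < p * q) : NoSol 5 p q :=
  noSol_rect (n := 5) (by norm_num) (N := 5) (a := (366267 / 500000 : ℝ)) (b := (554423 / 1000000 : ℝ))
    (τ := (3471857 / 10000000 : ℝ)) (A5 := (516293 / 1000000 : ℝ)) (A6 := (187509 / 250000 : ℝ))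
    (A9 := (443731 / 500000 : ℝ)) (A10 := (586011 / 1000000 : ℝ)) (s := (5671 / 50000 : ℝ)) (e := (1 / 10000000 : ℝ))
    (pb := (15548167 / 10000000 : ℝ)) (qb := (37719893 / 10000000 : ℝ)) (by norm_num)
    (by norm_num) (by norm_num) (by norm_num) (by norm_num) (by norm_num) (by norm_num) (by norm_num)
    (by norm_num) (by norm_num)
    (by norm_num) (by norm_num) (by norm_num) (by norm_num) (by norm_num)
    rfl rfl rfl rfl rfl rfl (by norm_num) (by norm_num) (by norm_num) hp hpb hq hqb hpq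

theorem rowL5_48 {p q : ℝ} (hp : 0 < p) (hpb : p ≤ (1945369 / 1250000 : ℝ)) (hq : 0 < q) (hqb : q ≤ (18834621 / 5000000 : ℝ))
    (hpq : 1 < p * q) : NoSol 5 p q :=
  noSol_rect (n := 5) (by norm_num) (N := 5) (a := (183249 / 250000 : ℝ)) (b := (277081 / 500000 : ℝ))
    (τ := (3475919 / 10000000 : ℝ)) (A5 := (64577 / 125000 : ℝ)) (A6 := (14989 / 20000 : ℝ))
    (A9 := (888533 / 1000000 : ℝ)) (A10 := (585181 / 1000000 : ℝ)) (s := (11339 / 100000 : ℝ)) (e := (1 / 10000000 : ℝ))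
    (pb := (1945369 / 1250000 : ℝ)) (qb := (18834621 / 5000000 : ℝ)) (by norm_num)
    (by norm_num) (by norm_num) (by norm_num) (by norm_num) (by norm_num) (by norm_num) (by norm_num)
    (by norm_num) (by norm_num)
    (by norm_num) (by norm_num) (by norm_num) (by norm_num) (by norm_num)
    rfl rfl rfl rfl rfl rfl (by norm_num) (by norm_num) (by norm_num) hp hpb hq hqb hpq

theorem rowL5_49 {p q : ℝ} (hp : 0 < p) (hpb : p ≤ (7789021 / 5000000 : ℝ)) (hq : 0 < q) (hqb : q ≤ (7523571 / 2000000 : ℝ))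
    (hpq : 1 < p * q) : NoSol 5 p q :=
  noSol_rect (n := 5) (by norm_num) (N := 5) (a := (733903 / 1000000 : ℝ)) (b := (138539 / 250000 : ℝ))
    (τ := (1743539 / 5000000 : ℝ)) (A5 := (258279 / 500000 : ℝ)) (A6 := (374721 / 500000 : ℝ))
    (A9 := (888059 / 1000000 : ℝ)) (A10 := (117067 / 200000 : ℝ)) (s := (5673 / 50000 : ℝ)) (e := (1 / 10000000 : ℝ))
    (pb := (7789021 / 5000000 : ℝ)) (qb := (7523571 / 2000000 : ℝ)) (by norm_num)
    (by norm_num) (by norm_num) (by norm_num) (by norm_num) (by norm_num) (by norm_num) (by norm_num)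
    (by norm_num) (by norm_num)
    (by norm_num) (by norm_num) (by norm_num) (by norm_num) (by norm_num)
    rfl rfl rfl rfl rfl rfl (by norm_num) (by norm_num) (by norm_num) hp hpb hq hqb hpq

theorem rowL5_50 {p q : ℝ} (hp : 0 < p) (hpb : p ≤ (15593409 / 10000000 : ℝ)) (hq : 0 < q) (hqb : q ≤ (18782791 / 5000000 : ℝ))
    (hpq : 1 < p * q) : NoSol 5 p q :=
  noSol_rect (n := 5) (by norm_num) (N := 5) (a := (733909 / 1000000 : ℝ)) (b := (110809 / 200000 : ℝ))
    (τ := (1749303 / 5000000 : ℝ)) (A5 := (64599 / 125000 : ℝ)) (A6 := (149859 / 200000 : ℝ))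
    (A9 := (443571 / 500000 : ℝ)) (A10 := (292849 / 500000 : ℝ)) (s := (11359 / 100000 : ℝ)) (e := (1 / 10000000 : ℝ))
    (pb := (15593409 / 10000000 : ℝ)) (qb := (18782791 / 5000000 : ℝ)) (by norm_num)
    (by norm_num) (by norm_num) (by norm_num) (by norm_num) (by norm_num) (by norm_num) (by norm_num)
    (by norm_num) (by norm_num)
    (by norm_num) (by norm_num) (by norm_num) (by norm_num) (by norm_num)
    rfl rfl rfl rfl rfl rfl (by norm_num) (by norm_num) (by norm_num) hp hpb hq hqb hpq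

theorem rowL5_51 {p q : ℝ} (hp : 0 < p) (hpb : p ≤ (15608841 / 10000000 : ℝ)) (hq : 0 < q) (hqb : q ≤ (37512531 / 10000000 : ℝ))
    (hpq : 1 < p * q) : NoSol 5 p q :=
  noSol_rect (n := 5) (by norm_num) (N := 5) (a := (366327 / 500000 : ℝ)) (b := (111883 / 200000 : ℝ))
    (τ := (1753883 / 5000000 : ℝ)) (A5 := (513609 / 1000000 : ℝ)) (A6 := (751261 / 1000000 : ℝ))
    (A9 := (891151 / 1000000 : ℝ)) (A10 := (583113 / 1000000 : ℝ)) (s := (11297 / 100000 : ℝ)) (e := (1 / 10000000 : ℝ))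
    (pb := (15608841 / 10000000 : ℝ)) (qb := (37512531 / 10000000 : ℝ)) (by norm_num)
    (by norm_num) (by norm_num) (by norm_num) (by norm_num) (by norm_num) (by norm_num) (by norm_num)
    (by norm_num) (by norm_num)
    (by norm_num) (by norm_num) (by norm_num) (by norm_num) (by norm_num)
    rfl rfl rfl rfl rfl rfl (by norm_num) (by norm_num) (by norm_num) hp hpb hq hqb hpq

theorem rowL5_52 {p q : ℝ} (hp : 0 < p) (hpb : p ≤ (3124901 / 2000000 : ℝ)) (hq : 0 < q) (hqb : q ≤ (18729719 / 5000000 : ℝ))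
    (hpq : 1 < p * q) : NoSol 5 p q :=
  noSol_rect (n := 5) (by norm_num) (N := 5) (a := (141139 / 200000 : ℝ)) (b := (581571 / 1000000 : ℝ))
    (τ := (3515649 / 10000000 : ℝ)) (A5 := (102967 / 200000 : ℝ)) (A6 := (751199 / 1000000 : ℝ))
    (A9 := (222357 / 250000 : ℝ)) (A10 := (5829 / 10000 : ℝ)) (s := (11159 / 100000 : ℝ)) (e := (1 / 10000000 : ℝ))
    (pb := (3124901 / 2000000 : ℝ)) (qb := (18729719 / 5000000 : ℝ)) (by norm_num)
    (by norm_num) (by norm_num) (by norm_num) (by norm_num) (by norm_num) (by norm_num) (by norm_num)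
    (by norm_num) (by norm_num)
    (by norm_num) (by norm_num) (by norm_num) (by norm_num) (by norm_num)
    rfl rfl rfl rfl rfl rfl (by norm_num) (by norm_num) (by norm_num) hp hpb hq hqb hpq

theorem rowL5_53 {p q : ℝ} (hp : 0 < p) (hpb : p ≤ (15640597 / 10000000 : ℝ)) (hq : 0 < q) (hqb : q ≤ (18702867 / 5000000 : ℝ))
    (hpq : 1 < p * q) : NoSol 5 p q :=
  noSol_rect (n := 5) (by norm_num) (N := 5) (a := (21993 / 31250 : ℝ)) (b := (580347 / 1000000 : ℝ))
    (τ := (3538259 / 10000000 : ℝ)) (A5 := (517733 / 1000000 : ℝ)) (A6 := (74873 / 100000 : ℝ))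
    (A9 := (441507 / 500000 : ℝ)) (A10 := (146953 / 250000 : ℝ)) (s := (11219 / 100000 : ℝ)) (e := (1 / 10000000 : ℝ))
    (pb := (15640597 / 10000000 : ℝ)) (qb := (18702867 / 5000000 : ℝ)) (by norm_num)
    (by norm_num) (by norm_num) (by norm_num) (by norm_num) (by norm_num) (by norm_num) (by norm_num)
    (by norm_num) (by norm_num)
    (by norm_num) (by norm_num) (by norm_num) (by norm_num) (by norm_num)
    rfl rfl rfl rfl rfl rfl (by norm_num) (by norm_num) (by norm_num) hp hpb hq hqb hpq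

theorem rowL5_54 {p q : ℝ} (hp : 0 < p) (hpb : p ≤ (15656829 / 10000000 : ℝ)) (hq : 0 < q) (hqb : q ≤ (37350757 / 10000000 : ℝ))
    (hpq : 1 < p * q) : NoSol 5 p q :=
  noSol_rect (n := 5) (by norm_num) (N := 5) (a := (350231 / 500000 : ℝ)) (b := (57431 / 100000 : ℝ))
    (τ := (887403 / 2500000 : ℝ)) (A5 := (129337 / 250000 : ℝ)) (A6 := (749109 / 1000000 : ℝ))
    (A9 := (882969 / 1000000 : ℝ)) (A10 := (117489 / 200000 : ℝ)) (s := (2821 / 25000 : ℝ)) (e := (1 / 10000000 : ℝ))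
    (pb := (15656829 / 10000000 : ℝ)) (qb := (37350757 / 10000000 : ℝ)) (by norm_num)
    (by norm_num) (by norm_num) (by norm_num) (by norm_num) (by norm_num) (by norm_num) (by norm_num)
    (by norm_num) (by norm_num)
    (by norm_num) (by norm_num) (by norm_num) (by norm_num) (by norm_num)
    rfl rfl rfl rfl rfl rfl (by norm_num) (by norm_num) (by norm_num) hp hpb hq hqb hpq

theorem rowL5_55 {p q : ℝ} (hp : 0 < p) (hpb : p ≤ (15673463 / 10000000 : ℝ)) (hq : 0 < q) (hqb : q ≤ (74591 / 20000 : ℝ))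
    (hpq : 1 < p * q) : NoSol 5 p q :=
  noSol_rect (n := 5) (by norm_num) (N := 5) (a := (351081 / 500000 : ℝ)) (b := (35981 / 62500 : ℝ))
    (τ := (141909 / 400000 : ℝ)) (A5 := (103629 / 200000 : ℝ)) (A6 := (747629 / 1000000 : ℝ))
    (A9 := (885643 / 1000000 : ℝ)) (A10 := (292923 / 500000 : ℝ)) (s := (1407 / 12500 : ℝ)) (e := (1 / 10000000 : ℝ))
    (pb := (15673463 / 10000000 : ℝ)) (qb := (74591 / 20000 : ℝ)) (by norm_num)
    (by norm_num) (by norm_num) (by norm_num) (by norm_num) (by norm_num) (by norm_num) (by norm_num)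
    (by norm_num) (by norm_num)
    (by norm_num) (by norm_num) (by norm_num) (by norm_num) (by norm_num)
    rfl rfl rfl rfl rfl rfl (by norm_num) (by norm_num) (by norm_num) hp hpb hq hqb hpq

theorem rowL5_56 {p q : ℝ} (hp : 0 < p) (hpb : p ≤ (15690003 / 10000000 : ℝ)) (hq : 0 < q) (hqb : q ≤ (930977 / 250000 : ℝ))
    (hpq : 1 < p * q) : NoSol 5 p q :=
  noSol_rect (n := 5) (by norm_num) (N := 5) (a := (142023 / 200000 : ℝ)) (b := (571087 / 1000000 : ℝ))
    (τ := (3602733 / 10000000 : ℝ)) (A5 := (516203 / 1000000 : ℝ)) (A6 := (375891 / 500000 : ℝ))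
    (A9 := (437391 / 500000 : ℝ)) (A10 := (591567 / 1000000 : ℝ)) (s := (91 / 800 : ℝ)) (e := (1 / 10000000 : ℝ))
    (pb := (15690003 / 10000000 : ℝ)) (qb := (930977 / 250000 : ℝ)) (by norm_num)
    (by norm_num) (by norm_num) (by norm_num) (by norm_num) (by norm_num) (by norm_num) (by norm_num)
    (by norm_num) (by norm_num)
    (by norm_num) (by norm_num) (by norm_num) (by norm_num) (by norm_num)
    rfl rfl rfl rfl rfl rfl (by norm_num) (by norm_num) (by norm_num) hp hpb hq hqb hpq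

theorem rowL5_57 {p q : ℝ} (hp : 0 < p) (hpb : p ≤ (785363 / 500000 : ℝ)) (hq : 0 < q) (hqb : q ≤ (7436637 / 2000000 : ℝ))
    (hpq : 1 < p * q) : NoSol 5 p q :=
  noSol_rect (n := 5) (by norm_num) (N := 5) (a := (142007 / 200000 : ℝ)) (b := (35891 / 62500 : ℝ))
    (τ := (1794049 / 5000000 : ℝ)) (A5 := (258999 / 500000 : ℝ)) (A6 := (46837 / 62500 : ℝ))
    (A9 := (879597 / 1000000 : ℝ)) (A10 := (58817 / 100000 : ℝ)) (s := (5657 / 50000 : ℝ)) (e := (1 / 10000000 : ℝ))
    (pb := (785363 / 500000 : ℝ)) (qb := (7436637 / 2000000 : ℝ)) (by norm_num)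
    (by norm_num) (by norm_num) (by norm_num) (by norm_num) (by norm_num) (by norm_num) (by norm_num)
    (by norm_num) (by norm_num)
    (by norm_num) (by norm_num) (by norm_num) (by norm_num) (by norm_num)
    rfl rfl rfl rfl rfl rfl (by norm_num) (by norm_num) (by norm_num) hp hpb hq hqb hpq

theorem rowL5_58 {p q : ℝ} (hp : 0 < p) (hpb : p ≤ (3931191 / 2500000 : ℝ)) (hq : 0 < q) (hqb : q ≤ (37125083 / 10000000 : ℝ))
    (hpq : 1 < p * q) : NoSol 5 p q :=
  noSol_rect (n := 5) (by norm_num) (N := 5) (a := (354181 / 500000 : ℝ)) (b := (576567 / 1000000 : ℝ))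
    (τ := (1800619 / 5000000 : ℝ)) (A5 := (517837 / 1000000 : ℝ)) (A6 := (46841 / 62500 : ℝ))
    (A9 := (879181 / 1000000 : ℝ)) (A10 := (294129 / 500000 : ℝ)) (s := (11307 / 100000 : ℝ)) (e := (1 / 10000000 : ℝ))
    (pb := (3931191 / 2500000 : ℝ)) (qb := (37125083 / 10000000 : ℝ)) (by norm_num)
    (by norm_num) (by norm_num) (by norm_num) (by norm_num) (by norm_num) (by norm_num) (by norm_num)
    (by norm_num) (by norm_num)
    (by norm_num) (by norm_num) (by norm_num) (by norm_num) (by norm_num)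
    rfl rfl rfl rfl rfl rfl (by norm_num) (by norm_num) (by norm_num) hp hpb hq hqb hpq

theorem rowL5_59 {p q : ℝ} (hp : 0 < p) (hpb : p ≤ (7871351 / 5000000 : ℝ)) (hq : 0 < q) (hqb : q ≤ (4633297 / 1250000 : ℝ))
    (hpq : 1 < p * q) : NoSol 5 p q :=
  noSol_rect (n := 5) (by norm_num) (N := 5) (a := (707001 / 1000000 : ℝ)) (b := (577997 / 1000000 : ℝ))
    (τ := (452951 / 1250000 : ℝ)) (A5 := (20643 / 40000 : ℝ)) (A6 := (375309 / 500000 : ℝ))
    (A9 := (878513 / 1000000 : ℝ)) (A10 := (294499 / 500000 : ℝ)) (s := (5657 / 50000 : ℝ)) (e := (1 / 10000000 : ℝ))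
    (pb := (7871351 / 5000000 : ℝ)) (qb := (4633297 / 1250000 : ℝ)) (by norm_num)
    (by norm_num) (by norm_num) (by norm_num) (by norm_num) (by norm_num) (by norm_num) (by norm_num)
    (by norm_num) (by norm_num)
    (by norm_num) (by norm_num) (by norm_num) (by norm_num) (by norm_num)
    rfl rfl rfl rfl rfl rfl (by norm_num) (by norm_num) (by norm_num) hp hpb hq hqb hpq

theorem rowL5_60 {p q : ℝ} (hp : 0 < p) (hpb : p ≤ (15760917 / 10000000 : ℝ)) (hq : 0 < q) (hqb : q ≤ (37006447 / 10000000 : ℝ))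
    (hpq : 1 < p * q) : NoSol 5 p q :=
  noSol_rect (n := 5) (by norm_num) (N := 5) (a := (176047 / 250000 : ℝ)) (b := (290069 / 500000 : ℝ))
    (τ := (909771 / 2500000 : ℝ)) (A5 := (516243 / 1000000 : ℝ)) (A6 := (751603 / 1000000 : ℝ))
    (A9 := (54777 / 62500 : ℝ)) (A10 := (588949 / 1000000 : ℝ)) (s := (11319 / 100000 : ℝ)) (e := (1 / 10000000 : ℝ))
    (pb := (15760917 / 10000000 : ℝ)) (qb := (37006447 / 10000000 : ℝ)) (by norm_num)
    (by norm_num) (by norm_num) (by norm_num) (by norm_num) (by norm_num) (by norm_num) (by norm_num)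
    (by norm_num) (by norm_num)
    (by norm_num) (by norm_num) (by norm_num) (by norm_num) (by norm_num)
    rfl rfl rfl rfl rfl rfl (by norm_num) (by norm_num) (by norm_num) hp hpb hq hqb hpq

theorem rowL5_61 {p q : ℝ} (hp : 0 < p) (hpb : p ≤ (15779343 / 10000000 : ℝ)) (hq : 0 < q) (hqb : q ≤ (18472917 / 5000000 : ℝ))
    (hpq : 1 < p * q) : NoSol 5 p q :=
  noSol_rect (n := 5) (by norm_num) (N := 5) (a := (44607 / 62500 : ℝ)) (b := (568549 / 1000000 : ℝ))
    (τ := (3653377 / 10000000 : ℝ)) (A5 := (64293 / 125000 : ℝ)) (A6 := (752853 / 1000000 : ℝ))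
    (A9 := (175601 / 200000 : ℝ)) (A10 := (117561 / 200000 : ℝ)) (s := (713 / 6250 : ℝ)) (e := (1 / 10000000 : ℝ))
    (pb := (15779343 / 10000000 : ℝ)) (qb := (18472917 / 5000000 : ℝ)) (by norm_num)
    (by norm_num) (by norm_num) (by norm_num) (by norm_num) (by norm_num) (by norm_num) (by norm_num)
    (by norm_num) (by norm_num)
    (by norm_num) (by norm_num) (by norm_num) (by norm_num) (by norm_num)
    rfl rfl rfl rfl rfl rfl (by norm_num) (by norm_num) (by norm_num) hp hpb hq hqb hpq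

theorem rowL5_62 {p q : ℝ} (hp : 0 < p) (hpb : p ≤ (24683 / 15625 : ℝ)) (hq : 0 < q) (hqb : q ≤ (9221191 / 2500000 : ℝ))
    (hpq : 1 < p * q) : NoSol 5 p q :=
  noSol_rect (n := 5) (by norm_num) (N := 5) (a := (362213 / 500000 : ℝ)) (b := (280869 / 500000 : ℝ))
    (τ := (3607509 / 10000000 : ℝ)) (A5 := (128561 / 250000 : ℝ)) (A6 := (752331 / 1000000 : ℝ))
    (A9 := (446181 / 500000 : ℝ)) (A10 := (576097 / 1000000 : ℝ)) (s := (5671 / 50000 : ℝ)) (e := (1 / 10000000 : ℝ))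
    (pb := (24683 / 15625 : ℝ)) (qb := (9221191 / 2500000 : ℝ)) (by norm_num)
    (by norm_num) (by norm_num) (by norm_num) (by norm_num) (by norm_num) (by norm_num) (by norm_num)
    (by norm_num) (by norm_num)
    (by norm_num) (by norm_num) (by norm_num) (by norm_num) (by norm_num)
    rfl rfl rfl rfl rfl rfl (by norm_num) (by norm_num) (by norm_num) hp hpb hq hqb hpq

theorem rowL5_63 {p q : ℝ} (hp : 0 < p) (hpb : p ≤ (15816121 / 10000000 : ℝ)) (hq : 0 < q) (hqb : q ≤ (18413039 / 5000000 : ℝ))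
    (hpq : 1 < p * q) : NoSol 5 p q :=
  noSol_rect (n := 5) (by norm_num) (N := 5) (a := (1813 / 2500 : ℝ)) (b := (112349 / 200000 : ℝ))
    (τ := (1815433 / 5000000 : ℝ)) (A5 := (516869 / 1000000 : ℝ)) (A6 := (749909 / 1000000 : ℝ))
    (A9 := (177337 / 200000 : ℝ)) (A10 := (580613 / 1000000 : ℝ)) (s := (5693 / 50000 : ℝ)) (e := (1 / 10000000 : ℝ))
    (pb := (15816121 / 10000000 : ℝ)) (qb := (18413039 / 5000000 : ℝ)) (by norm_num)
    (by norm_num) (by norm_num) (by norm_num) (by norm_num) (by norm_num) (by norm_num) (by norm_num)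
    (by norm_num) (by norm_num)
    (by norm_num) (by norm_num) (by norm_num) (by norm_num) (by norm_num)
    rfl rfl rfl rfl rfl rfl (by norm_num) (by norm_num) (by norm_num) hp hpb hq hqb hpq

theorem rowL5_64 {p q : ℝ} (hp : 0 < p) (hpb : p ≤ (15835689 / 10000000 : ℝ)) (hq : 0 < q) (hqb : q ≤ (18381801 / 5000000 : ℝ))
    (hpq : 1 < p * q) : NoSol 5 p q :=
  noSol_rect (n := 5) (by norm_num) (N := 5) (a := (371487 / 500000 : ℝ)) (b := (68823 / 125000 : ℝ))
    (τ := (737759 / 2000000 : ℝ)) (A5 := (515729 / 1000000 : ℝ)) (A6 := (752803 / 1000000 : ℝ))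
    (A9 := (875429 / 1000000 : ℝ)) (A10 := (73423 / 125000 : ℝ)) (s := (11553 / 100000 : ℝ)) (e := (1 / 10000000 : ℝ))
    (pb := (15835689 / 10000000 : ℝ)) (qb := (18381801 / 5000000 : ℝ)) (by norm_num)
    (by norm_num) (by norm_num) (by norm_num) (by norm_num) (by norm_num) (by norm_num) (by norm_num)
    (by norm_num) (by norm_num)
    (by norm_num) (by norm_num) (by norm_num) (by norm_num) (by norm_num)
    rfl rfl rfl rfl rfl rfl (by norm_num) (by norm_num) (by norm_num) hp hpb hq hqb hpq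

theorem rowL5_65 {p q : ℝ} (hp : 0 < p) (hpb : p ≤ (15855353 / 10000000 : ℝ)) (hq : 0 < q) (hqb : q ≤ (9174883 / 2500000 : ℝ))
    (hpq : 1 < p * q) : NoSol 5 p q :=
  noSol_rect (n := 5) (by norm_num) (N := 5) (a := (741811 / 1000000 : ℝ)) (b := (553989 / 1000000 : ℝ))
    (τ := (931153 / 2500000 : ℝ)) (A5 := (512611 / 1000000 : ℝ)) (A6 := (755329 / 1000000 : ℝ))
    (A9 := (873301 / 1000000 : ℝ)) (A10 := (117831 / 200000 : ℝ)) (s := (11557 / 100000 : ℝ)) (e := (1 / 10000000 : ℝ))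
    (pb := (15855353 / 10000000 : ℝ)) (qb := (9174883 / 2500000 : ℝ)) (by norm_num)
    (by norm_num) (by norm_num) (by norm_num) (by norm_num) (by norm_num) (by norm_num) (by norm_num)
    (by norm_num) (by norm_num)
    (by norm_num) (by norm_num) (by norm_num) (by norm_num) (by norm_num)
    rfl rfl rfl rfl rfl rfl (by norm_num) (by norm_num) (by norm_num) hp hpb hq hqb hpq

theorem rowL5_66 {p q : ℝ} (hp : 0 < p) (hpb : p ≤ (7937747 / 5000000 : ℝ)) (hq : 0 < q) (hqb : q ≤ (18317711 / 5000000 : ℝ))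
    (hpq : 1 < p * q) : NoSol 5 p q :=
  noSol_rect (n := 5) (by norm_num) (N := 5) (a := (741329 / 1000000 : ℝ)) (b := (138647 / 250000 : ℝ))
    (τ := (1866143 / 5000000 : ℝ)) (A5 := (32089 / 62500 : ℝ)) (A6 := (754493 / 1000000 : ℝ))
    (A9 := (873633 / 1000000 : ℝ)) (A10 := (588621 / 1000000 : ℝ)) (s := (2311 / 20000 : ℝ)) (e := (1 / 10000000 : ℝ))
    (pb := (7937747 / 5000000 : ℝ)) (qb := (18317711 / 5000000 : ℝ)) (by norm_num)
    (by norm_num) (by norm_num) (by norm_num) (by norm_num) (by norm_num) (by norm_num) (by norm_num)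
    (by norm_num) (by norm_num)
    (by norm_num) (by norm_num) (by norm_num) (by norm_num) (by norm_num)
    rfl rfl rfl rfl rfl rfl (by norm_num) (by norm_num) (by norm_num) hp hpb hq hqb hpq

theorem rowL5_67 {p q : ℝ} (hp : 0 < p) (hpb : p ≤ (7948097 / 5000000 : ℝ)) (hq : 0 < q) (hqb : q ≤ (36570039 / 10000000 : ℝ))
    (hpq : 1 < p * q) : NoSol 5 p q :=
  noSol_rect (n := 5) (by norm_num) (N := 5) (a := (757837 / 1000000 : ℝ)) (b := (16993 / 31250 : ℝ))
    (τ := (3728887 / 10000000 : ℝ)) (A5 := (257923 / 500000 : ℝ)) (A6 := (187817 / 250000 : ℝ))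
    (A9 := (218907 / 250000 : ℝ)) (A10 := (293927 / 500000 : ℝ)) (s := (29 / 250 : ℝ)) (e := (1 / 10000000 : ℝ))
    (pb := (7948097 / 5000000 : ℝ)) (qb := (36570039 / 10000000 : ℝ)) (by norm_num)
    (by norm_num) (by norm_num) (by norm_num) (by norm_num) (by norm_num) (by norm_num) (by norm_num)
    (by norm_num) (by norm_num)
    (by norm_num) (by norm_num) (by norm_num) (by norm_num) (by norm_num)
    rfl rfl rfl rfl rfl rfl (by norm_num) (by norm_num) (by norm_num) hp hpb hq hqb hpq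

theorem rowL5_68 {p q : ℝ} (hp : 0 < p) (hpb : p ≤ (15917391 / 10000000 : ℝ)) (hq : 0 < q) (hqb : q ≤ (36503137 / 10000000 : ℝ))
    (hpq : 1 < p * q) : NoSol 5 p q :=
  noSol_rect (n := 5) (by norm_num) (N := 5) (a := (192317 / 250000 : ℝ)) (b := (8347 / 15625 : ℝ))
    (τ := (3729399 / 10000000 : ℝ)) (A5 := (103303 / 200000 : ℝ)) (A6 := (37553 / 50000 : ℝ))
    (A9 := (43879 / 50000 : ℝ)) (A10 := (5853 / 10000 : ℝ)) (s := (11647 / 100000 : ℝ)) (e := (1 / 10000000 : ℝ))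
    (pb := (15917391 / 10000000 : ℝ)) (qb := (36503137 / 10000000 : ℝ)) (by norm_num)
    (by norm_num) (by norm_num) (by norm_num) (by norm_num) (by norm_num) (by norm_num) (by norm_num)
    (by norm_num) (by norm_num)
    (by norm_num) (by norm_num) (by norm_num) (by norm_num) (by norm_num)
    rfl rfl rfl rfl rfl rfl (by norm_num) (by norm_num) (by norm_num) hp hpb hq hqb hpq

theorem rowL5_69 {p q : ℝ} (hp : 0 < p) (hpb : p ≤ (15938821 / 10000000 : ℝ)) (hq : 0 < q) (hqb : q ≤ (36434939 / 10000000 : ℝ))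
    (hpq : 1 < p * q) : NoSol 5 p q :=
  noSol_rect (n := 5) (by norm_num) (N := 5) (a := (769787 / 1000000 : ℝ)) (b := (264779 / 500000 : ℝ))
    (τ := (747381 / 2000000 : ℝ)) (A5 := (25927 / 50000 : ℝ)) (A6 := (150047 / 200000 : ℝ))
    (A9 := (876067 / 1000000 : ℝ)) (A10 := (146227 / 250000 : ℝ)) (s := (11701 / 100000 : ℝ)) (e := (1 / 10000000 : ℝ))
    (pb := (15938821 / 10000000 : ℝ)) (qb := (36434939 / 10000000 : ℝ)) (by norm_num)
    (by norm_num) (by norm_num) (by norm_num) (by norm_num) (by norm_num) (by norm_num) (by norm_num)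
    (by norm_num) (by norm_num)
    (by norm_num) (by norm_num) (by norm_num) (by norm_num) (by norm_num)
    rfl rfl rfl rfl rfl rfl (by norm_num) (by norm_num) (by norm_num) hp hpb hq hqb hpq

theorem rowL5_70 {p q : ℝ} (hp : 0 < p) (hpb : p ≤ (7980357 / 5000000 : ℝ)) (hq : 0 < q) (hqb : q ≤ (36366307 / 10000000 : ℝ))
    (hpq : 1 < p * q) : NoSol 5 p q :=
  noSol_rect (n := 5) (by norm_num) (N := 5) (a := (767201 / 1000000 : ℝ)) (b := (106803 / 200000 : ℝ))
    (τ := (3745407 / 10000000 : ℝ)) (A5 := (103631 / 200000 : ℝ)) (A6 := (749287 / 1000000 : ℝ))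
    (A9 := (175711 / 200000 : ℝ)) (A10 := (116803 / 200000 : ℝ)) (s := (11651 / 100000 : ℝ)) (e := (1 / 10000000 : ℝ))
    (pb := (7980357 / 5000000 : ℝ)) (qb := (36366307 / 10000000 : ℝ)) (by norm_num)
    (by norm_num) (by norm_num) (by norm_num) (by norm_num) (by norm_num) (by norm_num) (by norm_num)
    (by norm_num) (by norm_num)
    (by norm_num) (by norm_num) (by norm_num) (by norm_num) (by norm_num)
    rfl rfl rfl rfl rfl rfl (by norm_num) (by norm_num) (by norm_num) hp hpb hq hqb hpq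

theorem rowL5_71 {p q : ℝ} (hp : 0 < p) (hpb : p ≤ (7991471 / 5000000 : ℝ)) (hq : 0 < q) (hqb : q ≤ (36296517 / 10000000 : ℝ))
    (hpq : 1 < p * q) : NoSol 5 p q :=
  noSol_rect (n := 5) (by norm_num) (N := 5) (a := (763077 / 1000000 : ℝ)) (b := (535533 / 1000000 : ℝ))
    (τ := (751391 / 2000000 : ℝ)) (A5 := (518621 / 1000000 : ℝ)) (A6 := (149969 / 200000 : ℝ))
    (A9 := (175571 / 200000 : ℝ)) (A10 := (116591 / 200000 : ℝ)) (s := (5831 / 50000 : ℝ)) (e := (1 / 10000000 : ℝ))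
    (pb := (7991471 / 5000000 : ℝ)) (qb := (36296517 / 10000000 : ℝ)) (by norm_num)
    (by norm_num) (by norm_num) (by norm_num) (by norm_num) (by norm_num) (by norm_num) (by norm_num)
    (by norm_num) (by norm_num)
    (by norm_num) (by norm_num) (by norm_num) (by norm_num) (by norm_num)
    rfl rfl rfl rfl rfl rfl (by norm_num) (by norm_num) (by norm_num) hp hpb hq hqb hpq

theorem rowL5_72 {p q : ℝ} (hp : 0 < p) (hpb : p ≤ (16005449 / 10000000 : ℝ)) (hq : 0 < q) (hqb : q ≤ (18112997 / 5000000 : ℝ))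
    (hpq : 1 < p * q) : NoSol 5 p q :=
  noSol_rect (n := 5) (by norm_num) (N := 5) (a := (47757 / 62500 : ℝ)) (b := (133551 / 250000 : ℝ))
    (τ := (3766603 / 10000000 : ℝ)) (A5 := (16227 / 31250 : ℝ)) (A6 := (374267 / 500000 : ℝ))
    (A9 := (439341 / 500000 : ℝ)) (A10 := (582739 / 1000000 : ℝ)) (s := (729 / 6250 : ℝ)) (e := (1 / 10000000 : ℝ))
    (pb := (16005449 / 10000000 : ℝ)) (qb := (18112997 / 5000000 : ℝ)) (by norm_num)
    (by norm_num) (by norm_num) (by norm_num) (by norm_num) (by norm_num) (by norm_num) (by norm_num)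
    (by norm_num) (by norm_num)
    (by norm_num) (by norm_num) (by norm_num) (by norm_num) (by norm_num)
    rfl rfl rfl rfl rfl rfl (by norm_num) (by norm_num) (by norm_num) hp hpb hq hqb hpq

theorem rowL5_73 {p q : ℝ} (hp : 0 < p) (hpb : p ≤ (125223 / 78125 : ℝ)) (hq : 0 < q) (hqb : q ≤ (36154927 / 10000000 : ℝ))
    (hpq : 1 < p * q) : NoSol 5 p q :=
  noSol_rect (n := 5) (by norm_num) (N := 5) (a := (764273 / 1000000 : ℝ)) (b := (134031 / 250000 : ℝ))
    (τ := (3786453 / 10000000 : ℝ)) (A5 := (32463 / 62500 : ℝ)) (A6 := (374533 / 500000 : ℝ))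
    (A9 := (219187 / 250000 : ℝ)) (A10 := (291569 / 500000 : ℝ)) (s := (2919 / 25000 : ℝ)) (e := (1 / 10000000 : ℝ))
    (pb := (125223 / 78125 : ℝ)) (qb := (36154927 / 10000000 : ℝ)) (by norm_num)
    (by norm_num) (by norm_num) (by norm_num) (by norm_num) (by norm_num) (by norm_num) (by norm_num)
    (by norm_num) (by norm_num)
    (by norm_num) (by norm_num) (by norm_num) (by norm_num) (by norm_num)
    rfl rfl rfl rfl rfl rfl (by norm_num) (by norm_num) (by norm_num) hp hpb hq hqb hpq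

theorem rowL5_74 {p q : ℝ} (hp : 0 < p) (hpb : p ≤ (16051607 / 10000000 : ℝ)) (hq : 0 < q) (hqb : q ≤ (36082357 / 10000000 : ℝ))
    (hpq : 1 < p * q) : NoSol 5 p q :=
  noSol_rect (n := 5) (by norm_num) (N := 5) (a := (786761 / 1000000 : ℝ)) (b := (131671 / 250000 : ℝ))
    (τ := (3773587 / 10000000 : ℝ)) (A5 := (521239 / 1000000 : ℝ)) (A6 := (29881 / 40000 : ℝ))
    (A9 := (440701 / 500000 : ℝ)) (A10 := (289617 / 500000 : ℝ)) (s := (73 / 625 : ℝ)) (e := (1 / 10000000 : ℝ))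
    (pb := (16051607 / 10000000 : ℝ)) (qb := (36082357 / 10000000 : ℝ)) (by norm_num)
    (by norm_num) (by norm_num) (by norm_num) (by norm_num) (by norm_num) (by norm_num) (by norm_num)
    (by norm_num) (by norm_num)
    (by norm_num) (by norm_num) (by norm_num) (by norm_num) (by norm_num)
    rfl rfl rfl rfl rfl rfl (by norm_num) (by norm_num) (by norm_num) hp hpb hq hqb hpq

theorem rowL5_75 {p q : ℝ} (hp : 0 < p) (hpb : p ≤ (4018901 / 2500000 : ℝ)) (hq : 0 < q) (hqb : q ≤ (36010243 / 10000000 : ℝ))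
    (hpq : 1 < p * q) : NoSol 5 p q :=
  noSol_rect (n := 5) (by norm_num) (N := 5) (a := (394239 / 500000 : ℝ)) (b := (523801 / 1000000 : ℝ))
    (τ := (383011 / 1000000 : ℝ)) (A5 := (129473 / 250000 : ℝ)) (A6 := (751503 / 1000000 : ℝ))
    (A9 := (174847 / 200000 : ℝ)) (A10 := (583069 / 1000000 : ℝ)) (s := (5889 / 50000 : ℝ)) (e := (1 / 10000000 : ℝ))
    (pb := (4018901 / 2500000 : ℝ)) (qb := (36010243 / 10000000 : ℝ)) (by norm_num)
    (by norm_num) (by norm_num) (by norm_num) (by norm_num) (by norm_num) (by norm_num) (by norm_num)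
    (by norm_num) (by norm_num)
    (by norm_num) (by norm_num) (by norm_num) (by norm_num) (by norm_num)
    rfl rfl rfl rfl rfl rfl (by norm_num) (by norm_num) (by norm_num) hp hpb hq hqb hpq

theorem rowL5_76 {p q : ℝ} (hp : 0 < p) (hpb : p ≤ (16100077 / 10000000 : ℝ)) (hq : 0 < q) (hqb : q ≤ (35935583 / 10000000 : ℝ))
    (hpq : 1 < p * q) : NoSol 5 p q :=
  noSol_rect (n := 5) (by norm_num) (N := 5) (a := (393821 / 500000 : ℝ)) (b := (522769 / 1000000 : ℝ))
    (τ := (1924951 / 5000000 : ℝ)) (A5 := (519437 / 1000000 : ℝ)) (A6 := (750349 / 1000000 : ℝ))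
    (A9 := (871417 / 1000000 : ℝ)) (A10 := (292369 / 500000 : ℝ)) (s := (2363 / 20000 : ℝ)) (e := (1 / 10000000 : ℝ))
    (pb := (16100077 / 10000000 : ℝ)) (qb := (35935583 / 10000000 : ℝ)) (by norm_num)
    (by norm_num) (by norm_num) (by norm_num) (by norm_num) (by norm_num) (by norm_num) (by norm_num)
    (by norm_num) (by norm_num)
    (by norm_num) (by norm_num) (by norm_num) (by norm_num) (by norm_num)
    rfl rfl rfl rfl rfl rfl (by norm_num) (by norm_num) (by norm_num) hp hpb hq hqb hpq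

theorem rowL5_77 {p q : ℝ} (hp : 0 < p) (hpb : p ≤ (2015607 / 1250000 : ℝ)) (hq : 0 < q) (hqb : q ≤ (35859831 / 10000000 : ℝ))
    (hpq : 1 < p * q) : NoSol 5 p q :=
  noSol_rect (n := 5) (by norm_num) (N := 5) (a := (801123 / 1000000 : ℝ)) (b := (517103 / 1000000 : ℝ))
    (τ := (1939553 / 5000000 : ℝ)) (A5 := (259883 / 500000 : ℝ)) (A6 := (374747 / 500000 : ℝ))
    (A9 := (868381 / 1000000 : ℝ)) (A10 := (117517 / 200000 : ℝ)) (s := (11863 / 100000 : ℝ)) (e := (1 / 10000000 : ℝ))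
    (pb := (2015607 / 1250000 : ℝ)) (qb := (35859831 / 10000000 : ℝ)) (by norm_num)
    (by norm_num) (by norm_num) (by norm_num) (by norm_num) (by norm_num) (by norm_num) (by norm_num)
    (by norm_num) (by norm_num)
    (by norm_num) (by norm_num) (by norm_num) (by norm_num) (by norm_num)
    rfl rfl rfl rfl rfl rfl (by norm_num) (by norm_num) (by norm_num) hp hpb hq hqb hpq

theorem rowL5_78 {p q : ℝ} (hp : 0 < p) (hpb : p ≤ (8075009 / 5000000 : ℝ)) (hq : 0 < q) (hqb : q ≤ (3578353 / 1000000 : ℝ))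
    (hpq : 1 < p * q) : NoSol 5 p q :=
  noSol_rect (n := 5) (by norm_num) (N := 5) (a := (80311 / 100000 : ℝ)) (b := (519069 / 1000000 : ℝ))
    (τ := (3893577 / 10000000 : ℝ)) (A5 := (16229 / 31250 : ℝ)) (A6 := (750021 / 1000000 : ℝ))
    (A9 := (434519 / 500000 : ℝ)) (A10 := (58639 / 100000 : ℝ)) (s := (11851 / 100000 : ℝ)) (e := (1 / 10000000 : ℝ))
    (pb := (8075009 / 5000000 : ℝ)) (qb := (3578353 / 1000000 : ℝ)) (by norm_num)
    (by norm_num) (by norm_num) (by norm_num) (by norm_num) (by norm_num) (by norm_num) (by norm_num)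
    (by norm_num) (by norm_num)
    (by norm_num) (by norm_num) (by norm_num) (by norm_num) (by norm_num)
    rfl rfl rfl rfl rfl rfl (by norm_num) (by norm_num) (by norm_num) hp hpb hq hqb hpq

theorem rowL5_79 {p q : ℝ} (hp : 0 < p) (hpb : p ≤ (16175889 / 10000000 : ℝ)) (hq : 0 < q) (hqb : q ≤ (4463307 / 1250000 : ℝ))
    (hpq : 1 < p * q) : NoSol 5 p q :=
  noSol_rect (n := 5) (by norm_num) (N := 5) (a := (80029 / 100000 : ℝ)) (b := (64681 / 125000 : ℝ))
    (τ := (4893 / 12500 : ℝ)) (A5 := (259213 / 500000 : ℝ)) (A6 := (187799 / 250000 : ℝ))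
    (A9 := (434357 / 500000 : ℝ)) (A10 := (292891 / 500000 : ℝ)) (s := (11877 / 100000 : ℝ)) (e := (1 / 10000000 : ℝ))
    (pb := (16175889 / 10000000 : ℝ)) (qb := (4463307 / 1250000 : ℝ)) (by norm_num)
    (by norm_num) (by norm_num) (by norm_num) (by norm_num) (by norm_num) (by norm_num) (by norm_num)
    (by norm_num) (by norm_num)
    (by norm_num) (by norm_num) (by norm_num) (by norm_num) (by norm_num)
    rfl rfl rfl rfl rfl rfl (by norm_num) (by norm_num) (by norm_num) hp hpb hq hqb hpq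

end Vale.Agent.Lib.P100
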