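import Vale.Agent.Lib.P100.Cover

/-!
Rational certificates, dimension 5.
-/

namespace Vale.Agent.Lib.P100

theorem rowL5_80 {p q : ℝ} (hp : 0 < p) (hpb : p ≤ (810113 / 500000 : ℝ)) (hq : 0 < q) (hqb : q ≤ (7125527 / 2000000 : ℝ))
    (hpq : 1 < p * q) : NoSol 5 p q :=
  noSol_rect (n := 5) (by norm_num) (N := 5) (a := (12517 / 15625 : ℝ)) (b := (32369 / 62500 : ℝ))
    (τ := (392919 / 1000000 : ℝ)) (A5 := (518523 / 1000000 : ℝ)) (A6 := (750979 / 1000000 : ℝ))
    (A9 := (108639 / 125000 : ℝ)) (A10 := (292569 / 500000 : ℝ)) (s := (19 / 160 : ℝ)) (e := (1 / 10000000 : ℝ))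
    (pb := (810113 / 500000 : ℝ)) (qb := (7125527 / 2000000 : ℝ)) (by norm_num)
    (by norm_num) (by norm_num) (by norm_num) (by norm_num) (by norm_num) (by norm_num) (by norm_num)
    (by norm_num) (by norm_num)
    (by norm_num) (by norm_num) (by norm_num) (by norm_num) (by norm_num)
    rfl rfl rfl rfl rfl rfl (by norm_num) (by norm_num) (by norm_num) hp hpb hq hqb hpq

theorem rowL5_81 {p q : ℝ} (hp : 0 < p) (hpb : p ≤ (8114547 / 5000000 : ℝ)) (hq : 0 < q) (hqb : q ≤ (2221733 / 625000 : ℝ))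
    (hpq : 1 < p * q) : NoSol 5 p q :=
  noSol_rect (n := 5) (by norm_num) (N := 5) (a := (799059 / 1000000 : ℝ)) (b := (517531 / 1000000 : ℝ))
    (τ := (1976917 / 5000000 : ℝ)) (A5 := (259677 / 500000 : ℝ)) (A6 := (37547 / 50000 : ℝ))
    (A9 := (433031 / 500000 : ℝ)) (A10 := (586407 / 1000000 : ℝ)) (s := (11917 / 100000 : ℝ)) (e := (1 / 10000000 : ℝ))
    (pb := (8114547 / 5000000 : ℝ)) (qb := (2221733 / 625000 : ℝ)) (by norm_num)
    (by norm_num) (by norm_num) (by norm_num) (by norm_num) (by norm_num) (by norm_num) (by norm_num)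
    (by norm_num) (by norm_num)
    (by norm_num) (by norm_num) (by norm_num) (by norm_num) (by norm_num)
    rfl rfl rfl rfl rfl rfl (by norm_num) (by norm_num) (by norm_num) hp hpb hq hqb hpq

theorem rowL5_82 {p q : ℝ} (hp : 0 < p) (hpb : p ≤ (8128227 / 5000000 : ℝ)) (hq : 0 < q) (hqb : q ≤ (3546687 / 1000000 : ℝ))
    (hpq : 1 < p * q) : NoSol 5 p q :=
  noSol_rect (n := 5) (by norm_num) (N := 5) (a := (12483 / 15625 : ℝ)) (b := (517119 / 1000000 : ℝ))
    (τ := (993141 / 2500000 : ℝ)) (A5 := (64921 / 125000 : ℝ)) (A6 := (30037 / 40000 : ℝ))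
    (A9 := (865751 / 1000000 : ℝ)) (A10 := (586207 / 1000000 : ℝ)) (s := (11929 / 100000 : ℝ)) (e := (1 / 10000000 : ℝ))
    (pb := (8128227 / 5000000 : ℝ)) (qb := (3546687 / 1000000 : ℝ)) (by norm_num)
    (by norm_num) (by norm_num) (by norm_num) (by norm_num) (by norm_num) (by norm_num) (by norm_num)
    (by norm_num) (by norm_num)
    (by norm_num) (by norm_num) (by norm_num) (by norm_num) (by norm_num)
    rfl rfl rfl rfl rfl rfl (by norm_num) (by norm_num) (by norm_num) hp hpb hq hqb hpq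

theorem rowL5_83 {p q : ℝ} (hp : 0 < p) (hpb : p ≤ (8142171 / 5000000 : ℝ)) (hq : 0 < q) (hqb : q ≤ (35384891 / 10000000 : ℝ))
    (hpq : 1 < p * q) : NoSol 5 p q :=
  noSol_rect (n := 5) (by norm_num) (N := 5) (a := (39979 / 50000 : ℝ)) (b := (258579 / 500000 : ℝ))
    (τ := (998283 / 2500000 : ℝ)) (A5 := (103809 / 200000 : ℝ)) (A6 := (375639 / 500000 : ℝ))
    (A9 := (865433 / 1000000 : ℝ)) (A10 := (73241 / 125000 : ℝ)) (s := (5969 / 50000 : ℝ)) (e := (1 / 10000000 : ℝ))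
    (pb := (8142171 / 5000000 : ℝ)) (qb := (35384891 / 10000000 : ℝ)) (by norm_num)
    (by norm_num) (by norm_num) (by norm_num) (by norm_num) (by norm_num) (by norm_num) (by norm_num)
    (by norm_num) (by norm_num)
    (by norm_num) (by norm_num) (by norm_num) (by norm_num) (by norm_num)
    rfl rfl rfl rfl rfl rfl (by norm_num) (by norm_num) (by norm_num) hp hpb hq hqb hpq

theorem rowL5_84 {p q : ℝ} (hp : 0 < p) (hpb : p ≤ (1631247 / 1000000 : ℝ)) (hq : 0 < q) (hqb : q ≤ (2206363 / 625000 : ℝ))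
    (hpq : 1 < p * q) : NoSol 5 p q :=
  noSol_rect (n := 5) (by norm_num) (N := 5) (a := (396823 / 500000 : ℝ)) (b := (20787 / 40000 : ℝ))
    (τ := (126097 / 312500 : ℝ)) (A5 := (129403 / 250000 : ℝ)) (A6 := (75307 / 100000 : ℝ))
    (A9 := (107679 / 125000 : ℝ)) (A10 := (588281 / 1000000 : ℝ)) (s := (479 / 4000 : ℝ)) (e := (1 / 10000000 : ℝ))
    (pb := (1631247 / 1000000 : ℝ)) (qb := (2206363 / 625000 : ℝ)) (by norm_num)
    (by norm_num) (by norm_num) (by norm_num) (by norm_num) (by norm_num) (by norm_num) (by norm_num)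
    (by norm_num) (by norm_num)
    (by norm_num) (by norm_num) (by norm_num) (by norm_num) (by norm_num)
    rfl rfl rfl rfl rfl rfl (by norm_num) (by norm_num) (by norm_num) hp hpb hq hqb hpq

theorem rowL5_85 {p q : ℝ} (hp : 0 < p) (hpb : p ≤ (8170561 / 5000000 : ℝ)) (hq : 0 < q) (hqb : q ≤ (7043699 / 2000000 : ℝ))
    (hpq : 1 < p * q) : NoSol 5 p q :=
  noSol_rect (n := 5) (by norm_num) (N := 5) (a := (159711 / 200000 : ℝ)) (b := (128627 / 250000 : ℝ))
    (τ := (4047063 / 10000000 : ℝ)) (A5 := (516987 / 1000000 : ℝ)) (A6 := (150823 / 200000 : ℝ))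
    (A9 := (863139 / 1000000 : ℝ)) (A10 := (14643 / 25000 : ℝ)) (s := (3 / 25 : ℝ)) (e := (1 / 10000000 : ℝ))
    (pb := (8170561 / 5000000 : ℝ)) (qb := (7043699 / 2000000 : ℝ)) (by norm_num)
    (by norm_num) (by norm_num) (by norm_num) (by norm_num) (by norm_num) (by norm_num) (by norm_num)
    (by norm_num) (by norm_num)
    (by norm_num) (by norm_num) (by norm_num) (by norm_num) (by norm_num)
    rfl rfl rfl rfl rfl rfl (by norm_num) (by norm_num) (by norm_num) hp hpb hq hqb hpq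

theorem rowL5_86 {p q : ℝ} (hp : 0 < p) (hpb : p ≤ (4092603 / 2500000 : ℝ)) (hq : 0 < q) (hqb : q ≤ (35134127 / 10000000 : ℝ))
    (hpq : 1 < p * q) : NoSol 5 p q :=
  noSol_rect (n := 5) (by norm_num) (N := 5) (a := (790901 / 1000000 : ℝ)) (b := (523997 / 1000000 : ℝ))
    (τ := (250993 / 625000 : ℝ)) (A5 := (32697 / 62500 : ℝ)) (A6 := (373241 / 500000 : ℝ))
    (A9 := (868839 / 1000000 : ℝ)) (A10 := (58287 / 100000 : ℝ)) (s := (11883 / 100000 : ℝ)) (e := (1 / 10000000 : ℝ))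
    (pb := (4092603 / 2500000 : ℝ)) (qb := (35134127 / 10000000 : ℝ)) (by norm_num)
    (by norm_num) (by norm_num) (by norm_num) (by norm_num) (by norm_num) (by norm_num) (by norm_num)
    (by norm_num) (by norm_num)
    (by norm_num) (by norm_num) (by norm_num) (by norm_num) (by norm_num)
    rfl rfl rfl rfl rfl rfl (by norm_num) (by norm_num) (by norm_num) hp hpb hq hqb hpq

theorem rowL5_87 {p q : ℝ} (hp : 0 < p) (hpb : p ≤ (16400299 / 10000000 : ℝ)) (hq : 0 < q) (hqb : q ≤ (35048393 / 10000000 : ℝ))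
    (hpq : 1 < p * q) : NoSol 5 p q :=
  noSol_rect (n := 5) (by norm_num) (N := 5) (a := (196929 / 250000 : ℝ)) (b := (528251 / 1000000 : ℝ))
    (τ := (2044089 / 5000000 : ℝ)) (A5 := (258371 / 500000 : ℝ)) (A6 := (377201 / 500000 : ℝ))
    (A9 := (172547 / 200000 : ℝ)) (A10 := (585029 / 1000000 : ℝ)) (s := (2389 / 20000 : ℝ)) (e := (1 / 10000000 : ℝ))
    (pb := (16400299 / 10000000 : ℝ)) (qb := (35048393 / 10000000 : ℝ)) (by norm_num)
    (by norm_num) (by norm_num) (by norm_num) (by norm_num) (by norm_num) (by norm_num) (by norm_num)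
    (by norm_num) (by norm_num)
    (by norm_num) (by norm_num) (by norm_num) (by norm_num) (by norm_num)
    rfl rfl rfl rfl rfl rfl (by norm_num) (by norm_num) (by norm_num) hp hpb hq hqb hpq

theorem rowL5_88 {p q : ℝ} (hp : 0 < p) (hpb : p ≤ (4107553 / 2500000 : ℝ)) (hq : 0 < q) (hqb : q ≤ (17480721 / 5000000 : ℝ))
    (hpq : 1 < p * q) : NoSol 5 p q :=
  noSol_rect (n := 5) (by norm_num) (N := 5) (a := (780777 / 1000000 : ℝ)) (b := (133567 / 250000 : ℝ))
    (τ := (402891 / 1000000 : ℝ)) (A5 := (104587 / 200000 : ℝ)) (A6 := (186803 / 250000 : ℝ))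
    (A9 := (437053 / 500000 : ℝ)) (A10 := (576661 / 1000000 : ℝ)) (s := (5903 / 50000 : ℝ)) (e := (1 / 10000000 : ℝ))
    (pb := (4107553 / 2500000 : ℝ)) (qb := (17480721 / 5000000 : ℝ)) (by norm_num)
    (by norm_num) (by norm_num) (by norm_num) (by norm_num) (by norm_num) (by norm_num) (by norm_num)
    (by norm_num) (by norm_num)
    (by norm_num) (by norm_num) (by norm_num) (by norm_num) (by norm_num)
    rfl rfl rfl rfl rfl rfl (by norm_num) (by norm_num) (by norm_num) hp hpb hq hqb hpq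

theorem rowL5_89 {p q : ℝ} (hp : 0 < p) (hpb : p ≤ (16461343 / 10000000 : ℝ)) (hq : 0 < q) (hqb : q ≤ (17437473 / 5000000 : ℝ))
    (hpq : 1 < p * q) : NoSol 5 p q :=
  noSol_rect (n := 5) (by norm_num) (N := 5) (a := (78851 / 100000 : ℝ)) (b := (65733 / 125000 : ℝ))
    (τ := (82157 / 200000 : ℝ)) (A5 := (260753 / 500000 : ℝ)) (A6 := (187717 / 250000 : ℝ))
    (A9 := (861399 / 1000000 : ℝ)) (A10 := (584219 / 1000000 : ℝ)) (s := (11987 / 100000 : ℝ)) (e := (1 / 10000000 : ℝ))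
    (pb := (16461343 / 10000000 : ℝ)) (qb := (17437473 / 5000000 : ℝ)) (by norm_num)
    (by norm_num) (by norm_num) (by norm_num) (by norm_num) (by norm_num) (by norm_num) (by norm_num)
    (by norm_num) (by norm_num)
    (by norm_num) (by norm_num) (by norm_num) (by norm_num) (by norm_num)
    rfl rfl rfl rfl rfl rfl (by norm_num) (by norm_num) (by norm_num) hp hpb hq hqb hpq

theorem rowL5_90 {p q : ℝ} (hp : 0 < p) (hpb : p ≤ (164931 / 100000 : ℝ)) (hq : 0 < q) (hqb : q ≤ (34785487 / 10000000 : ℝ))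
    (hpq : 1 < p * q) : NoSol 5 p q :=
  noSol_rect (n := 5) (by norm_num) (N := 5) (a := (394287 / 500000 : ℝ)) (b := (262777 / 500000 : ℝ))
    (τ := (1032561 / 2500000 : ℝ)) (A5 := (130273 / 250000 : ℝ)) (A6 := (30053 / 40000 : ℝ))
    (A9 := (861391 / 1000000 : ℝ)) (A10 := (583617 / 1000000 : ℝ)) (s := (11999 / 100000 : ℝ)) (e := (1 / 10000000 : ℝ))
    (pb := (164931 / 100000 : ℝ)) (qb := (34785487 / 10000000 : ℝ)) (by norm_num)
    (by norm_num) (by norm_num) (by norm_num) (by norm_num) (by norm_num) (by norm_num) (by norm_num)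
    (by norm_num) (by norm_num)
    (by norm_num) (by norm_num) (by norm_num) (by norm_num) (by norm_num)
    rfl rfl rfl rfl rfl rfl (by norm_num) (by norm_num) (by norm_num) hp hpb hq hqb hpq

theorem rowL5_91 {p q : ℝ} (hp : 0 < p) (hpb : p ≤ (16525467 / 10000000 : ℝ)) (hq : 0 < q) (hqb : q ≤ (8673703 / 2500000 : ℝ))
    (hpq : 1 < p * q) : NoSol 5 p q :=
  noSol_rect (n := 5) (by norm_num) (N := 5) (a := (788727 / 1000000 : ℝ)) (b := (262709 / 500000 : ℝ))
    (τ := (518991 / 1250000 : ℝ)) (A5 := (130303 / 250000 : ℝ)) (A6 := (751209 / 1000000 : ℝ))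
    (A9 := (861133 / 1000000 : ℝ)) (A10 := (116667 / 200000 : ℝ)) (s := (1201 / 10000 : ℝ)) (e := (1 / 10000000 : ℝ))
    (pb := (16525467 / 10000000 : ℝ)) (qb := (8673703 / 2500000 : ℝ)) (by norm_num)
    (by norm_num) (by norm_num) (by norm_num) (by norm_num) (by norm_num) (by norm_num) (by norm_num)
    (by norm_num) (by norm_num)
    (by norm_num) (by norm_num) (by norm_num) (by norm_num) (by norm_num)
    rfl rfl rfl rfl rfl rfl (by norm_num) (by norm_num) (by norm_num) hp hpb hq hqb hpq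

theorem rowL5_92 {p q : ℝ} (hp : 0 < p) (hpb : p ≤ (16558353 / 10000000 : ℝ)) (hq : 0 < q) (hqb : q ≤ (17301497 / 5000000 : ℝ))
    (hpq : 1 < p * q) : NoSol 5 p q :=
  noSol_rect (n := 5) (by norm_num) (N := 5) (a := (791997 / 1000000 : ℝ)) (b := (264607 / 500000 : ℝ))
    (τ := (4166793 / 10000000 : ℝ)) (A5 := (104521 / 200000 : ℝ)) (A6 := (18751 / 25000 : ℝ))
    (A9 := (860973 / 1000000 : ℝ)) (A10 := (582829 / 1000000 : ℝ)) (s := (11991 / 100000 : ℝ)) (e := (1 / 10000000 : ℝ))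
    (pb := (16558353 / 10000000 : ℝ)) (qb := (17301497 / 5000000 : ℝ)) (by norm_num)
    (by norm_num) (by norm_num) (by norm_num) (by norm_num) (by norm_num) (by norm_num) (by norm_num)
    (by norm_num) (by norm_num)
    (by norm_num) (by norm_num) (by norm_num) (by norm_num) (by norm_num)
    rfl rfl rfl rfl rfl rfl (by norm_num) (by norm_num) (by norm_num) hp hpb hq hqb hpq

theorem rowL5_93 {p q : ℝ} (hp : 0 < p) (hpb : p ≤ (207399 / 125000 : ℝ)) (hq : 0 < q) (hqb : q ≤ (34510317 / 10000000 : ℝ))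
    (hpq : 1 < p * q) : NoSol 5 p q :=
  noSol_rect (n := 5) (by norm_num) (N := 5) (a := (787663 / 1000000 : ℝ)) (b := (266117 / 500000 : ℝ))
    (τ := (838989 / 2000000 : ℝ)) (A5 := (520953 / 1000000 : ℝ)) (A6 := (375351 / 500000 : ℝ))
    (A9 := (172393 / 200000 : ℝ)) (A10 := (582477 / 1000000 : ℝ)) (s := (11973 / 100000 : ℝ)) (e := (1 / 10000000 : ℝ))
    (pb := (207399 / 125000 : ℝ)) (qb := (34510317 / 10000000 : ℝ)) (by norm_num)
    (by norm_num) (by norm_num) (by norm_num) (by norm_num) (by norm_num) (by norm_num) (by norm_num)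
    (by norm_num) (by norm_num)
    (by norm_num) (by norm_num) (by norm_num) (by norm_num) (by norm_num)
    rfl rfl rfl rfl rfl rfl (by norm_num) (by norm_num) (by norm_num) hp hpb hq hqb hpq

theorem rowL5_94 {p q : ℝ} (hp : 0 < p) (hpb : p ≤ (8313037 / 5000000 : ℝ)) (hq : 0 < q) (hqb : q ≤ (1075511 / 312500 : ℝ))
    (hpq : 1 < p * q) : NoSol 5 p q :=
  noSol_rect (n := 5) (by norm_num) (N := 5) (a := (793359 / 1000000 : ℝ)) (b := (261977 / 500000 : ℝ))
    (τ := (4241687 / 10000000 : ℝ)) (A5 := (520313 / 1000000 : ℝ)) (A6 := (752173 / 1000000 : ℝ))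
    (A9 := (428541 / 500000 : ℝ)) (A10 := (585111 / 1000000 : ℝ)) (s := (6039 / 50000 : ℝ)) (e := (1 / 10000000 : ℝ))
    (pb := (8313037 / 5000000 : ℝ)) (qb := (1075511 / 312500 : ℝ)) (by norm_num)
    (by norm_num) (by norm_num) (by norm_num) (by norm_num) (by norm_num) (by norm_num) (by norm_num)
    (by norm_num) (by norm_num)
    (by norm_num) (by norm_num) (by norm_num) (by norm_num) (by norm_num)
    rfl rfl rfl rfl rfl rfl (by norm_num) (by norm_num) (by norm_num) hp hpb hq hqb hpq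

theorem rowL5_95 {p q : ℝ} (hp : 0 < p) (hpb : p ≤ (16660833 / 10000000 : ℝ)) (hq : 0 < q) (hqb : q ≤ (2145087 / 625000 : ℝ))
    (hpq : 1 < p * q) : NoSol 5 p q :=
  noSol_rect (n := 5) (by norm_num) (N := 5) (a := (796663 / 1000000 : ℝ)) (b := (261907 / 500000 : ℝ))
    (τ := (4261161 / 10000000 : ℝ)) (A5 := (260683 / 500000 : ℝ)) (A6 := (751171 / 1000000 : ℝ))
    (A9 := (428357 / 500000 : ℝ)) (A10 := (584949 / 1000000 : ℝ)) (s := (2417 / 20000 : ℝ)) (e := (1 / 10000000 : ℝ))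
    (pb := (16660833 / 10000000 : ℝ)) (qb := (2145087 / 625000 : ℝ)) (by norm_num)
    (by norm_num) (by norm_num) (by norm_num) (by norm_num) (by norm_num) (by norm_num) (by norm_num)
    (by norm_num) (by norm_num)
    (by norm_num) (by norm_num) (by norm_num) (by norm_num) (by norm_num)
    rfl rfl rfl rfl rfl rfl (by norm_num) (by norm_num) (by norm_num) hp hpb hq hqb hpq

theorem rowL5_96 {p q : ℝ} (hp : 0 < p) (hpb : p ≤ (8348179 / 5000000 : ℝ)) (hq : 0 < q) (hqb : q ≤ (17112707 / 5000000 : ℝ))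
    (hpq : 1 < p * q) : NoSol 5 p q :=
  noSol_rect (n := 5) (by norm_num) (N := 5) (a := (9957 / 12500 : ℝ)) (b := (523709 / 1000000 : ℝ))
    (τ := (4273401 / 10000000 : ℝ)) (A5 := (522767 / 1000000 : ℝ)) (A6 := (751337 / 1000000 : ℝ))
    (A9 := (428279 / 500000 : ℝ)) (A10 := (145697 / 250000 : ℝ)) (s := (3027 / 25000 : ℝ)) (e := (1 / 10000000 : ℝ))
    (pb := (8348179 / 5000000 : ℝ)) (qb := (17112707 / 5000000 : ℝ)) (by norm_num)
    (by norm_num) (by norm_num) (by norm_num) (by norm_num) (by norm_num) (by norm_num) (by norm_num)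
    (by norm_num) (by norm_num)
    (by norm_num) (by norm_num) (by norm_num) (by norm_num) (by norm_num)
    rfl rfl rfl rfl rfl rfl (by norm_num) (by norm_num) (by norm_num) hp hpb hq hqb hpq

theorem rowL5_97 {p q : ℝ} (hp : 0 < p) (hpb : p ≤ (16732601 / 10000000 : ℝ)) (hq : 0 < q) (hqb : q ≤ (17064003 / 5000000 : ℝ))
    (hpq : 1 < p * q) : NoSol 5 p q :=
  noSol_rect (n := 5) (by norm_num) (N := 5) (a := (797073 / 1000000 : ℝ)) (b := (522889 / 1000000 : ℝ))
    (τ := (268443 / 625000 : ℝ)) (A5 := (2611 / 5000 : ℝ)) (A6 := (375699 / 500000 : ℝ))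
    (A9 := (53619 / 62500 : ℝ)) (A10 := (581631 / 1000000 : ℝ)) (s := (12107 / 100000 : ℝ)) (e := (1 / 10000000 : ℝ))
    (pb := (16732601 / 10000000 : ℝ)) (qb := (17064003 / 5000000 : ℝ)) (by norm_num)
    (by norm_num) (by norm_num) (by norm_num) (by norm_num) (by norm_num) (by norm_num) (by norm_num)
    (by norm_num) (by norm_num)
    (by norm_num) (by norm_num) (by norm_num) (by norm_num) (by norm_num)
    rfl rfl rfl rfl rfl rfl (by norm_num) (by norm_num) (by norm_num) hp hpb hq hqb hpq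

theorem rowL5_98 {p q : ℝ} (hp : 0 < p) (hpb : p ≤ (8384759 / 5000000 : ℝ)) (hq : 0 < q) (hqb : q ≤ (4253667 / 1250000 : ℝ))
    (hpq : 1 < p * q) : NoSol 5 p q :=
  noSol_rect (n := 5) (by norm_num) (N := 5) (a := (798247 / 1000000 : ℝ)) (b := (522831 / 1000000 : ℝ))
    (τ := (539361 / 1250000 : ℝ)) (A5 := (522667 / 1000000 : ℝ)) (A6 := (23453 / 31250 : ℝ))
    (A9 := (858661 / 1000000 : ℝ)) (A10 := (145251 / 250000 : ℝ)) (s := (12103 / 100000 : ℝ)) (e := (1 / 10000000 : ℝ))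
    (pb := (8384759 / 5000000 : ℝ)) (qb := (4253667 / 1250000 : ℝ)) (by norm_num)
    (by norm_num) (by norm_num) (by norm_num) (by norm_num) (by norm_num) (by norm_num) (by norm_num)
    (by norm_num) (by norm_num)
    (by norm_num) (by norm_num) (by norm_num) (by norm_num) (by norm_num)
    rfl rfl rfl rfl rfl rfl (by norm_num) (by norm_num) (by norm_num) hp hpb hq hqb hpq

theorem rowL5_99 {p q : ℝ} (hp : 0 < p) (hpb : p ≤ (4201701 / 2500000 : ℝ)) (hq : 0 < q) (hqb : q ≤ (8482389 / 2500000 : ℝ))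
    (hpq : 1 < p * q) : NoSol 5 p q :=
  noSol_rect (n := 5) (by norm_num) (N := 5) (a := (799477 / 1000000 : ℝ)) (b := (21031 / 40000 : ℝ))
    (τ := (876347 / 2000000 : ℝ)) (A5 := (259883 / 500000 : ℝ)) (A6 := (755347 / 1000000 : ℝ))
    (A9 := (53249 / 62500 : ℝ)) (A10 := (583601 / 1000000 : ℝ)) (s := (487 / 4000 : ℝ)) (e := (1 / 10000000 : ℝ))
    (pb := (4201701 / 2500000 : ℝ)) (qb := (8482389 / 2500000 : ℝ)) (by norm_num)
    (by norm_num) (by norm_num) (by norm_num) (by norm_num) (by norm_num) (by norm_num) (by norm_num)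
    (by norm_num) (by norm_num)
    (by norm_num) (by norm_num) (by norm_num) (by norm_num) (by norm_num)
    rfl rfl rfl rfl rfl rfl (by norm_num) (by norm_num) (by norm_num) hp hpb hq hqb hpq

theorem rowL5_100 {p q : ℝ} (hp : 0 < p) (hpb : p ≤ (8422461 / 5000000 : ℝ)) (hq : 0 < q) (hqb : q ≤ (33829513 / 10000000 : ℝ))
    (hpq : 1 < p * q) : NoSol 5 p q :=
  noSol_rect (n := 5) (by norm_num) (N := 5) (a := (9969 / 12500 : ℝ)) (b := (523539 / 1000000 : ℝ))
    (τ := (877311 / 2000000 : ℝ)) (A5 := (519479 / 1000000 : ℝ)) (A6 := (754989 / 1000000 : ℝ))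
    (A9 := (428371 / 500000 : ℝ)) (A10 := (579651 / 1000000 : ℝ)) (s := (2431 / 20000 : ℝ)) (e := (1 / 10000000 : ℝ))
    (pb := (8422461 / 5000000 : ℝ)) (qb := (33829513 / 10000000 : ℝ)) (by norm_num)
    (by norm_num) (by norm_num) (by norm_num) (by norm_num) (by norm_num) (by norm_num) (by norm_num)
    (by norm_num) (by norm_num)
    (by norm_num) (by norm_num) (by norm_num) (by norm_num) (by norm_num)
    rfl rfl rfl rfl rfl rfl (by norm_num) (by norm_num) (by norm_num) hp hpb hq hqb hpq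

theorem rowL5_101 {p q : ℝ} (hp : 0 < p) (hpb : p ≤ (2110473 / 1250000 : ℝ)) (hq : 0 < q) (hqb : q ≤ (16863997 / 5000000 : ℝ))
    (hpq : 1 < p * q) : NoSol 5 p q :=
  noSol_rect (n := 5) (by norm_num) (N := 5) (a := (49813 / 62500 : ℝ)) (b := (13109 / 25000 : ℝ))
    (τ := (2209941 / 5000000 : ℝ)) (A5 := (519753 / 1000000 : ℝ)) (A6 := (94443 / 125000 : ℝ))
    (A9 := (854533 / 1000000 : ℝ)) (A10 := (580057 / 1000000 : ℝ)) (s := (3047 / 25000 : ℝ)) (e := (1 / 10000000 : ℝ))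
    (pb := (2110473 / 1250000 : ℝ)) (qb := (16863997 / 5000000 : ℝ)) (by norm_num)
    (by norm_num) (by norm_num) (by norm_num) (by norm_num) (by norm_num) (by norm_num) (by norm_num)
    (by norm_num) (by norm_num)
    (by norm_num) (by norm_num) (by norm_num) (by norm_num) (by norm_num)
    rfl rfl rfl rfl rfl rfl (by norm_num) (by norm_num) (by norm_num) hp hpb hq hqb hpq

theorem rowL5_102 {p q : ℝ} (hp : 0 < p) (hpb : p ≤ (3384691 / 2000000 : ℝ)) (hq : 0 < q) (hqb : q ≤ (3362527 / 1000000 : ℝ))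
    (hpq : 1 < p * q) : NoSol 5 p q :=
  noSol_rect (n := 5) (by norm_num) (N := 5) (a := (797657 / 1000000 : ℝ)) (b := (105127 / 200000 : ℝ))
    (τ := (2222991 / 5000000 : ℝ)) (A5 := (520807 / 1000000 : ℝ)) (A6 := (188719 / 250000 : ℝ))
    (A9 := (853371 / 1000000 : ℝ)) (A10 := (290081 / 500000 : ℝ)) (s := (12201 / 100000 : ℝ)) (e := (1 / 10000000 : ℝ))
    (pb := (3384691 / 2000000 : ℝ)) (qb := (3362527 / 1000000 : ℝ)) (by norm_num)
    (by norm_num) (by norm_num) (by norm_num) (by norm_num) (by norm_num) (by norm_num) (by norm_num)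
    (by norm_num) (by norm_num)
    (by norm_num) (by norm_num) (by norm_num) (by norm_num) (by norm_num)
    rfl rfl rfl rfl rfl rfl (by norm_num) (by norm_num) (by norm_num) hp hpb hq hqb hpq

theorem rowL5_103 {p q : ℝ} (hp : 0 < p) (hpb : p ≤ (132527 / 78125 : ℝ)) (hq : 0 < q) (hqb : q ≤ (33521209 / 10000000 : ℝ))
    (hpq : 1 < p * q) : NoSol 5 p q :=
  noSol_rect (n := 5) (by norm_num) (N := 5) (a := (782297 / 1000000 : ℝ)) (b := (269931 / 500000 : ℝ))
    (τ := (4521391 / 10000000 : ℝ)) (A5 := (519323 / 1000000 : ℝ)) (A6 := (151391 / 200000 : ℝ))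
    (A9 := (84533 / 100000 : ℝ)) (A10 := (23433 / 40000 : ℝ)) (s := (12223 / 100000 : ℝ)) (e := (1 / 10000000 : ℝ))
    (pb := (132527 / 78125 : ℝ)) (qb := (33521209 / 10000000 : ℝ)) (by norm_num)
    (by norm_num) (by norm_num) (by norm_num) (by norm_num) (by norm_num) (by norm_num) (by norm_num)
    (by norm_num) (by norm_num)
    (by norm_num) (by norm_num) (by norm_num) (by norm_num) (by norm_num)
    rfl rfl rfl rfl rfl rfl (by norm_num) (by norm_num) (by norm_num) hp hpb hq hqb hpq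

theorem rowL5_104 {p q : ℝ} (hp : 0 < p) (hpb : p ≤ (265697 / 156250 : ℝ)) (hq : 0 < q) (hqb : q ≤ (33417091 / 10000000 : ℝ))
    (hpq : 1 < p * q) : NoSol 5 p q :=
  noSol_rect (n := 5) (by norm_num) (N := 5) (a := (779723 / 1000000 : ℝ)) (b := (537941 / 1000000 : ℝ))
    (τ := (1123643 / 2500000 : ℝ)) (A5 := (522493 / 1000000 : ℝ)) (A6 := (150717 / 200000 : ℝ))
    (A9 := (852671 / 1000000 : ℝ)) (A10 := (36209 / 62500 : ℝ)) (s := (609 / 5000 : ℝ)) (e := (1 / 10000000 : ℝ))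
    (pb := (265697 / 156250 : ℝ)) (qb := (33417091 / 10000000 : ℝ)) (by norm_num)
    (by norm_num) (by norm_num) (by norm_num) (by norm_num) (by norm_num) (by norm_num) (by norm_num)
    (by norm_num) (by norm_num)
    (by norm_num) (by norm_num) (by norm_num) (by norm_num) (by norm_num)
    rfl rfl rfl rfl rfl rfl (by norm_num) (by norm_num) (by norm_num) hp hpb hq hqb hpq

theorem rowL5_105 {p q : ℝ} (hp : 0 < p) (hpb : p ≤ (8523307 / 5000000 : ℝ)) (hq : 0 < q) (hqb : q ≤ (6662163 / 2000000 : ℝ))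
    (hpq : 1 < p * q) : NoSol 5 p q :=
  noSol_rect (n := 5) (by norm_num) (N := 5) (a := (780523 / 1000000 : ℝ)) (b := (538033 / 1000000 : ℝ))
    (τ := (4518933 / 10000000 : ℝ)) (A5 := (523317 / 1000000 : ℝ)) (A6 := (376603 / 500000 : ℝ))
    (A9 := (170473 / 200000 : ℝ)) (A10 := (578597 / 1000000 : ℝ)) (s := (2439 / 20000 : ℝ)) (e := (1 / 10000000 : ℝ))
    (pb := (8523307 / 5000000 : ℝ)) (qb := (6662163 / 2000000 : ℝ)) (by norm_num)
    (by norm_num) (by norm_num) (by norm_num) (by norm_num) (by norm_num) (by norm_num) (by norm_num)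
    (by norm_num) (by norm_num)
    (by norm_num) (by norm_num) (by norm_num) (by norm_num) (by norm_num)
    rfl rfl rfl rfl rfl rfl (by norm_num) (by norm_num) (by norm_num) hp hpb hq hqb hpq

theorem rowL5_106 {p q : ℝ} (hp : 0 < p) (hpb : p ≤ (17089417 / 10000000 : ℝ)) (hq : 0 < q) (hqb : q ≤ (10376 / 3125 : ℝ))
    (hpq : 1 < p * q) : NoSol 5 p q :=
  noSol_rect (n := 5) (by norm_num) (N := 5) (a := (195181 / 250000 : ℝ)) (b := (268737 / 500000 : ℝ))
    (τ := (227373 / 500000 : ℝ)) (A5 := (261959 / 500000 : ℝ)) (A6 := (752481 / 1000000 : ℝ))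
    (A9 := (212993 / 250000 : ℝ)) (A10 := (578579 / 1000000 : ℝ)) (s := (12213 / 100000 : ℝ)) (e := (1 / 10000000 : ℝ))
    (pb := (17089417 / 10000000 : ℝ)) (qb := (10376 / 3125 : ℝ)) (by norm_num)
    (by norm_num) (by norm_num) (by norm_num) (by norm_num) (by norm_num) (by norm_num) (by norm_num)
    (by norm_num) (by norm_num)
    (by norm_num) (by norm_num) (by norm_num) (by norm_num) (by norm_num)
    rfl rfl rfl rfl rfl rfl (by norm_num) (by norm_num) (by norm_num) hp hpb hq hqb hpq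

theorem rowL5_107 {p q : ℝ} (hp : 0 < p) (hpb : p ≤ (3426561 / 2000000 : ℝ)) (hq : 0 < q) (hqb : q ≤ (1034201 / 312500 : ℝ))
    (hpq : 1 < p * q) : NoSol 5 p q :=
  noSol_rect (n := 5) (by norm_num) (N := 5) (a := (153509 / 200000 : ℝ)) (b := (272843 / 500000 : ℝ))
    (τ := (2291243 / 5000000 : ℝ)) (A5 := (523179 / 1000000 : ℝ)) (A6 := (150473 / 200000 : ℝ))
    (A9 := (3409 / 4000 : ℝ)) (A10 := (115739 / 200000 : ℝ)) (s := (381 / 3125 : ℝ)) (e := (1 / 10000000 : ℝ))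
    (pb := (3426561 / 2000000 : ℝ)) (qb := (1034201 / 312500 : ℝ)) (by norm_num)
    (by norm_num) (by norm_num) (by norm_num) (by norm_num) (by norm_num) (by norm_num) (by norm_num)
    (by norm_num) (by norm_num)
    (by norm_num) (by norm_num) (by norm_num) (by norm_num) (by norm_num)
    rfl rfl rfl rfl rfl rfl (by norm_num) (by norm_num) (by norm_num) hp hpb hq hqb hpq

theorem rowL5_108 {p q : ℝ} (hp : 0 < p) (hpb : p ≤ (8588509 / 5000000 : ℝ)) (hq : 0 < q) (hqb : q ≤ (8246271 / 2500000 : ℝ))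
    (hpq : 1 < p * q) : NoSol 5 p q :=
  noSol_rect (n := 5) (by norm_num) (N := 5) (a := (47183 / 62500 : ℝ)) (b := (563337 / 1000000 : ℝ))
    (τ := (2319131 / 5000000 : ℝ)) (A5 := (32551 / 62500 : ℝ)) (A6 := (378341 / 500000 : ℝ))
    (A9 := (848687 / 1000000 : ℝ)) (A10 := (115741 / 200000 : ℝ)) (s := (6077 / 50000 : ℝ)) (e := (1 / 10000000 : ℝ))
    (pb := (8588509 / 5000000 : ℝ)) (qb := (8246271 / 2500000 : ℝ)) (by norm_num)
    (by norm_num) (by norm_num) (by norm_num) (by norm_num) (by norm_num) (by norm_num) (by norm_num)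
    (by norm_num) (by norm_num)
    (by norm_num) (by norm_num) (by norm_num) (by norm_num) (by norm_num)
    rfl rfl rfl rfl rfl rfl (by norm_num) (by norm_num) (by norm_num) hp hpb hq hqb hpq

theorem rowL5_109 {p q : ℝ} (hp : 0 < p) (hpb : p ≤ (17222157 / 10000000 : ℝ)) (hq : 0 < q) (hqb : q ≤ (32874581 / 10000000 : ℝ))
    (hpq : 1 < p * q) : NoSol 5 p q :=
  noSol_rect (n := 5) (by norm_num) (N := 5) (a := (148977 / 200000 : ℝ)) (b := (572957 / 1000000 : ℝ))
    (τ := (4674523 / 10000000 : ℝ)) (A5 := (16383 / 31250 : ℝ)) (A6 := (241 / 320 : ℝ))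
    (A9 := (844457 / 1000000 : ℝ)) (A10 := (291173 / 500000 : ℝ)) (s := (1519 / 12500 : ℝ)) (e := (1 / 10000000 : ℝ))
    (pb := (17222157 / 10000000 : ℝ)) (qb := (32874581 / 10000000 : ℝ)) (by norm_num)
    (by norm_num) (by norm_num) (by norm_num) (by norm_num) (by norm_num) (by norm_num) (by norm_num)
    (by norm_num) (by norm_num)
    (by norm_num) (by norm_num) (by norm_num) (by norm_num) (by norm_num)
    rfl rfl rfl rfl rfl rfl (by norm_num) (by norm_num) (by norm_num) hp hpb hq hqb hpq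

theorem rowL5_110 {p q : ℝ} (hp : 0 < p) (hpb : p ≤ (17267289 / 10000000 : ℝ)) (hq : 0 < q) (hqb : q ≤ (32762717 / 10000000 : ℝ))
    (hpq : 1 < p * q) : NoSol 5 p q :=
  noSol_rect (n := 5) (by norm_num) (N := 5) (a := (371653 / 500000 : ℝ)) (b := (575541 / 1000000 : ℝ))
    (τ := (4720797 / 10000000 : ℝ)) (A5 := (517729 / 1000000 : ℝ)) (A6 := (759777 / 1000000 : ℝ))
    (A9 := (106027 / 125000 : ℝ)) (A10 := (577657 / 1000000 : ℝ)) (s := (2427 / 20000 : ℝ)) (e := (1 / 10000000 : ℝ))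
    (pb := (17267289 / 10000000 : ℝ)) (qb := (32762717 / 10000000 : ℝ)) (by norm_num)
    (by norm_num) (by norm_num) (by norm_num) (by norm_num) (by norm_num) (by norm_num) (by norm_num)
    (by norm_num) (by norm_num)
    (by norm_num) (by norm_num) (by norm_num) (by norm_num) (by norm_num)
    rfl rfl rfl rfl rfl rfl (by norm_num) (by norm_num) (by norm_num) hp hpb hq hqb hpq

theorem rowL5_111 {p q : ℝ} (hp : 0 < p) (hpb : p ≤ (17314231 / 10000000 : ℝ)) (hq : 0 < q) (hqb : q ≤ (32651819 / 10000000 : ℝ))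
    (hpq : 1 < p * q) : NoSol 5 p q :=
  noSol_rect (n := 5) (by norm_num) (N := 5) (a := (93341 / 125000 : ℝ)) (b := (572401 / 1000000 : ℝ))
    (τ := (94881 / 200000 : ℝ)) (A5 := (262063 / 500000 : ℝ)) (A6 := (188731 / 250000 : ℝ))
    (A9 := (210649 / 250000 : ℝ)) (A10 := (580847 / 1000000 : ℝ)) (s := (12209 / 100000 : ℝ)) (e := (1 / 10000000 : ℝ))
    (pb := (17314231 / 10000000 : ℝ)) (qb := (32651819 / 10000000 : ℝ)) (by norm_num)
    (by norm_num) (by norm_num) (by norm_num) (by norm_num) (by norm_num) (by norm_num) (by norm_num)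
    (by norm_num) (by norm_num)
    (by norm_num) (by norm_num) (by norm_num) (by norm_num) (by norm_num)
    rfl rfl rfl rfl rfl rfl (by norm_num) (by norm_num) (by norm_num) hp hpb hq hqb hpq

theorem rowL5_112 {p q : ℝ} (hp : 0 < p) (hpb : p ≤ (4340439 / 2500000 : ℝ)) (hq : 0 < q) (hqb : q ≤ (8134367 / 2500000 : ℝ))
    (hpq : 1 < p * q) : NoSol 5 p q :=
  noSol_rect (n := 5) (by norm_num) (N := 5) (a := (749051 / 1000000 : ℝ)) (b := (569941 / 1000000 : ℝ))
    (τ := (37437 / 78125 : ℝ)) (A5 := (105367 / 200000 : ℝ)) (A6 := (751893 / 1000000 : ℝ))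
    (A9 := (209397 / 250000 : ℝ)) (A10 := (585381 / 1000000 : ℝ)) (s := (6141 / 50000 : ℝ)) (e := (1 / 10000000 : ℝ))
    (pb := (4340439 / 2500000 : ℝ)) (qb := (8134367 / 2500000 : ℝ)) (by norm_num)
    (by norm_num) (by norm_num) (by norm_num) (by norm_num) (by norm_num) (by norm_num) (by norm_num)
    (by norm_num) (by norm_num)
    (by norm_num) (by norm_num) (by norm_num) (by norm_num) (by norm_num)
    rfl rfl rfl rfl rfl rfl (by norm_num) (by norm_num) (by norm_num) hp hpb hq hqb hpq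

theorem rowL5_113 {p q : ℝ} (hp : 0 < p) (hpb : p ≤ (17410581 / 10000000 : ℝ)) (hq : 0 < q) (hqb : q ≤ (8105679 / 2500000 : ℝ))
    (hpq : 1 < p * q) : NoSol 5 p q :=
  noSol_rect (n := 5) (by norm_num) (N := 5) (a := (14919 / 20000 : ℝ)) (b := (569307 / 1000000 : ℝ))
    (τ := (959917 / 2000000 : ℝ)) (A5 := (263419 / 500000 : ℝ)) (A6 := (751351 / 1000000 : ℝ))
    (A9 := (842597 / 1000000 : ℝ)) (A10 := (290483 / 500000 : ℝ)) (s := (6133 / 50000 : ℝ)) (e := (1 / 10000000 : ℝ))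
    (pb := (17410581 / 10000000 : ℝ)) (qb := (8105679 / 2500000 : ℝ)) (by norm_num)
    (by norm_num) (by norm_num) (by norm_num) (by norm_num) (by norm_num) (by norm_num) (by norm_num)
    (by norm_num) (by norm_num)
    (by norm_num) (by norm_num) (by norm_num) (by norm_num) (by norm_num)
    rfl rfl rfl rfl rfl rfl (by norm_num) (by norm_num) (by norm_num) hp hpb hq hqb hpq

theorem rowL5_114 {p q : ℝ} (hp : 0 < p) (hpb : p ≤ (8730053 / 5000000 : ℝ)) (hq : 0 < q) (hqb : q ≤ (807647 / 250000 : ℝ))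
    (hpq : 1 < p * q) : NoSol 5 p q :=
  noSol_rect (n := 5) (by norm_num) (N := 5) (a := (184867 / 250000 : ℝ)) (b := (22797 / 40000 : ℝ))
    (τ := (4847137 / 10000000 : ℝ)) (A5 := (526337 / 1000000 : ℝ)) (A6 := (754093 / 1000000 : ℝ))
    (A9 := (104939 / 125000 : ℝ)) (A10 := (580393 / 1000000 : ℝ)) (s := (1233 / 10000 : ℝ)) (e := (1 / 10000000 : ℝ))
    (pb := (8730053 / 5000000 : ℝ)) (qb := (807647 / 250000 : ℝ)) (by norm_num)
    (by norm_num) (by norm_num) (by norm_num) (by norm_num) (by norm_num) (by norm_num) (by norm_num)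
    (by norm_num) (by norm_num)
    (by norm_num) (by norm_num) (by norm_num) (by norm_num) (by norm_num)
    rfl rfl rfl rfl rfl rfl (by norm_num) (by norm_num) (by norm_num) hp hpb hq hqb hpq

theorem rowL5_115 {p q : ℝ} (hp : 0 < p) (hpb : p ≤ (875541 / 500000 : ℝ)) (hq : 0 < q) (hqb : q ≤ (8047111 / 2500000 : ℝ))
    (hpq : 1 < p * q) : NoSol 5 p q :=
  noSol_rect (n := 5) (by norm_num) (N := 5) (a := (147331 / 200000 : ℝ)) (b := (579501 / 1000000 : ℝ))
    (τ := (2429779 / 5000000 : ℝ)) (A5 := (26387 / 50000 : ℝ)) (A6 := (751377 / 1000000 : ℝ))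
    (A9 := (843003 / 1000000 : ℝ)) (A10 := (72299 / 125000 : ℝ)) (s := (12249 / 100000 : ℝ)) (e := (1 / 10000000 : ℝ))
    (pb := (875541 / 500000 : ℝ)) (qb := (8047111 / 2500000 : ℝ)) (by norm_num)
    (by norm_num) (by norm_num) (by norm_num) (by norm_num) (by norm_num) (by norm_num) (by norm_num)
    (by norm_num) (by norm_num)
    (by norm_num) (by norm_num) (by norm_num) (by norm_num) (by norm_num)
    rfl rfl rfl rfl rfl rfl (by norm_num) (by norm_num) (by norm_num) hp hpb hq hqb hpq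

theorem rowL5_116 {p q : ℝ} (hp : 0 < p) (hpb : p ≤ (17562477 / 10000000 : ℝ)) (hq : 0 < q) (hqb : q ≤ (16034649 / 5000000 : ℝ))
    (hpq : 1 < p * q) : NoSol 5 p q :=
  noSol_rect (n := 5) (by norm_num) (N := 5) (a := (737569 / 1000000 : ℝ)) (b := (289439 / 500000 : ℝ))
    (τ := (4902113 / 10000000 : ℝ)) (A5 := (263517 / 500000 : ℝ)) (A6 := (752127 / 1000000 : ℝ))
    (A9 := (210661 / 250000 : ℝ)) (A10 := (115599 / 200000 : ℝ)) (s := (307 / 2500 : ℝ)) (e := (1 / 10000000 : ℝ))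
    (pb := (17562477 / 10000000 : ℝ)) (qb := (16034649 / 5000000 : ℝ)) (by norm_num)
    (by norm_num) (by norm_num) (by norm_num) (by norm_num) (by norm_num) (by norm_num) (by norm_num)
    (by norm_num) (by norm_num)
    (by norm_num) (by norm_num) (by norm_num) (by norm_num) (by norm_num)
    rfl rfl rfl rfl rfl rfl (by norm_num) (by norm_num) (by norm_num) hp hpb hq hqb hpq

theorem rowL5_117 {p q : ℝ} (hp : 0 < p) (hpb : p ≤ (3523003 / 2000000 : ℝ)) (hq : 0 < q) (hqb : q ≤ (31949073 / 10000000 : ℝ))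
    (hpq : 1 < p * q) : NoSol 5 p q :=
  noSol_rect (n := 5) (by norm_num) (N := 5) (a := (370567 / 500000 : ℝ)) (b := (579397 / 1000000 : ℝ))
    (τ := (2474963 / 5000000 : ℝ)) (A5 := (16467 / 31250 : ℝ)) (A6 := (11752 / 15625 : ℝ))
    (A9 := (841013 / 1000000 : ℝ)) (A10 := (115789 / 200000 : ℝ)) (s := (6153 / 50000 : ℝ)) (e := (1 / 10000000 : ℝ))
    (pb := (3523003 / 2000000 : ℝ)) (qb := (31949073 / 10000000 : ℝ)) (by norm_num)
    (by norm_num) (by norm_num) (by norm_num) (by norm_num) (by norm_num) (by norm_num) (by norm_num)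
    (by norm_num) (by norm_num)
    (by norm_num) (by norm_num) (by norm_num) (by norm_num) (by norm_num)
    rfl rfl rfl rfl rfl rfl (by norm_num) (by norm_num) (by norm_num) hp hpb hq hqb hpq

theorem rowL5_118 {p q : ℝ} (hp : 0 < p) (hpb : p ≤ (706731 / 400000 : ℝ)) (hq : 0 < q) (hqb : q ≤ (15913979 / 5000000 : ℝ))
    (hpq : 1 < p * q) : NoSol 5 p q :=
  noSol_rect (n := 5) (by norm_num) (N := 5) (a := (741691 / 1000000 : ℝ)) (b := (146021 / 250000 : ℝ))
    (τ := (4996893 / 10000000 : ℝ)) (A5 := (262931 / 500000 : ℝ)) (A6 := (754763 / 1000000 : ℝ))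
    (A9 := (41983 / 50000 : ℝ)) (A10 := (577607 / 1000000 : ℝ)) (s := (3077 / 25000 : ℝ)) (e := (1 / 10000000 : ℝ))
    (pb := (706731 / 400000 : ℝ)) (qb := (15913979 / 5000000 : ℝ)) (by norm_num)
    (by norm_num) (by norm_num) (by norm_num) (by norm_num) (by norm_num) (by norm_num) (by norm_num)
    (by norm_num) (by norm_num)
    (by norm_num) (by norm_num) (by norm_num) (by norm_num) (by norm_num)
    rfl rfl rfl rfl rfl rfl (by norm_num) (by norm_num) (by norm_num) hp hpb hq hqb hpq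

theorem rowL5_119 {p q : ℝ} (hp : 0 < p) (hpb : p ≤ (3544423 / 2000000 : ℝ)) (hq : 0 < q) (hqb : q ≤ (6341271 / 2000000 : ℝ))
    (hpq : 1 < p * q) : NoSol 5 p q :=
  noSol_rect (n := 5) (by norm_num) (N := 5) (a := (371981 / 500000 : ℝ)) (b := (586023 / 1000000 : ℝ))
    (τ := (627657 / 1250000 : ℝ)) (A5 := (66269 / 125000 : ℝ)) (A6 := (375049 / 500000 : ℝ))
    (A9 := (104757 / 125000 : ℝ)) (A10 := (579241 / 1000000 : ℝ)) (s := (12317 / 100000 : ℝ)) (e := (1 / 10000000 : ℝ))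
    (pb := (3544423 / 2000000 : ℝ)) (qb := (6341271 / 2000000 : ℝ)) (by norm_num)
    (by norm_num) (by norm_num) (by norm_num) (by norm_num) (by norm_num) (by norm_num) (by norm_num)
    (by norm_num) (by norm_num)
    (by norm_num) (by norm_num) (by norm_num) (by norm_num) (by norm_num)
    rfl rfl rfl rfl rfl rfl (by norm_num) (by norm_num) (by norm_num) hp hpb hq hqb hpq

end Vale.Agent.Lib.P100
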