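import Vale.Agent.Lib.P100.Cover

/-!
Rational certificates, dimension 5.
-/

namespace Vale.Agent.Lib.P100

theorem rowL5_120 {p q : ℝ} (hp : 0 < p) (hpb : p ≤ (4444389 / 2500000 : ℝ)) (hq : 0 < q) (hqb : q ≤ (3948077 / 1250000 : ℝ))
    (hpq : 1 < p * q) : NoSol 5 p q :=
  noSol_rect (n := 5) (by norm_num) (N := 5) (a := (745667 / 1000000 : ℝ)) (b := (579489 / 1000000 : ℝ))
    (τ := (2536001 / 5000000 : ℝ)) (A5 := (52903 / 100000 : ℝ)) (A6 := (753361 / 1000000 : ℝ))
    (A9 := (418047 / 500000 : ℝ)) (A10 := (577831 / 1000000 : ℝ)) (s := (12409 / 100000 : ℝ)) (e := (1 / 10000000 : ℝ))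
    (pb := (4444389 / 2500000 : ℝ)) (qb := (3948077 / 1250000 : ℝ)) (by norm_num)
    (by norm_num) (by norm_num) (by norm_num) (by norm_num) (by norm_num) (by norm_num) (by norm_num)
    (by norm_num) (by norm_num)
    (by norm_num) (by norm_num) (by norm_num) (by norm_num) (by norm_num)
    rfl rfl rfl rfl rfl rfl (by norm_num) (by norm_num) (by norm_num) hp hpb hq hqb hpq

theorem rowL5_121 {p q : ℝ} (hp : 0 < p) (hpb : p ≤ (17833683 / 10000000 : ℝ)) (hq : 0 < q) (hqb : q ≤ (6292097 / 2000000 : ℝ))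
    (hpq : 1 < p * q) : NoSol 5 p q :=
  noSol_rect (n := 5) (by norm_num) (N := 5) (a := (744027 / 1000000 : ℝ)) (b := (291569 / 500000 : ℝ))
    (τ := (5152863 / 10000000 : ℝ)) (A5 := (262197 / 500000 : ℝ)) (A6 := (378733 / 500000 : ℝ))
    (A9 := (417237 / 500000 : ℝ)) (A10 := (36183 / 62500 : ℝ)) (s := (6219 / 50000 : ℝ)) (e := (1 / 10000000 : ℝ))
    (pb := (17833683 / 10000000 : ℝ)) (qb := (6292097 / 2000000 : ℝ)) (by norm_num)
    (by norm_num) (by norm_num) (by norm_num) (by norm_num) (by norm_num) (by norm_num) (by norm_num)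
    (by norm_num) (by norm_num)
    (by norm_num) (by norm_num) (by norm_num) (by norm_num) (by norm_num)
    rfl rfl rfl rfl rfl rfl (by norm_num) (by norm_num) (by norm_num) hp hpb hq hqb hpq

theorem rowL5_122 {p q : ℝ} (hp : 0 < p) (hpb : p ≤ (357819 / 200000 : ℝ)) (hq : 0 < q) (hqb : q ≤ (31336071 / 10000000 : ℝ))
    (hpq : 1 < p * q) : NoSol 5 p q :=
  noSol_rect (n := 5) (by norm_num) (N := 5) (a := (11484 / 15625 : ℝ)) (b := (585331 / 1000000 : ℝ))
    (τ := (1022531 / 2000000 : ℝ)) (A5 := (106297 / 200000 : ℝ)) (A6 := (23431 / 31250 : ℝ))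
    (A9 := (420577 / 500000 : ℝ)) (A10 := (573597 / 1000000 : ℝ)) (s := (12387 / 100000 : ℝ)) (e := (1 / 10000000 : ℝ))
    (pb := (357819 / 200000 : ℝ)) (qb := (31336071 / 10000000 : ℝ)) (by norm_num)
    (by norm_num) (by norm_num) (by norm_num) (by norm_num) (by norm_num) (by norm_num) (by norm_num)
    (by norm_num) (by norm_num)
    (by norm_num) (by norm_num) (by norm_num) (by norm_num) (by norm_num)
    rfl rfl rfl rfl rfl rfl (by norm_num) (by norm_num) (by norm_num) hp hpb hq hqb hpq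

theorem rowL5_123 {p q : ℝ} (hp : 0 < p) (hpb : p ≤ (8974709 / 5000000 : ℝ)) (hq : 0 < q) (hqb : q ≤ (3901301 / 1250000 : ℝ))
    (hpq : 1 < p * q) : NoSol 5 p q :=
  noSol_rect (n := 5) (by norm_num) (N := 5) (a := (734737 / 1000000 : ℝ)) (b := (583849 / 1000000 : ℝ))
    (τ := (1292187 / 2500000 : ℝ)) (A5 := (530963 / 1000000 : ℝ)) (A6 := (150153 / 200000 : ℝ))
    (A9 := (839169 / 1000000 : ℝ)) (A10 := (8972 / 15625 : ℝ)) (s := (6223 / 50000 : ℝ)) (e := (1 / 10000000 : ℝ))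
    (pb := (8974709 / 5000000 : ℝ)) (qb := (3901301 / 1250000 : ℝ)) (by norm_num)
    (by norm_num) (by norm_num) (by norm_num) (by norm_num) (by norm_num) (by norm_num) (by norm_num)
    (by norm_num) (by norm_num)
    (by norm_num) (by norm_num) (by norm_num) (by norm_num) (by norm_num)
    rfl rfl rfl rfl rfl rfl (by norm_num) (by norm_num) (by norm_num) hp hpb hq hqb hpq

theorem rowL5_124 {p q : ℝ} (hp : 0 < p) (hpb : p ≤ (3601801 / 2000000 : ℝ)) (hq : 0 < q) (hqb : q ≤ (15541711 / 5000000 : ℝ))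
    (hpq : 1 < p * q) : NoSol 5 p q :=
  noSol_rect (n := 5) (by norm_num) (N := 5) (a := (734193 / 1000000 : ℝ)) (b := (584813 / 1000000 : ℝ))
    (τ := (5216367 / 10000000 : ℝ)) (A5 := (531507 / 1000000 : ℝ)) (A6 := (750953 / 1000000 : ℝ))
    (A9 := (167507 / 200000 : ℝ)) (A10 := (143567 / 250000 : ℝ)) (s := (12483 / 100000 : ℝ)) (e := (1 / 10000000 : ℝ))
    (pb := (3601801 / 2000000 : ℝ)) (qb := (15541711 / 5000000 : ℝ)) (by norm_num)
    (by norm_num) (by norm_num) (by norm_num) (by norm_num) (by norm_num) (by norm_num) (by norm_num)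
    (by norm_num) (by norm_num)
    (by norm_num) (by norm_num) (by norm_num) (by norm_num) (by norm_num)
    rfl rfl rfl rfl rfl rfl (by norm_num) (by norm_num) (by norm_num) hp hpb hq hqb hpq

theorem rowL5_125 {p q : ℝ} (hp : 0 < p) (hpb : p ≤ (18069731 / 10000000 : ℝ)) (hq : 0 < q) (hqb : q ≤ (30955349 / 10000000 : ℝ))
    (hpq : 1 < p * q) : NoSol 5 p q :=
  noSol_rect (n := 5) (by norm_num) (N := 5) (a := (183699 / 250000 : ℝ)) (b := (292069 / 500000 : ℝ))
    (τ := (5273379 / 10000000 : ℝ)) (A5 := (265419 / 500000 : ℝ)) (A6 := (752237 / 1000000 : ℝ))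
    (A9 := (835857 / 1000000 : ℝ)) (A10 := (574407 / 1000000 : ℝ)) (s := (3133 / 25000 : ℝ)) (e := (1 / 10000000 : ℝ))
    (pb := (18069731 / 10000000 : ℝ)) (qb := (30955349 / 10000000 : ℝ)) (by norm_num)
    (by norm_num) (by norm_num) (by norm_num) (by norm_num) (by norm_num) (by norm_num) (by norm_num)
    (by norm_num) (by norm_num)
    (by norm_num) (by norm_num) (by norm_num) (by norm_num) (by norm_num)
    rfl rfl rfl rfl rfl rfl (by norm_num) (by norm_num) (by norm_num) hp hpb hq hqb hpq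

theorem rowL5_126 {p q : ℝ} (hp : 0 < p) (hpb : p ≤ (4532887 / 2500000 : ℝ)) (hq : 0 < q) (hqb : q ≤ (30826201 / 10000000 : ℝ))
    (hpq : 1 < p * q) : NoSol 5 p q :=
  noSol_rect (n := 5) (by norm_num) (N := 5) (a := (723299 / 1000000 : ℝ)) (b := (118881 / 200000 : ℝ))
    (τ := (1329827 / 2500000 : ℝ)) (A5 := (5307 / 10000 : ℝ)) (A6 := (753973 / 1000000 : ℝ))
    (A9 := (835023 / 1000000 : ℝ)) (A10 := (143173 / 250000 : ℝ)) (s := (3131 / 25000 : ℝ)) (e := (1 / 10000000 : ℝ))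
    (pb := (4532887 / 2500000 : ℝ)) (qb := (30826201 / 10000000 : ℝ)) (by norm_num)
    (by norm_num) (by norm_num) (by norm_num) (by norm_num) (by norm_num) (by norm_num) (by norm_num)
    (by norm_num) (by norm_num)
    (by norm_num) (by norm_num) (by norm_num) (by norm_num) (by norm_num)
    rfl rfl rfl rfl rfl rfl (by norm_num) (by norm_num) (by norm_num) hp hpb hq hqb hpq

theorem rowL5_127 {p q : ℝ} (hp : 0 < p) (hpb : p ≤ (9097221 / 5000000 : ℝ)) (hq : 0 < q) (hqb : q ≤ (30696133 / 10000000 : ℝ))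
    (hpq : 1 < p * q) : NoSol 5 p q :=
  noSol_rect (n := 5) (by norm_num) (N := 5) (a := (185691 / 250000 : ℝ)) (b := (28957 / 50000 : ℝ))
    (τ := (2716111 / 5000000 : ℝ)) (A5 := (843 / 1600 : ℝ)) (A6 := (94953 / 125000 : ℝ))
    (A9 := (41379 / 50000 : ℝ)) (A10 := (28823 / 50000 : ℝ)) (s := (12699 / 100000 : ℝ)) (e := (1 / 10000000 : ℝ))
    (pb := (9097221 / 5000000 : ℝ)) (qb := (30696133 / 10000000 : ℝ)) (by norm_num)
    (by norm_num) (by norm_num) (by norm_num) (by norm_num) (by norm_num) (by norm_num) (by norm_num)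
    (by norm_num) (by norm_num)
    (by norm_num) (by norm_num) (by norm_num) (by norm_num) (by norm_num)
    rfl rfl rfl rfl rfl rfl (by norm_num) (by norm_num) (by norm_num) hp hpb hq hqb hpq

theorem rowL5_128 {p q : ℝ} (hp : 0 < p) (hpb : p ≤ (4564579 / 2500000 : ℝ)) (hq : 0 < q) (hqb : q ≤ (7641307 / 2500000 : ℝ))
    (hpq : 1 < p * q) : NoSol 5 p q :=
  noSol_rect (n := 5) (by norm_num) (N := 5) (a := (729311 / 1000000 : ℝ)) (b := (292981 / 500000 : ℝ))
    (τ := (1365369 / 2500000 : ℝ)) (A5 := (52827 / 100000 : ℝ)) (A6 := (47423 / 62500 : ℝ))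
    (A9 := (165753 / 200000 : ℝ)) (A10 := (114851 / 200000 : ℝ)) (s := (127 / 1000 : ℝ)) (e := (1 / 10000000 : ℝ))
    (pb := (4564579 / 2500000 : ℝ)) (qb := (7641307 / 2500000 : ℝ)) (by norm_num)
    (by norm_num) (by norm_num) (by norm_num) (by norm_num) (by norm_num) (by norm_num) (by norm_num)
    (by norm_num) (by norm_num)
    (by norm_num) (by norm_num) (by norm_num) (by norm_num) (by norm_num)
    rfl rfl rfl rfl rfl rfl (by norm_num) (by norm_num) (by norm_num) hp hpb hq hqb hpq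

theorem rowL5_129 {p q : ℝ} (hp : 0 < p) (hpb : p ≤ (9161127 / 5000000 : ℝ)) (hq : 0 < q) (hqb : q ≤ (7608433 / 2500000 : ℝ))
    (hpq : 1 < p * q) : NoSol 5 p q :=
  noSol_rect (n := 5) (by norm_num) (N := 5) (a := (364153 / 500000 : ℝ)) (b := (295169 / 500000 : ℝ))
    (τ := (8572 / 15625 : ℝ)) (A5 := (269619 / 500000 : ℝ)) (A6 := (37423 / 50000 : ℝ))
    (A9 := (102653 / 125000 : ℝ)) (A10 := (290321 / 500000 : ℝ)) (s := (3187 / 25000 : ℝ)) (e := (1 / 10000000 : ℝ))
    (pb := (9161127 / 5000000 : ℝ)) (qb := (7608433 / 2500000 : ℝ)) (by norm_num)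
    (by norm_num) (by norm_num) (by norm_num) (by norm_num) (by norm_num) (by norm_num) (by norm_num)
    (by norm_num) (by norm_num)
    (by norm_num) (by norm_num) (by norm_num) (by norm_num) (by norm_num)
    rfl rfl rfl rfl rfl rfl (by norm_num) (by norm_num) (by norm_num) hp hpb hq hqb hpq

theorem rowL5_130 {p q : ℝ} (hp : 0 < p) (hpb : p ≤ (2298593 / 1250000 : ℝ)) (hq : 0 < q) (hqb : q ≤ (30303543 / 10000000 : ℝ))
    (hpq : 1 < p * q) : NoSol 5 p q :=
  noSol_rect (n := 5) (by norm_num) (N := 5) (a := (726491 / 1000000 : ℝ)) (b := (23687 / 40000 : ℝ))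
    (τ := (1110213 / 2000000 : ℝ)) (A5 := (532853 / 1000000 : ℝ)) (A6 := (23531 / 31250 : ℝ))
    (A9 := (826281 / 1000000 : ℝ)) (A10 := (577107 / 1000000 : ℝ)) (s := (12741 / 100000 : ℝ)) (e := (1 / 10000000 : ℝ))
    (pb := (2298593 / 1250000 : ℝ)) (qb := (30303543 / 10000000 : ℝ)) (by norm_num)
    (by norm_num) (by norm_num) (by norm_num) (by norm_num) (by norm_num) (by norm_num) (by norm_num)
    (by norm_num) (by norm_num)
    (by norm_num) (by norm_num) (by norm_num) (by norm_num) (by norm_num)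
    rfl rfl rfl rfl rfl rfl (by norm_num) (by norm_num) (by norm_num) hp hpb hq hqb hpq

theorem rowL5_131 {p q : ℝ} (hp : 0 < p) (hpb : p ≤ (9228283 / 5000000 : ℝ)) (hq : 0 < q) (hqb : q ≤ (30169661 / 10000000 : ℝ))
    (hpq : 1 < p * q) : NoSol 5 p q :=
  noSol_rect (n := 5) (by norm_num) (N := 5) (a := (724761 / 1000000 : ℝ)) (b := (594871 / 1000000 : ℝ))
    (τ := (1401879 / 2500000 : ℝ)) (A5 := (8331 / 15625 : ℝ)) (A6 := (754203 / 1000000 : ℝ))
    (A9 := (1319 / 1600 : ℝ)) (A10 := (288261 / 500000 : ℝ)) (s := (12777 / 100000 : ℝ)) (e := (1 / 10000000 : ℝ))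
    (pb := (9228283 / 5000000 : ℝ)) (qb := (30169661 / 10000000 : ℝ)) (by norm_num)
    (by norm_num) (by norm_num) (by norm_num) (by norm_num) (by norm_num) (by norm_num) (by norm_num)
    (by norm_num) (by norm_num)
    (by norm_num) (by norm_num) (by norm_num) (by norm_num) (by norm_num)
    rfl rfl rfl rfl rfl rfl (by norm_num) (by norm_num) (by norm_num) hp hpb hq hqb hpq

theorem rowL5_132 {p q : ℝ} (hp : 0 < p) (hpb : p ≤ (1852493 / 1000000 : ℝ)) (hq : 0 < q) (hqb : q ≤ (3754331 / 1250000 : ℝ))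
    (hpq : 1 < p * q) : NoSol 5 p q :=
  noSol_rect (n := 5) (by norm_num) (N := 5) (a := (139973 / 200000 : ℝ)) (b := (612771 / 1000000 : ℝ))
    (τ := (2804269 / 5000000 : ℝ)) (A5 := (267431 / 500000 : ℝ)) (A6 := (376813 / 500000 : ℝ))
    (A9 := (829631 / 1000000 : ℝ)) (A10 := (71243 / 125000 : ℝ)) (s := (6343 / 50000 : ℝ)) (e := (1 / 10000000 : ℝ))
    (pb := (1852493 / 1000000 : ℝ)) (qb := (3754331 / 1250000 : ℝ)) (by norm_num)
    (by norm_num) (by norm_num) (by norm_num) (by norm_num) (by norm_num) (by norm_num) (by norm_num)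
    (by norm_num) (by norm_num)
    (by norm_num) (by norm_num) (by norm_num) (by norm_num) (by norm_num)
    rfl rfl rfl rfl rfl rfl (by norm_num) (by norm_num) (by norm_num) hp hpb hq hqb hpq

theorem rowL5_133 {p q : ℝ} (hp : 0 < p) (hpb : p ≤ (9297417 / 5000000 : ℝ)) (hq : 0 < q) (hqb : q ≤ (14950057 / 5000000 : ℝ))
    (hpq : 1 < p * q) : NoSol 5 p q :=
  noSol_rect (n := 5) (by norm_num) (N := 5) (a := (707931 / 1000000 : ℝ)) (b := (24369 / 40000 : ℝ))
    (τ := (1423451 / 2500000 : ℝ)) (A5 := (33273 / 62500 : ℝ)) (A6 := (188923 / 250000 : ℝ))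
    (A9 := (413839 / 500000 : ℝ)) (A10 := (285739 / 500000 : ℝ)) (s := (6379 / 50000 : ℝ)) (e := (1 / 10000000 : ℝ))
    (pb := (9297417 / 5000000 : ℝ)) (qb := (14950057 / 5000000 : ℝ)) (by norm_num)
    (by norm_num) (by norm_num) (by norm_num) (by norm_num) (by norm_num) (by norm_num) (by norm_num)
    (by norm_num) (by norm_num)
    (by norm_num) (by norm_num) (by norm_num) (by norm_num) (by norm_num)
    rfl rfl rfl rfl rfl rfl (by norm_num) (by norm_num) (by norm_num) hp hpb hq hqb hpq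

theorem rowL5_134 {p q : ℝ} (hp : 0 < p) (hpb : p ≤ (9333129 / 5000000 : ℝ)) (hq : 0 < q) (hqb : q ≤ (1488207 / 500000 : ℝ))
    (hpq : 1 < p * q) : NoSol 5 p q :=
  noSol_rect (n := 5) (by norm_num) (N := 5) (a := (356743 / 500000 : ℝ)) (b := (607513 / 1000000 : ℝ))
    (τ := (5757137 / 10000000 : ℝ)) (A5 := (535597 / 1000000 : ℝ)) (A6 := (94279 / 125000 : ℝ))
    (A9 := (822307 / 1000000 : ℝ)) (A10 := (574059 / 1000000 : ℝ)) (s := (2567 / 20000 : ℝ)) (e := (1 / 10000000 : ℝ))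
    (pb := (9333129 / 5000000 : ℝ)) (qb := (1488207 / 500000 : ℝ)) (by norm_num)
    (by norm_num) (by norm_num) (by norm_num) (by norm_num) (by norm_num) (by norm_num) (by norm_num)
    (by norm_num) (by norm_num)
    (by norm_num) (by norm_num) (by norm_num) (by norm_num) (by norm_num)
    rfl rfl rfl rfl rfl rfl (by norm_num) (by norm_num) (by norm_num) hp hpb hq hqb hpq

theorem rowL5_135 {p q : ℝ} (hp : 0 < p) (hpb : p ≤ (18738959 / 10000000 : ℝ)) (hq : 0 < q) (hqb : q ≤ (14813421 / 5000000 : ℝ))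
    (hpq : 1 < p * q) : NoSol 5 p q :=
  noSol_rect (n := 5) (by norm_num) (N := 5) (a := (712219 / 1000000 : ℝ)) (b := (30389 / 50000 : ℝ))
    (τ := (291153 / 500000 : ℝ)) (A5 := (21387 / 40000 : ℝ)) (A6 := (756089 / 1000000 : ℝ))
    (A9 := (821349 / 1000000 : ℝ)) (A10 := (286619 / 500000 : ℝ)) (s := (6443 / 50000 : ℝ)) (e := (1 / 10000000 : ℝ))
    (pb := (18738959 / 10000000 : ℝ)) (qb := (14813421 / 5000000 : ℝ)) (by norm_num)
    (by norm_num) (by norm_num) (by norm_num) (by norm_num) (by norm_num) (by norm_num) (by norm_num)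
    (by norm_num) (by norm_num)
    (by norm_num) (by norm_num) (by norm_num) (by norm_num) (by norm_num)
    rfl rfl rfl rfl rfl rfl (by norm_num) (by norm_num) (by norm_num) hp hpb hq hqb hpq

theorem rowL5_136 {p q : ℝ} (hp : 0 < p) (hpb : p ≤ (4703167 / 2500000 : ℝ)) (hq : 0 < q) (hqb : q ≤ (1843047 / 625000 : ℝ))
    (hpq : 1 < p * q) : NoSol 5 p q :=
  noSol_rect (n := 5) (by norm_num) (N := 5) (a := (709543 / 1000000 : ℝ)) (b := (309649 / 500000 : ℝ))
    (τ := (2951067 / 5000000 : ℝ)) (A5 := (533209 / 1000000 : ℝ)) (A6 := (758357 / 1000000 : ℝ))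
    (A9 := (819363 / 1000000 : ℝ)) (A10 := (573481 / 1000000 : ℝ)) (s := (12869 / 100000 : ℝ)) (e := (1 / 10000000 : ℝ))
    (pb := (4703167 / 2500000 : ℝ)) (qb := (1843047 / 625000 : ℝ)) (by norm_num)
    (by norm_num) (by norm_num) (by norm_num) (by norm_num) (by norm_num) (by norm_num) (by norm_num)
    (by norm_num) (by norm_num)
    (by norm_num) (by norm_num) (by norm_num) (by norm_num) (by norm_num)
    rfl rfl rfl rfl rfl rfl (by norm_num) (by norm_num) (by norm_num) hp hpb hq hqb hpq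

theorem rowL5_137 {p q : ℝ} (hp : 0 < p) (hpb : p ≤ (4721993 / 2500000 : ℝ)) (hq : 0 < q) (hqb : q ≤ (29350431 / 10000000 : ℝ))
    (hpq : 1 < p * q) : NoSol 5 p q :=
  noSol_rect (n := 5) (by norm_num) (N := 5) (a := (354159 / 500000 : ℝ)) (b := (616761 / 1000000 : ℝ))
    (τ := (5961213 / 10000000 : ℝ)) (A5 := (534331 / 1000000 : ℝ)) (A6 := (757243 / 1000000 : ℝ))
    (A9 := (20457 / 25000 : ℝ)) (A10 := (574017 / 1000000 : ℝ)) (s := (809 / 6250 : ℝ)) (e := (1 / 10000000 : ℝ))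
    (pb := (4721993 / 2500000 : ℝ)) (qb := (29350431 / 10000000 : ℝ)) (by norm_num)
    (by norm_num) (by norm_num) (by norm_num) (by norm_num) (by norm_num) (by norm_num) (by norm_num)
    (by norm_num) (by norm_num)
    (by norm_num) (by norm_num) (by norm_num) (by norm_num) (by norm_num)
    rfl rfl rfl rfl rfl rfl (by norm_num) (by norm_num) (by norm_num) hp hpb hq hqb hpq

theorem rowL5_138 {p q : ℝ} (hp : 0 < p) (hpb : p ≤ (18964579 / 10000000 : ℝ)) (hq : 0 < q) (hqb : q ≤ (5842167 / 2000000 : ℝ))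
    (hpq : 1 < p * q) : NoSol 5 p q :=
  noSol_rect (n := 5) (by norm_num) (N := 5) (a := (177163 / 250000 : ℝ)) (b := (616527 / 1000000 : ℝ))
    (τ := (188413 / 312500 : ℝ)) (A5 := (533849 / 1000000 : ℝ)) (A6 := (379099 / 500000 : ℝ))
    (A9 := (817503 / 1000000 : ℝ)) (A10 := (28681 / 50000 : ℝ)) (s := (3249 / 25000 : ℝ)) (e := (1 / 10000000 : ℝ))
    (pb := (18964579 / 10000000 : ℝ)) (qb := (5842167 / 2000000 : ℝ)) (by norm_num)
    (by norm_num) (by norm_num) (by norm_num) (by norm_num) (by norm_num) (by norm_num) (by norm_num)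
    (by norm_num) (by norm_num)
    (by norm_num) (by norm_num) (by norm_num) (by norm_num) (by norm_num)
    rfl rfl rfl rfl rfl rfl (by norm_num) (by norm_num) (by norm_num) hp hpb hq hqb hpq

theorem rowL5_139 {p q : ℝ} (hp : 0 < p) (hpb : p ≤ (190423 / 100000 : ℝ)) (hq : 0 < q) (hqb : q ≤ (29070573 / 10000000 : ℝ))
    (hpq : 1 < p * q) : NoSol 5 p q :=
  noSol_rect (n := 5) (by norm_num) (N := 5) (a := (706969 / 1000000 : ℝ)) (b := (613557 / 1000000 : ℝ))
    (τ := (3037961 / 5000000 : ℝ)) (A5 := (533681 / 1000000 : ℝ)) (A6 := (757847 / 1000000 : ℝ))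
    (A9 := (819997 / 1000000 : ℝ)) (A10 := (571321 / 1000000 : ℝ)) (s := (13043 / 100000 : ℝ)) (e := (1 / 10000000 : ℝ))
    (pb := (190423 / 100000 : ℝ)) (qb := (29070573 / 10000000 : ℝ)) (by norm_num)
    (by norm_num) (by norm_num) (by norm_num) (by norm_num) (by norm_num) (by norm_num) (by norm_num)
    (by norm_num) (by norm_num)
    (by norm_num) (by norm_num) (by norm_num) (by norm_num) (by norm_num)
    rfl rfl rfl rfl rfl rfl (by norm_num) (by norm_num) (by norm_num) hp hpb hq hqb hpq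

theorem rowL5_140 {p q : ℝ} (hp : 0 < p) (hpb : p ≤ (19121257 / 10000000 : ℝ)) (hq : 0 < q) (hqb : q ≤ (28930041 / 10000000 : ℝ))
    (hpq : 1 < p * q) : NoSol 5 p q :=
  noSol_rect (n := 5) (by norm_num) (N := 5) (a := (355557 / 500000 : ℝ)) (b := (609779 / 1000000 : ℝ))
    (τ := (382199 / 625000 : ℝ)) (A5 := (21427 / 40000 : ℝ)) (A6 := (757297 / 1000000 : ℝ))
    (A9 := (820419 / 1000000 : ℝ)) (A10 := (4551 / 8000 : ℝ)) (s := (2617 / 20000 : ℝ)) (e := (1 / 10000000 : ℝ))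
    (pb := (19121257 / 10000000 : ℝ)) (qb := (28930041 / 10000000 : ℝ)) (by norm_num)
    (by norm_num) (by norm_num) (by norm_num) (by norm_num) (by norm_num) (by norm_num) (by norm_num)
    (by norm_num) (by norm_num)
    (by norm_num) (by norm_num) (by norm_num) (by norm_num) (by norm_num)
    rfl rfl rfl rfl rfl rfl (by norm_num) (by norm_num) (by norm_num) hp hpb hq hqb hpq

theorem rowL5_141 {p q : ℝ} (hp : 0 < p) (hpb : p ≤ (19201267 / 10000000 : ℝ)) (hq : 0 < q) (hqb : q ≤ (5757813 / 2000000 : ℝ))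
    (hpq : 1 < p * q) : NoSol 5 p q :=
  noSol_rect (n := 5) (by norm_num) (N := 5) (a := (723981 / 1000000 : ℝ)) (b := (593557 / 1000000 : ℝ))
    (τ := (1556069 / 2500000 : ℝ)) (A5 := (67137 / 125000 : ℝ)) (A6 := (758331 / 1000000 : ℝ))
    (A9 := (811773 / 1000000 : ℝ)) (A10 := (57369 / 100000 : ℝ)) (s := (1329 / 10000 : ℝ)) (e := (1 / 10000000 : ℝ))
    (pb := (19201267 / 10000000 : ℝ)) (qb := (5757813 / 2000000 : ℝ)) (by norm_num)
    (by norm_num) (by norm_num) (by norm_num) (by norm_num) (by norm_num) (by norm_num) (by norm_num)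
    (by norm_num) (by norm_num)
    (by norm_num) (by norm_num) (by norm_num) (by norm_num) (by norm_num)
    rfl rfl rfl rfl rfl rfl (by norm_num) (by norm_num) (by norm_num) hp hpb hq hqb hpq

theorem rowL5_142 {p q : ℝ} (hp : 0 < p) (hpb : p ≤ (3856629 / 2000000 : ℝ)) (hq : 0 < q) (hqb : q ≤ (28648017 / 10000000 : ℝ))
    (hpq : 1 < p * q) : NoSol 5 p q :=
  noSol_rect (n := 5) (by norm_num) (N := 5) (a := (733321 / 1000000 : ℝ)) (b := (298373 / 500000 : ℝ))
    (τ := (1566687 / 2500000 : ℝ)) (A5 := (537257 / 1000000 : ℝ)) (A6 := (94549 / 125000 : ℝ))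
    (A9 := (407819 / 500000 : ℝ)) (A10 := (571599 / 1000000 : ℝ)) (s := (3309 / 25000 : ℝ)) (e := (1 / 10000000 : ℝ))
    (pb := (3856629 / 2000000 : ℝ)) (qb := (28648017 / 10000000 : ℝ)) (by norm_num)
    (by norm_num) (by norm_num) (by norm_num) (by norm_num) (by norm_num) (by norm_num) (by norm_num)
    (by norm_num) (by norm_num)
    (by norm_num) (by norm_num) (by norm_num) (by norm_num) (by norm_num)
    rfl rfl rfl rfl rfl rfl (by norm_num) (by norm_num) (by norm_num) hp hpb hq hqb hpq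

theorem rowL5_143 {p q : ℝ} (hp : 0 < p) (hpb : p ≤ (9683037 / 5000000 : ℝ)) (hq : 0 < q) (hqb : q ≤ (14252761 / 5000000 : ℝ))
    (hpq : 1 < p * q) : NoSol 5 p q :=
  noSol_rect (n := 5) (by norm_num) (N := 5) (a := (720047 / 1000000 : ℝ)) (b := (305229 / 500000 : ℝ))
    (τ := (6377913 / 10000000 : ℝ)) (A5 := (16789 / 31250 : ℝ)) (A6 := (758263 / 1000000 : ℝ))
    (A9 := (809061 / 1000000 : ℝ)) (A10 := (575137 / 1000000 : ℝ)) (s := (13303 / 100000 : ℝ)) (e := (1 / 10000000 : ℝ))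
    (pb := (9683037 / 5000000 : ℝ)) (qb := (14252761 / 5000000 : ℝ)) (by norm_num)
    (by norm_num) (by norm_num) (by norm_num) (by norm_num) (by norm_num) (by norm_num) (by norm_num)
    (by norm_num) (by norm_num)
    (by norm_num) (by norm_num) (by norm_num) (by norm_num) (by norm_num)
    rfl rfl rfl rfl rfl rfl (by norm_num) (by norm_num) (by norm_num) hp hpb hq hqb hpq

theorem rowL5_144 {p q : ℝ} (hp : 0 < p) (hpb : p ≤ (9725231 / 5000000 : ℝ)) (hq : 0 < q) (hqb : q ≤ (28363067 / 10000000 : ℝ))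
    (hpq : 1 < p * q) : NoSol 5 p q :=
  noSol_rect (n := 5) (by norm_num) (N := 5) (a := (714347 / 1000000 : ℝ)) (b := (611681 / 1000000 : ℝ))
    (τ := (1609621 / 2500000 : ℝ)) (A5 := (33719 / 62500 : ℝ)) (A6 := (189187 / 250000 : ℝ))
    (A9 := (807551 / 1000000 : ℝ)) (A10 := (287681 / 500000 : ℝ)) (s := (1337 / 10000 : ℝ)) (e := (1 / 10000000 : ℝ))
    (pb := (9725231 / 5000000 : ℝ)) (qb := (28363067 / 10000000 : ℝ)) (by norm_num)
    (by norm_num) (by norm_num) (by norm_num) (by norm_num) (by norm_num) (by norm_num) (by norm_num)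
    (by norm_num) (by norm_num)
    (by norm_num) (by norm_num) (by norm_num) (by norm_num) (by norm_num)
    rfl rfl rfl rfl rfl rfl (by norm_num) (by norm_num) (by norm_num) hp hpb hq hqb hpq

theorem rowL5_145 {p q : ℝ} (hp : 0 < p) (hpb : p ≤ (2442039 / 1250000 : ℝ)) (hq : 0 < q) (hqb : q ≤ (28219997 / 10000000 : ℝ))
    (hpq : 1 < p * q) : NoSol 5 p q :=
  noSol_rect (n := 5) (by norm_num) (N := 5) (a := (178977 / 250000 : ℝ)) (b := (122129 / 200000 : ℝ))
    (τ := (1298329 / 2000000 : ℝ)) (A5 := (269597 / 500000 : ℝ)) (A6 := (378633 / 500000 : ℝ))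
    (A9 := (809939 / 1000000 : ℝ)) (A10 := (572351 / 1000000 : ℝ)) (s := (2679 / 20000 : ℝ)) (e := (1 / 10000000 : ℝ))
    (pb := (2442039 / 1250000 : ℝ)) (qb := (28219997 / 10000000 : ℝ)) (by norm_num)
    (by norm_num) (by norm_num) (by norm_num) (by norm_num) (by norm_num) (by norm_num) (by norm_num)
    (by norm_num) (by norm_num)
    (by norm_num) (by norm_num) (by norm_num) (by norm_num) (by norm_num)
    rfl rfl rfl rfl rfl rfl (by norm_num) (by norm_num) (by norm_num) hp hpb hq hqb hpq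

theorem rowL5_146 {p q : ℝ} (hp : 0 < p) (hpb : p ≤ (3924697 / 2000000 : ℝ)) (hq : 0 < q) (hqb : q ≤ (2807637 / 1000000 : ℝ))
    (hpq : 1 < p * q) : NoSol 5 p q :=
  noSol_rect (n := 5) (by norm_num) (N := 5) (a := (706979 / 1000000 : ℝ)) (b := (61701 / 100000 : ℝ))
    (τ := (6524543 / 10000000 : ℝ)) (A5 := (270783 / 500000 : ℝ)) (A6 := (756779 / 1000000 : ℝ))
    (A9 := (811481 / 1000000 : ℝ)) (A10 := (142109 / 250000 : ℝ)) (s := (67 / 500 : ℝ)) (e := (1 / 10000000 : ℝ))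
    (pb := (3924697 / 2000000 : ℝ)) (qb := (2807637 / 1000000 : ℝ)) (by norm_num)
    (by norm_num) (by norm_num) (by norm_num) (by norm_num) (by norm_num) (by norm_num) (by norm_num)
    (by norm_num) (by norm_num)
    (by norm_num) (by norm_num) (by norm_num) (by norm_num) (by norm_num)
    rfl rfl rfl rfl rfl rfl (by norm_num) (by norm_num) (by norm_num) hp hpb hq hqb hpq

theorem rowL5_147 {p q : ℝ} (hp : 0 < p) (hpb : p ≤ (19712001 / 10000000 : ℝ)) (hq : 0 < q) (hqb : q ≤ (27932471 / 10000000 : ℝ))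
    (hpq : 1 < p * q) : NoSol 5 p q :=
  noSol_rect (n := 5) (by norm_num) (N := 5) (a := (2839 / 4000 : ℝ)) (b := (613201 / 1000000 : ℝ))
    (τ := (6679223 / 10000000 : ℝ)) (A5 := (107193 / 200000 : ℝ)) (A6 := (381973 / 500000 : ℝ))
    (A9 := (806309 / 1000000 : ℝ)) (A10 := (570801 / 1000000 : ℝ)) (s := (6771 / 50000 : ℝ)) (e := (1 / 10000000 : ℝ))
    (pb := (19712001 / 10000000 : ℝ)) (qb := (27932471 / 10000000 : ℝ)) (by norm_num)
    (by norm_num) (by norm_num) (by norm_num) (by norm_num) (by norm_num) (by norm_num) (by norm_num)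
    (by norm_num) (by norm_num)
    (by norm_num) (by norm_num) (by norm_num) (by norm_num) (by norm_num)
    rfl rfl rfl rfl rfl rfl (by norm_num) (by norm_num) (by norm_num) hp hpb hq hqb hpq

theorem rowL5_148 {p q : ℝ} (hp : 0 < p) (hpb : p ≤ (19802169 / 10000000 : ℝ)) (hq : 0 < q) (hqb : q ≤ (27788319 / 10000000 : ℝ))
    (hpq : 1 < p * q) : NoSol 5 p q :=
  noSol_rect (n := 5) (by norm_num) (N := 5) (a := (71133 / 100000 : ℝ)) (b := (307557 / 500000 : ℝ))
    (τ := (6746209 / 10000000 : ℝ)) (A5 := (537321 / 1000000 : ℝ)) (A6 := (190717 / 250000 : ℝ))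
    (A9 := (805893 / 1000000 : ℝ)) (A10 := (570497 / 1000000 : ℝ)) (s := (543 / 4000 : ℝ)) (e := (1 / 10000000 : ℝ))
    (pb := (19802169 / 10000000 : ℝ)) (qb := (27788319 / 10000000 : ℝ)) (by norm_num)
    (by norm_num) (by norm_num) (by norm_num) (by norm_num) (by norm_num) (by norm_num) (by norm_num)
    (by norm_num) (by norm_num)
    (by norm_num) (by norm_num) (by norm_num) (by norm_num) (by norm_num)
    rfl rfl rfl rfl rfl rfl (by norm_num) (by norm_num) (by norm_num) hp hpb hq hqb hpq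

theorem rowL5_149 {p q : ℝ} (hp : 0 < p) (hpb : p ≤ (19893743 / 10000000 : ℝ)) (hq : 0 < q) (hqb : q ≤ (6910867 / 2500000 : ℝ))
    (hpq : 1 < p * q) : NoSol 5 p q :=
  noSol_rect (n := 5) (by norm_num) (N := 5) (a := (142187 / 200000 : ℝ)) (b := (38441 / 62500 : ℝ))
    (τ := (6819513 / 10000000 : ℝ)) (A5 := (268983 / 500000 : ℝ)) (A6 := (762627 / 1000000 : ℝ))
    (A9 := (805543 / 1000000 : ℝ)) (A10 := (11399 / 20000 : ℝ)) (s := (426 / 3125 : ℝ)) (e := (1 / 10000000 : ℝ))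
    (pb := (19893743 / 10000000 : ℝ)) (qb := (6910867 / 2500000 : ℝ)) (by norm_num)
    (by norm_num) (by norm_num) (by norm_num) (by norm_num) (by norm_num) (by norm_num) (by norm_num)
    (by norm_num) (by norm_num)
    (by norm_num) (by norm_num) (by norm_num) (by norm_num) (by norm_num)
    rfl rfl rfl rfl rfl rfl (by norm_num) (by norm_num) (by norm_num) hp hpb hq hqb hpq

theorem rowL5_150 {p q : ℝ} (hp : 0 < p) (hpb : p ≤ (19985997 / 10000000 : ℝ)) (hq : 0 < q) (hqb : q ≤ (219987 / 80000 : ℝ))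
    (hpq : 1 < p * q) : NoSol 5 p q :=
  noSol_rect (n := 5) (by norm_num) (N := 5) (a := (176603 / 250000 : ℝ)) (b := (618677 / 1000000 : ℝ))
    (τ := (1360173 / 2000000 : ℝ)) (A5 := (270983 / 500000 : ℝ)) (A6 := (757859 / 1000000 : ℝ))
    (A9 := (813409 / 1000000 : ℝ)) (A10 := (563069 / 1000000 : ℝ)) (s := (543 / 4000 : ℝ)) (e := (1 / 10000000 : ℝ))
    (pb := (19985997 / 10000000 : ℝ)) (qb := (219987 / 80000 : ℝ)) (by norm_num)
    (by norm_num) (by norm_num) (by norm_num) (by norm_num) (by norm_num) (by norm_num) (by norm_num)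
    (by norm_num) (by norm_num)
    (by norm_num) (by norm_num) (by norm_num) (by norm_num) (by norm_num)
    rfl rfl rfl rfl rfl rfl (by norm_num) (by norm_num) (by norm_num) hp hpb hq hqb hpq

theorem rowL5_151 {p q : ℝ} (hp : 0 < p) (hpb : p ≤ (20079873 / 10000000 : ℝ)) (hq : 0 < q) (hqb : q ≤ (27354217 / 10000000 : ℝ))
    (hpq : 1 < p * q) : NoSol 5 p q :=
  noSol_rect (n := 5) (by norm_num) (N := 5) (a := (2211 / 3125 : ℝ)) (b := (123987 / 200000 : ℝ))
    (τ := (3446029 / 5000000 : ℝ)) (A5 := (108371 / 200000 : ℝ)) (A6 := (75893 / 100000 : ℝ))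
    (A9 := (81161 / 100000 : ℝ)) (A10 := (563259 / 1000000 : ℝ)) (s := (3409 / 25000 : ℝ)) (e := (1 / 10000000 : ℝ))
    (pb := (20079873 / 10000000 : ℝ)) (qb := (27354217 / 10000000 : ℝ)) (by norm_num)
    (by norm_num) (by norm_num) (by norm_num) (by norm_num) (by norm_num) (by norm_num) (by norm_num)
    (by norm_num) (by norm_num)
    (by norm_num) (by norm_num) (by norm_num) (by norm_num) (by norm_num)
    rfl rfl rfl rfl rfl rfl (by norm_num) (by norm_num) (by norm_num) hp hpb hq hqb hpq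

theorem rowL5_152 {p q : ℝ} (hp : 0 < p) (hpb : p ≤ (20175571 / 10000000 : ℝ)) (hq : 0 < q) (hqb : q ≤ (6802389 / 2500000 : ℝ))
    (hpq : 1 < p * q) : NoSol 5 p q :=
  noSol_rect (n := 5) (by norm_num) (N := 5) (a := (176863 / 250000 : ℝ)) (b := (123643 / 200000 : ℝ))
    (τ := (3505697 / 5000000 : ℝ)) (A5 := (2707 / 5000 : ℝ)) (A6 := (380371 / 500000 : ℝ))
    (A9 := (161397 / 200000 : ℝ)) (A10 := (282849 / 500000 : ℝ)) (s := (86 / 625 : ℝ)) (e := (1 / 10000000 : ℝ))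
    (pb := (20175571 / 10000000 : ℝ)) (qb := (6802389 / 2500000 : ℝ)) (by norm_num)
    (by norm_num) (by norm_num) (by norm_num) (by norm_num) (by norm_num) (by norm_num) (by norm_num)
    (by norm_num) (by norm_num)
    (by norm_num) (by norm_num) (by norm_num) (by norm_num) (by norm_num)
    rfl rfl rfl rfl rfl rfl (by norm_num) (by norm_num) (by norm_num) hp hpb hq hqb hpq

theorem rowL5_153 {p q : ℝ} (hp : 0 < p) (hpb : p ≤ (1013603 / 500000 : ℝ)) (hq : 0 < q) (hqb : q ≤ (541283 / 200000 : ℝ))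
    (hpq : 1 < p * q) : NoSol 5 p q :=
  noSol_rect (n := 5) (by norm_num) (N := 5) (a := (702877 / 1000000 : ℝ)) (b := (307291 / 500000 : ℝ))
    (τ := (445397 / 625000 : ℝ)) (A5 := (542347 / 1000000 : ℝ)) (A6 := (190383 / 250000 : ℝ))
    (A9 := (400783 / 500000 : ℝ)) (A10 := (568527 / 1000000 : ℝ)) (s := (87 / 625 : ℝ)) (e := (1 / 10000000 : ℝ))
    (pb := (1013603 / 500000 : ℝ)) (qb := (541283 / 200000 : ℝ)) (by norm_num)
    (by norm_num) (by norm_num) (by norm_num) (by norm_num) (by norm_num) (by norm_num) (by norm_num)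
    (by norm_num) (by norm_num)
    (by norm_num) (by norm_num) (by norm_num) (by norm_num) (by norm_num)
    rfl rfl rfl rfl rfl rfl (by norm_num) (by norm_num) (by norm_num) hp hpb hq hqb hpq

theorem rowL5_154 {p q : ℝ} (hp : 0 < p) (hpb : p ≤ (10185219 / 5000000 : ℝ)) (hq : 0 < q) (hqb : q ≤ (26919609 / 10000000 : ℝ))
    (hpq : 1 < p * q) : NoSol 5 p q :=
  noSol_rect (n := 5) (by norm_num) (N := 5) (a := (140869 / 200000 : ℝ)) (b := (9646 / 15625 : ℝ))
    (τ := (1443087 / 2000000 : ℝ)) (A5 := (542609 / 1000000 : ℝ)) (A6 := (381191 / 500000 : ℝ))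
    (A9 := (800361 / 1000000 : ℝ)) (A10 := (71013 / 125000 : ℝ)) (s := (2793 / 20000 : ℝ)) (e := (1 / 10000000 : ℝ))
    (pb := (10185219 / 5000000 : ℝ)) (qb := (26919609 / 10000000 : ℝ)) (by norm_num)
    (by norm_num) (by norm_num) (by norm_num) (by norm_num) (by norm_num) (by norm_num) (by norm_num)
    (by norm_num) (by norm_num)
    (by norm_num) (by norm_num) (by norm_num) (by norm_num) (by norm_num)
    rfl rfl rfl rfl rfl rfl (by norm_num) (by norm_num) (by norm_num) hp hpb hq hqb hpq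

theorem rowL5_155 {p q : ℝ} (hp : 0 < p) (hpb : p ≤ (10235067 / 5000000 : ℝ)) (hq : 0 < q) (hqb : q ≤ (26774329 / 10000000 : ℝ))
    (hpq : 1 < p * q) : NoSol 5 p q :=
  noSol_rect (n := 5) (by norm_num) (N := 5) (a := (354951 / 500000 : ℝ)) (b := (617 / 1000 : ℝ))
    (τ := (3672949 / 5000000 : ℝ)) (A5 := (542647 / 1000000 : ℝ)) (A6 := (762811 / 1000000 : ℝ))
    (A9 := (795381 / 1000000 : ℝ)) (A10 := (285997 / 500000 : ℝ)) (s := (7033 / 50000 : ℝ)) (e := (1 / 10000000 : ℝ))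
    (pb := (10235067 / 5000000 : ℝ)) (qb := (26774329 / 10000000 : ℝ)) (by norm_num)
    (by norm_num) (by norm_num) (by norm_num) (by norm_num) (by norm_num) (by norm_num) (by norm_num)
    (by norm_num) (by norm_num)
    (by norm_num) (by norm_num) (by norm_num) (by norm_num) (by norm_num)
    rfl rfl rfl rfl rfl rfl (by norm_num) (by norm_num) (by norm_num) hp hpb hq hqb hpq

theorem rowL5_156 {p q : ℝ} (hp : 0 < p) (hpb : p ≤ (10285729 / 5000000 : ℝ)) (hq : 0 < q) (hqb : q ≤ (2662921 / 1000000 : ℝ))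
    (hpq : 1 < p * q) : NoSol 5 p q :=
  noSol_rect (n := 5) (by norm_num) (N := 5) (a := (720963 / 1000000 : ℝ)) (b := (615453 / 1000000 : ℝ))
    (τ := (7441153 / 10000000 : ℝ)) (A5 := (541643 / 1000000 : ℝ)) (A6 := (191419 / 250000 : ℝ))
    (A9 := (397447 / 500000 : ℝ)) (A10 := (14251 / 25000 : ℝ)) (s := (3523 / 25000 : ℝ)) (e := (1 / 10000000 : ℝ))
    (pb := (10285729 / 5000000 : ℝ)) (qb := (2662921 / 1000000 : ℝ)) (by norm_num)
    (by norm_num) (by norm_num) (by norm_num) (by norm_num) (by norm_num) (by norm_num) (by norm_num)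
    (by norm_num) (by norm_num)
    (by norm_num) (by norm_num) (by norm_num) (by norm_num) (by norm_num)
    rfl rfl rfl rfl rfl rfl (by norm_num) (by norm_num) (by norm_num) hp hpb hq hqb hpq

theorem rowL5_157 {p q : ℝ} (hp : 0 < p) (hpb : p ≤ (10337123 / 5000000 : ℝ)) (hq : 0 < q) (hqb : q ≤ (3310481 / 1250000 : ℝ))
    (hpq : 1 < p * q) : NoSol 5 p q :=
  noSol_rect (n := 5) (by norm_num) (N := 5) (a := (720479 / 1000000 : ℝ)) (b := (123063 / 200000 : ℝ))
    (τ := (7535311 / 10000000 : ℝ)) (A5 := (542021 / 1000000 : ℝ)) (A6 := (766053 / 1000000 : ℝ))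
    (A9 := (793897 / 1000000 : ℝ)) (A10 := (569841 / 1000000 : ℝ)) (s := (1771 / 12500 : ℝ)) (e := (1 / 10000000 : ℝ))
    (pb := (10337123 / 5000000 : ℝ)) (qb := (3310481 / 1250000 : ℝ)) (by norm_num)
    (by norm_num) (by norm_num) (by norm_num) (by norm_num) (by norm_num) (by norm_num) (by norm_num)
    (by norm_num) (by norm_num)
    (by norm_num) (by norm_num) (by norm_num) (by norm_num) (by norm_num)
    rfl rfl rfl rfl rfl rfl (by norm_num) (by norm_num) (by norm_num) hp hpb hq hqb hpq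

theorem rowL5_158 {p q : ℝ} (hp : 0 < p) (hpb : p ≤ (10389279 / 5000000 : ℝ)) (hq : 0 < q) (hqb : q ≤ (2633853 / 1000000 : ℝ))
    (hpq : 1 < p * q) : NoSol 5 p q :=
  noSol_rect (n := 5) (by norm_num) (N := 5) (a := (720159 / 1000000 : ℝ)) (b := (123131 / 200000 : ℝ))
    (τ := (47611 / 62500 : ℝ)) (A5 := (271329 / 500000 : ℝ)) (A6 := (38291 / 50000 : ℝ))
    (A9 := (794237 / 1000000 : ℝ)) (A10 := (91 / 160 : ℝ)) (s := (14223 / 100000 : ℝ)) (e := (1 / 10000000 : ℝ))
    (pb := (10389279 / 5000000 : ℝ)) (qb := (2633853 / 1000000 : ℝ)) (by norm_num)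
    (by norm_num) (by norm_num) (by norm_num) (by norm_num) (by norm_num) (by norm_num) (by norm_num)
    (by norm_num) (by norm_num)
    (by norm_num) (by norm_num) (by norm_num) (by norm_num) (by norm_num)
    rfl rfl rfl rfl rfl rfl (by norm_num) (by norm_num) (by norm_num) hp hpb hq hqb hpq

theorem rowL5_159 {p q : ℝ} (hp : 0 < p) (hpb : p ≤ (5221023 / 2500000 : ℝ)) (hq : 0 < q) (hqb : q ≤ (409269 / 156250 : ℝ))
    (hpq : 1 < p * q) : NoSol 5 p q :=
  noSol_rect (n := 5) (by norm_num) (N := 5) (a := (22561 / 31250 : ℝ)) (b := (307721 / 500000 : ℝ))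
    (τ := (120469 / 156250 : ℝ)) (A5 := (67907 / 125000 : ℝ)) (A6 := (765249 / 1000000 : ℝ))
    (A9 := (793927 / 1000000 : ℝ)) (A10 := (284343 / 500000 : ℝ)) (s := (14283 / 100000 : ℝ)) (e := (1 / 10000000 : ℝ))
    (pb := (5221023 / 2500000 : ℝ)) (qb := (409269 / 156250 : ℝ)) (by norm_num)
    (by norm_num) (by norm_num) (by norm_num) (by norm_num) (by norm_num) (by norm_num) (by norm_num)
    (by norm_num) (by norm_num)
    (by norm_num) (by norm_num) (by norm_num) (by norm_num) (by norm_num)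
    rfl rfl rfl rfl rfl rfl (by norm_num) (by norm_num) (by norm_num) hp hpb hq hqb hpq

end Vale.Agent.Lib.P100
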