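import Vale.Agent.Lib.P100.Cover

/-!
Rational certificates, dimension 5.
-/

namespace Vale.Agent.Lib.P100

theorem rowL5_160 {p q : ℝ} (hp : 0 < p) (hpb : p ≤ (20990621 / 10000000 : ℝ)) (hq : 0 < q) (hqb : q ≤ (5209673 / 2000000 : ℝ))
    (hpq : 1 < p * q) : NoSol 5 p q :=
  noSol_rect (n := 5) (by norm_num) (N := 5) (a := (358521 / 500000 : ℝ)) (b := (312699 / 500000 : ℝ))
    (τ := (3859633 / 5000000 : ℝ)) (A5 := (545959 / 1000000 : ℝ)) (A6 := (764467 / 1000000 : ℝ))
    (A9 := (7993 / 10000 : ℝ)) (A10 := (561177 / 1000000 : ℝ)) (s := (711 / 5000 : ℝ)) (e := (1 / 10000000 : ℝ))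
    (pb := (20990621 / 10000000 : ℝ)) (qb := (5209673 / 2000000 : ℝ)) (by norm_num)
    (by norm_num) (by norm_num) (by norm_num) (by norm_num) (by norm_num) (by norm_num) (by norm_num)
    (by norm_num) (by norm_num)
    (by norm_num) (by norm_num) (by norm_num) (by norm_num) (by norm_num)
    rfl rfl rfl rfl rfl rfl (by norm_num) (by norm_num) (by norm_num) hp hpb hq hqb hpq

theorem rowL5_161 {p q : ℝ} (hp : 0 < p) (hpb : p ≤ (21098819 / 10000000 : ℝ)) (hq : 0 < q) (hqb : q ≤ (6476077 / 2500000 : ℝ))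
    (hpq : 1 < p * q) : NoSol 5 p q :=
  noSol_rect (n := 5) (by norm_num) (N := 5) (a := (718691 / 1000000 : ℝ)) (b := (623391 / 1000000 : ℝ))
    (τ := (7834829 / 10000000 : ℝ)) (A5 := (545789 / 1000000 : ℝ)) (A6 := (764829 / 1000000 : ℝ))
    (A9 := (797549 / 1000000 : ℝ)) (A10 := (70293 / 125000 : ℝ)) (s := (3579 / 25000 : ℝ)) (e := (1 / 10000000 : ℝ))
    (pb := (21098819 / 10000000 : ℝ)) (qb := (6476077 / 2500000 : ℝ)) (by norm_num)
    (by norm_num) (by norm_num) (by norm_num) (by norm_num) (by norm_num) (by norm_num) (by norm_num)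
    (by norm_num) (by norm_num)
    (by norm_num) (by norm_num) (by norm_num) (by norm_num) (by norm_num)
    rfl rfl rfl rfl rfl rfl (by norm_num) (by norm_num) (by norm_num) hp hpb hq hqb hpq

theorem rowL5_162 {p q : ℝ} (hp : 0 < p) (hpb : p ≤ (21208403 / 10000000 : ℝ)) (hq : 0 < q) (hqb : q ≤ (12880083 / 5000000 : ℝ))
    (hpq : 1 < p * q) : NoSol 5 p q :=
  noSol_rect (n := 5) (by norm_num) (N := 5) (a := (88873 / 125000 : ℝ)) (b := (155517 / 250000 : ℝ))
    (τ := (7944073 / 10000000 : ℝ)) (A5 := (110263 / 200000 : ℝ)) (A6 := (380967 / 500000 : ℝ))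
    (A9 := (394961 / 500000 : ℝ)) (A10 := (141707 / 250000 : ℝ)) (s := (7253 / 50000 : ℝ)) (e := (1 / 10000000 : ℝ))
    (pb := (21208403 / 10000000 : ℝ)) (qb := (12880083 / 5000000 : ℝ)) (by norm_num)
    (by norm_num) (by norm_num) (by norm_num) (by norm_num) (by norm_num) (by norm_num) (by norm_num)
    (by norm_num) (by norm_num)
    (by norm_num) (by norm_num) (by norm_num) (by norm_num) (by norm_num)
    rfl rfl rfl rfl rfl rfl (by norm_num) (by norm_num) (by norm_num) hp hpb hq hqb hpq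

theorem rowL5_163 {p q : ℝ} (hp : 0 < p) (hpb : p ≤ (21319259 / 10000000 : ℝ)) (hq : 0 < q) (hqb : q ≤ (12808179 / 5000000 : ℝ))
    (hpq : 1 < p * q) : NoSol 5 p q :=
  noSol_rect (n := 5) (by norm_num) (N := 5) (a := (712601 / 1000000 : ℝ)) (b := (623721 / 1000000 : ℝ))
    (τ := (4020289 / 5000000 : ℝ)) (A5 := (552219 / 1000000 : ℝ)) (A6 := (761801 / 1000000 : ℝ))
    (A9 := (12331 / 15625 : ℝ)) (A10 := (113293 / 200000 : ℝ)) (s := (7281 / 50000 : ℝ)) (e := (1 / 10000000 : ℝ))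
    (pb := (21319259 / 10000000 : ℝ)) (qb := (12808179 / 5000000 : ℝ)) (by norm_num)
    (by norm_num) (by norm_num) (by norm_num) (by norm_num) (by norm_num) (by norm_num) (by norm_num)
    (by norm_num) (by norm_num)
    (by norm_num) (by norm_num) (by norm_num) (by norm_num) (by norm_num)
    rfl rfl rfl rfl rfl rfl (by norm_num) (by norm_num) (by norm_num) hp hpb hq hqb hpq

theorem rowL5_164 {p q : ℝ} (hp : 0 < p) (hpb : p ≤ (133949 / 62500 : ℝ)) (hq : 0 < q) (hqb : q ≤ (12736533 / 5000000 : ℝ))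
    (hpq : 1 < p * q) : NoSol 5 p q :=
  noSol_rect (n := 5) (by norm_num) (N := 5) (a := (182557 / 250000 : ℝ)) (b := (152587 / 250000 : ℝ))
    (τ := (8134189 / 10000000 : ℝ)) (A5 := (550713 / 1000000 : ℝ)) (A6 := (191031 / 250000 : ℝ))
    (A9 := (395641 / 500000 : ℝ)) (A10 := (281619 / 500000 : ℝ)) (s := (3651 / 25000 : ℝ)) (e := (1 / 10000000 : ℝ))
    (pb := (133949 / 62500 : ℝ)) (qb := (12736533 / 5000000 : ℝ)) (by norm_num)
    (by norm_num) (by norm_num) (by norm_num) (by norm_num) (by norm_num) (by norm_num) (by norm_num)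
    (by norm_num) (by norm_num)
    (by norm_num) (by norm_num) (by norm_num) (by norm_num) (by norm_num)
    rfl rfl rfl rfl rfl rfl (by norm_num) (by norm_num) (by norm_num) hp hpb hq hqb hpq

theorem rowL5_165 {p q : ℝ} (hp : 0 < p) (hpb : p ≤ (4309043 / 2000000 : ℝ)) (hq : 0 < q) (hqb : q ≤ (1266487 / 500000 : ℝ))
    (hpq : 1 < p * q) : NoSol 5 p q :=
  noSol_rect (n := 5) (by norm_num) (N := 5) (a := (367993 / 500000 : ℝ)) (b := (122137 / 200000 : ℝ))
    (τ := (8252667 / 10000000 : ℝ)) (A5 := (8582 / 15625 : ℝ)) (A6 := (11957 / 15625 : ℝ))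
    (A9 := (791601 / 1000000 : ℝ)) (A10 := (281471 / 500000 : ℝ)) (s := (183 / 1250 : ℝ)) (e := (1 / 10000000 : ℝ))
    (pb := (4309043 / 2000000 : ℝ)) (qb := (1266487 / 500000 : ℝ)) (by norm_num)
    (by norm_num) (by norm_num) (by norm_num) (by norm_num) (by norm_num) (by norm_num) (by norm_num)
    (by norm_num) (by norm_num)
    (by norm_num) (by norm_num) (by norm_num) (by norm_num) (by norm_num)
    rfl rfl rfl rfl rfl rfl (by norm_num) (by norm_num) (by norm_num) hp hpb hq hqb hpq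

theorem rowL5_166 {p q : ℝ} (hp : 0 < p) (hpb : p ≤ (4332149 / 2000000 : ℝ)) (hq : 0 < q) (hqb : q ≤ (25187591 / 10000000 : ℝ))
    (hpq : 1 < p * q) : NoSol 5 p q :=
  noSol_rect (n := 5) (by norm_num) (N := 5) (a := (179603 / 250000 : ℝ)) (b := (2479 / 4000 : ℝ))
    (τ := (1044813 / 1250000 : ℝ)) (A5 := (548879 / 1000000 : ℝ)) (A6 := (384437 / 500000 : ℝ))
    (A9 := (31629 / 40000 : ℝ)) (A10 := (28009 / 50000 : ℝ)) (s := (14757 / 100000 : ℝ)) (e := (1 / 10000000 : ℝ))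
    (pb := (4332149 / 2000000 : ℝ)) (qb := (25187591 / 10000000 : ℝ)) (by norm_num)
    (by norm_num) (by norm_num) (by norm_num) (by norm_num) (by norm_num) (by norm_num) (by norm_num)
    (by norm_num) (by norm_num)
    (by norm_num) (by norm_num) (by norm_num) (by norm_num) (by norm_num)
    rfl rfl rfl rfl rfl rfl (by norm_num) (by norm_num) (by norm_num) hp hpb hq hqb hpq

theorem rowL5_167 {p q : ℝ} (hp : 0 < p) (hpb : p ≤ (10888853 / 5000000 : ℝ)) (hq : 0 < q) (hqb : q ≤ (25044947 / 10000000 : ℝ))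
    (hpq : 1 < p * q) : NoSol 5 p q :=
  noSol_rect (n := 5) (by norm_num) (N := 5) (a := (143707 / 200000 : ℝ)) (b := (4949 / 8000 : ℝ))
    (τ := (8471529 / 10000000 : ℝ)) (A5 := (34277 / 62500 : ℝ)) (A6 := (48107 / 62500 : ℝ))
    (A9 := (790727 / 1000000 : ℝ)) (A10 := (279771 / 500000 : ℝ)) (s := (14839 / 100000 : ℝ)) (e := (1 / 10000000 : ℝ))
    (pb := (10888853 / 5000000 : ℝ)) (qb := (25044947 / 10000000 : ℝ)) (by norm_num)
    (by norm_num) (by norm_num) (by norm_num) (by norm_num) (by norm_num) (by norm_num) (by norm_num)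
    (by norm_num) (by norm_num)
    (by norm_num) (by norm_num) (by norm_num) (by norm_num) (by norm_num)
    rfl rfl rfl rfl rfl rfl (by norm_num) (by norm_num) (by norm_num) hp hpb hq hqb hpq

theorem rowL5_168 {p q : ℝ} (hp : 0 < p) (hpb : p ≤ (547401 / 250000 : ℝ)) (hq : 0 < q) (hqb : q ≤ (778211 / 312500 : ℝ))
    (hpq : 1 < p * q) : NoSol 5 p q :=
  noSol_rect (n := 5) (by norm_num) (N := 5) (a := (717769 / 1000000 : ℝ)) (b := (617401 / 1000000 : ℝ))
    (τ := (8588029 / 10000000 : ℝ)) (A5 := (548289 / 1000000 : ℝ)) (A6 := (385253 / 500000 : ℝ))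
    (A9 := (790189 / 1000000 : ℝ)) (A10 := (559181 / 1000000 : ℝ)) (s := (14933 / 100000 : ℝ)) (e := (1 / 10000000 : ℝ))
    (pb := (547401 / 250000 : ℝ)) (qb := (778211 / 312500 : ℝ)) (by norm_num)
    (by norm_num) (by norm_num) (by norm_num) (by norm_num) (by norm_num) (by norm_num) (by norm_num)
    (by norm_num) (by norm_num)
    (by norm_num) (by norm_num) (by norm_num) (by norm_num) (by norm_num)
    rfl rfl rfl rfl rfl rfl (by norm_num) (by norm_num) (by norm_num) hp hpb hq hqb hpq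

theorem rowL5_169 {p q : ℝ} (hp : 0 < p) (hpb : p ≤ (22014653 / 10000000 : ℝ)) (hq : 0 < q) (hqb : q ≤ (24761107 / 10000000 : ℝ))
    (hpq : 1 < p * q) : NoSol 5 p q :=
  noSol_rect (n := 5) (by norm_num) (N := 5) (a := (716741 / 1000000 : ℝ)) (b := (605539 / 1000000 : ℝ))
    (τ := (8751793 / 10000000 : ℝ)) (A5 := (136789 / 250000 : ℝ)) (A6 := (774753 / 1000000 : ℝ))
    (A9 := (392709 / 500000 : ℝ)) (A10 := (280183 / 500000 : ℝ)) (s := (7577 / 50000 : ℝ)) (e := (1 / 10000000 : ℝ))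
    (pb := (22014653 / 10000000 : ℝ)) (qb := (24761107 / 10000000 : ℝ)) (by norm_num)
    (by norm_num) (by norm_num) (by norm_num) (by norm_num) (by norm_num) (by norm_num) (by norm_num)
    (by norm_num) (by norm_num)
    (by norm_num) (by norm_num) (by norm_num) (by norm_num) (by norm_num)
    rfl rfl rfl rfl rfl rfl (by norm_num) (by norm_num) (by norm_num) hp hpb hq hqb hpq

theorem rowL5_170 {p q : ℝ} (hp : 0 < p) (hpb : p ≤ (22135187 / 10000000 : ℝ)) (hq : 0 < q) (hqb : q ≤ (12310657 / 5000000 : ℝ))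
    (hpq : 1 < p * q) : NoSol 5 p q :=
  noSol_rect (n := 5) (by norm_num) (N := 5) (a := (179829 / 250000 : ℝ)) (b := (121493 / 200000 : ℝ))
    (τ := (887127 / 1000000 : ℝ)) (A5 := (547943 / 1000000 : ℝ)) (A6 := (48433 / 62500 : ℝ))
    (A9 := (24499 / 31250 : ℝ)) (A10 := (112137 / 200000 : ℝ)) (s := (761 / 5000 : ℝ)) (e := (1 / 10000000 : ℝ))
    (pb := (22135187 / 10000000 : ℝ)) (qb := (12310657 / 5000000 : ℝ)) (by norm_num)
    (by norm_num) (by norm_num) (by norm_num) (by norm_num) (by norm_num) (by norm_num) (by norm_num)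
    (by norm_num) (by norm_num)
    (by norm_num) (by norm_num) (by norm_num) (by norm_num) (by norm_num)
    rfl rfl rfl rfl rfl rfl (by norm_num) (by norm_num) (by norm_num) hp hpb hq hqb hpq

theorem rowL5_171 {p q : ℝ} (hp : 0 < p) (hpb : p ≤ (2782167 / 1250000 : ℝ)) (hq : 0 < q) (hqb : q ≤ (24481449 / 10000000 : ℝ))
    (hpq : 1 < p * q) : NoSol 5 p q :=
  noSol_rect (n := 5) (by norm_num) (N := 5) (a := (90257 / 125000 : ℝ)) (b := (30541 / 50000 : ℝ))
    (τ := (4496263 / 5000000 : ℝ)) (A5 := (548373 / 1000000 : ℝ)) (A6 := (193959 / 250000 : ℝ))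
    (A9 := (782777 / 1000000 : ℝ)) (A10 := (560363 / 1000000 : ℝ)) (s := (611 / 4000 : ℝ)) (e := (1 / 10000000 : ℝ))
    (pb := (2782167 / 1250000 : ℝ)) (qb := (24481449 / 10000000 : ℝ)) (by norm_num)
    (by norm_num) (by norm_num) (by norm_num) (by norm_num) (by norm_num) (by norm_num) (by norm_num)
    (by norm_num) (by norm_num)
    (by norm_num) (by norm_num) (by norm_num) (by norm_num) (by norm_num)
    rfl rfl rfl rfl rfl rfl (by norm_num) (by norm_num) (by norm_num) hp hpb hq hqb hpq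

theorem rowL5_172 {p q : ℝ} (hp : 0 < p) (hpb : p ≤ (11190353 / 5000000 : ℝ)) (hq : 0 < q) (hqb : q ≤ (3042739 / 1250000 : ℝ))
    (hpq : 1 < p * q) : NoSol 5 p q :=
  noSol_rect (n := 5) (by norm_num) (N := 5) (a := (361041 / 500000 : ℝ)) (b := (611809 / 1000000 : ℝ))
    (τ := (455347 / 500000 : ℝ)) (A5 := (8564 / 15625 : ℝ)) (A6 := (776971 / 1000000 : ℝ))
    (A9 := (78327 / 100000 : ℝ)) (A10 := (279433 / 500000 : ℝ)) (s := (15341 / 100000 : ℝ)) (e := (1 / 10000000 : ℝ))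
    (pb := (11190353 / 5000000 : ℝ)) (qb := (3042739 / 1250000 : ℝ)) (by norm_num)
    (by norm_num) (by norm_num) (by norm_num) (by norm_num) (by norm_num) (by norm_num) (by norm_num)
    (by norm_num) (by norm_num)
    (by norm_num) (by norm_num) (by norm_num) (by norm_num) (by norm_num)
    rfl rfl rfl rfl rfl rfl (by norm_num) (by norm_num) (by norm_num) hp hpb hq hqb hpq

theorem rowL5_173 {p q : ℝ} (hp : 0 < p) (hpb : p ≤ (22505583 / 10000000 : ℝ)) (hq : 0 < q) (hqb : q ≤ (24203177 / 10000000 : ℝ))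
    (hpq : 1 < p * q) : NoSol 5 p q :=
  noSol_rect (n := 5) (by norm_num) (N := 5) (a := (721051 / 1000000 : ℝ)) (b := (9562 / 15625 : ℝ))
    (τ := (9197557 / 10000000 : ℝ)) (A5 := (550701 / 1000000 : ℝ)) (A6 := (774669 / 1000000 : ℝ))
    (A9 := (78331 / 100000 : ℝ)) (A10 := (558429 / 1000000 : ℝ)) (s := (1927 / 12500 : ℝ)) (e := (1 / 10000000 : ℝ))
    (pb := (22505583 / 10000000 : ℝ)) (qb := (24203177 / 10000000 : ℝ)) (by norm_num)
    (by norm_num) (by norm_num) (by norm_num) (by norm_num) (by norm_num) (by norm_num) (by norm_num)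
    (by norm_num) (by norm_num)
    (by norm_num) (by norm_num) (by norm_num) (by norm_num) (by norm_num)
    rfl rfl rfl rfl rfl rfl (by norm_num) (by norm_num) (by norm_num) hp hpb hq hqb hpq

theorem rowL5_174 {p q : ℝ} (hp : 0 < p) (hpb : p ≤ (5657903 / 2500000 : ℝ)) (hq : 0 < q) (hqb : q ≤ (1504059 / 625000 : ℝ))
    (hpq : 1 < p * q) : NoSol 5 p q :=
  noSol_rect (n := 5) (by norm_num) (N := 5) (a := (90089 / 125000 : ℝ)) (b := (612591 / 1000000 : ℝ))
    (τ := (371219 / 400000 : ℝ)) (A5 := (276347 / 500000 : ℝ)) (A6 := (386309 / 500000 : ℝ))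
    (A9 := (784869 / 1000000 : ℝ)) (A10 := (111371 / 200000 : ℝ)) (s := (7733 / 50000 : ℝ)) (e := (1 / 10000000 : ℝ))
    (pb := (5657903 / 2500000 : ℝ)) (qb := (1504059 / 625000 : ℝ)) (by norm_num)
    (by norm_num) (by norm_num) (by norm_num) (by norm_num) (by norm_num) (by norm_num) (by norm_num)
    (by norm_num) (by norm_num)
    (by norm_num) (by norm_num) (by norm_num) (by norm_num) (by norm_num)
    rfl rfl rfl rfl rfl rfl (by norm_num) (by norm_num) (by norm_num) hp hpb hq hqb hpq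

theorem rowL5_175 {p q : ℝ} (hp : 0 < p) (hpb : p ≤ (568957 / 250000 : ℝ)) (hq : 0 < q) (hqb : q ≤ (23927623 / 10000000 : ℝ))
    (hpq : 1 < p * q) : NoSol 5 p q :=
  noSol_rect (n := 5) (by norm_num) (N := 5) (a := (364619 / 500000 : ℝ)) (b := (150817 / 250000 : ℝ))
    (τ := (9432153 / 10000000 : ℝ)) (A5 := (556509 / 1000000 : ℝ)) (A6 := (30811 / 40000 : ℝ))
    (A9 := (155661 / 200000 : ℝ)) (A10 := (280901 / 500000 : ℝ)) (s := (5 / 32 : ℝ)) (e := (1 / 10000000 : ℝ))
    (pb := (568957 / 250000 : ℝ)) (qb := (23927623 / 10000000 : ℝ)) (by norm_num)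
    (by norm_num) (by norm_num) (by norm_num) (by norm_num) (by norm_num) (by norm_num) (by norm_num)
    (by norm_num) (by norm_num)
    (by norm_num) (by norm_num) (by norm_num) (by norm_num) (by norm_num)
    rfl rfl rfl rfl rfl rfl (by norm_num) (by norm_num) (by norm_num) hp hpb hq hqb hpq

theorem rowL5_176 {p q : ℝ} (hp : 0 < p) (hpb : p ≤ (11443281 / 5000000 : ℝ)) (hq : 0 < q) (hqb : q ≤ (2379177 / 1000000 : ℝ))
    (hpq : 1 < p * q) : NoSol 5 p q :=
  noSol_rect (n := 5) (by norm_num) (N := 5) (a := (727819 / 1000000 : ℝ)) (b := (605331 / 1000000 : ℝ))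
    (τ := (960551 / 1000000 : ℝ)) (A5 := (69153 / 125000 : ℝ)) (A6 := (776461 / 1000000 : ℝ))
    (A9 := (388367 / 500000 : ℝ)) (A10 := (560341 / 1000000 : ℝ)) (s := (787 / 5000 : ℝ)) (e := (1 / 10000000 : ℝ))
    (pb := (11443281 / 5000000 : ℝ)) (qb := (2379177 / 1000000 : ℝ)) (by norm_num)
    (by norm_num) (by norm_num) (by norm_num) (by norm_num) (by norm_num) (by norm_num) (by norm_num)
    (by norm_num) (by norm_num)
    (by norm_num) (by norm_num) (by norm_num) (by norm_num) (by norm_num)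
    rfl rfl rfl rfl rfl rfl (by norm_num) (by norm_num) (by norm_num) hp hpb hq hqb hpq

theorem rowL5_177 {p q : ℝ} (hp : 0 < p) (hpb : p ≤ (2301593 / 1000000 : ℝ)) (hq : 0 < q) (hqb : q ≤ (23656343 / 10000000 : ℝ))
    (hpq : 1 < p * q) : NoSol 5 p q :=
  noSol_rect (n := 5) (by norm_num) (N := 5) (a := (180751 / 250000 : ℝ)) (b := (613543 / 1000000 : ℝ))
    (τ := (9705767 / 10000000 : ℝ)) (A5 := (554329 / 1000000 : ℝ)) (A6 := (775031 / 1000000 : ℝ))
    (A9 := (2432 / 3125 : ℝ)) (A10 := (559117 / 1000000 : ℝ)) (s := (15783 / 100000 : ℝ)) (e := (1 / 10000000 : ℝ))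
    (pb := (2301593 / 1000000 : ℝ)) (qb := (23656343 / 10000000 : ℝ)) (by norm_num)
    (by norm_num) (by norm_num) (by norm_num) (by norm_num) (by norm_num) (by norm_num) (by norm_num)
    (by norm_num) (by norm_num)
    (by norm_num) (by norm_num) (by norm_num) (by norm_num) (by norm_num)
    rfl rfl rfl rfl rfl rfl (by norm_num) (by norm_num) (by norm_num) hp hpb hq hqb hpq

theorem rowL5_178 {p q : ℝ} (hp : 0 < p) (hpb : p ≤ (462931 / 200000 : ℝ)) (hq : 0 < q) (hqb : q ≤ (11760959 / 5000000 : ℝ))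
    (hpq : 1 < p * q) : NoSol 5 p q :=
  noSol_rect (n := 5) (by norm_num) (N := 5) (a := (45483 / 62500 : ℝ)) (b := (24279 / 40000 : ℝ))
    (τ := (9821221 / 10000000 : ℝ)) (A5 := (138917 / 250000 : ℝ)) (A6 := (775069 / 1000000 : ℝ))
    (A9 := (77773 / 100000 : ℝ)) (A10 := (69777 / 125000 : ℝ)) (s := (127 / 800 : ℝ)) (e := (1 / 10000000 : ℝ))
    (pb := (462931 / 200000 : ℝ)) (qb := (11760959 / 5000000 : ℝ)) (by norm_num)
    (by norm_num) (by norm_num) (by norm_num) (by norm_num) (by norm_num) (by norm_num) (by norm_num)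
    (by norm_num) (by norm_num)
    (by norm_num) (by norm_num) (by norm_num) (by norm_num) (by norm_num)
    rfl rfl rfl rfl rfl rfl (by norm_num) (by norm_num) (by norm_num) hp hpb hq hqb hpq

theorem rowL5_179 {p q : ℝ} (hp : 0 < p) (hpb : p ≤ (5819443 / 2500000 : ℝ)) (hq : 0 < q) (hqb : q ≤ (23388329 / 10000000 : ℝ))
    (hpq : 1 < p * q) : NoSol 5 p q :=
  noSol_rect (n := 5) (by norm_num) (N := 5) (a := (724429 / 1000000 : ℝ)) (b := (607099 / 1000000 : ℝ))
    (τ := (10022423 / 10000000 : ℝ)) (A5 := (110931 / 200000 : ℝ)) (A6 := (779933 / 1000000 : ℝ))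
    (A9 := (772003 / 1000000 : ℝ)) (A10 := (560063 / 1000000 : ℝ)) (s := (2009 / 12500 : ℝ)) (e := (1 / 10000000 : ℝ))
    (pb := (5819443 / 2500000 : ℝ)) (qb := (23388329 / 10000000 : ℝ)) (by norm_num)
    (by norm_num) (by norm_num) (by norm_num) (by norm_num) (by norm_num) (by norm_num) (by norm_num)
    (by norm_num) (by norm_num)
    (by norm_num) (by norm_num) (by norm_num) (by norm_num) (by norm_num)
    rfl rfl rfl rfl rfl rfl (by norm_num) (by norm_num) (by norm_num) hp hpb hq hqb hpq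

end Vale.Agent.Lib.P100
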