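import Vale.Agent.Lib.P100.Cover

/-!
Rational certificates, dimension 6.
-/

namespace Vale.Agent.Lib.P100

theorem rowL6_0 {p q : ℝ} (hp : 0 < p) (hpb : p ≤ (10176613 / 10000000 : ℝ)) (hq : 0 < q) (hqb : q ≤ (375601 / 78125 : ℝ))
    (hpq : 1 < p * q) : NoSol 6 p q :=
  noSol_rect (n := 6) (by norm_num) (N := 6) (a := (350653 / 500000 : ℝ)) (b := (657971 / 1000000 : ℝ))
    (τ := (398959 / 2500000 : ℝ)) (A5 := (245717 / 500000 : ℝ)) (A6 := (177053 / 250000 : ℝ))
    (A9 := (223853 / 250000 : ℝ)) (A10 := (580887 / 1000000 : ℝ)) (s := (3749 / 50000 : ℝ)) (e := (1 / 10000000 : ℝ))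
    (pb := (10176613 / 10000000 : ℝ)) (qb := (375601 / 78125 : ℝ)) (by norm_num)
    (by norm_num) (by norm_num) (by norm_num) (by norm_num) (by norm_num) (by norm_num) (by norm_num)
    (by norm_num) (by norm_num)
    (by norm_num) (by norm_num) (by norm_num) (by norm_num) (by norm_num)
    rfl rfl rfl rfl rfl rfl (by norm_num) (by norm_num) (by norm_num) hp hpb hq hqb hpq

theorem rowL6_1 {p q : ℝ} (hp : 0 < p) (hpb : p ≤ (10222731 / 10000000 : ℝ)) (hq : 0 < q) (hqb : q ≤ (23859891 / 5000000 : ℝ))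
    (hpq : 1 < p * q) : NoSol 6 p q :=
  noSol_rect (n := 6) (by norm_num) (N := 6) (a := (357871 / 500000 : ℝ)) (b := (40611 / 62500 : ℝ))
    (τ := (1583497 / 10000000 : ℝ)) (A5 := (49919 / 100000 : ℝ)) (A6 := (349899 / 500000 : ℝ))
    (A9 := (453887 / 500000 : ℝ)) (A10 := (286357 / 500000 : ℝ)) (s := (1887 / 25000 : ℝ)) (e := (1 / 10000000 : ℝ))
    (pb := (10222731 / 10000000 : ℝ)) (qb := (23859891 / 5000000 : ℝ)) (by norm_num)
    (by norm_num) (by norm_num) (by norm_num) (by norm_num) (by norm_num) (by norm_num) (by norm_num)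
    (by norm_num) (by norm_num)
    (by norm_num) (by norm_num) (by norm_num) (by norm_num) (by norm_num)
    rfl rfl rfl rfl rfl rfl (by norm_num) (by norm_num) (by norm_num) hp hpb hq hqb hpq

theorem rowL6_2 {p q : ℝ} (hp : 0 < p) (hpb : p ≤ (5134939 / 5000000 : ℝ)) (hq : 0 < q) (hqb : q ≤ (9469133 / 2000000 : ℝ))
    (hpq : 1 < p * q) : NoSol 6 p q :=
  noSol_rect (n := 6) (by norm_num) (N := 6) (a := (715061 / 1000000 : ℝ)) (b := (651793 / 1000000 : ℝ))
    (τ := (63659 / 400000 : ℝ)) (A5 := (101041 / 200000 : ℝ)) (A6 := (693061 / 1000000 : ℝ))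
    (A9 := (455187 / 500000 : ℝ)) (A10 := (571101 / 1000000 : ℝ)) (s := (7461 / 100000 : ℝ)) (e := (1 / 10000000 : ℝ))
    (pb := (5134939 / 5000000 : ℝ)) (qb := (9469133 / 2000000 : ℝ)) (by norm_num)
    (by norm_num) (by norm_num) (by norm_num) (by norm_num) (by norm_num) (by norm_num) (by norm_num)
    (by norm_num) (by norm_num)
    (by norm_num) (by norm_num) (by norm_num) (by norm_num) (by norm_num)
    rfl rfl rfl rfl rfl rfl (by norm_num) (by norm_num) (by norm_num) hp hpb hq hqb hpq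

theorem rowL6_3 {p q : ℝ} (hp : 0 < p) (hpb : p ≤ (10317413 / 10000000 : ℝ)) (hq : 0 < q) (hqb : q ≤ (23484953 / 5000000 : ℝ))
    (hpq : 1 < p * q) : NoSol 6 p q :=
  noSol_rect (n := 6) (by norm_num) (N := 6) (a := (726187 / 1000000 : ℝ)) (b := (32313 / 50000 : ℝ))
    (τ := (807157 / 5000000 : ℝ)) (A5 := (505019 / 1000000 : ℝ)) (A6 := (693193 / 1000000 : ℝ))
    (A9 := (454559 / 500000 : ℝ)) (A10 := (284701 / 500000 : ℝ)) (s := (7527 / 100000 : ℝ)) (e := (1 / 10000000 : ℝ))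
    (pb := (10317413 / 10000000 : ℝ)) (qb := (23484953 / 5000000 : ℝ)) (by norm_num)
    (by norm_num) (by norm_num) (by norm_num) (by norm_num) (by norm_num) (by norm_num) (by norm_num)
    (by norm_num) (by norm_num)
    (by norm_num) (by norm_num) (by norm_num) (by norm_num) (by norm_num)
    rfl rfl rfl rfl rfl rfl (by norm_num) (by norm_num) (by norm_num) hp hpb hq hqb hpq

theorem rowL6_4 {p q : ℝ} (hp : 0 < p) (hpb : p ≤ (5182587 / 5000000 : ℝ)) (hq : 0 < q) (hqb : q ≤ (46597739 / 10000000 : ℝ))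
    (hpq : 1 < p * q) : NoSol 6 p q :=
  noSol_rect (n := 6) (by norm_num) (N := 6) (a := (360613 / 500000 : ℝ)) (b := (648029 / 1000000 : ℝ))
    (τ := (8247 / 50000 : ℝ)) (A5 := (501707 / 1000000 : ℝ)) (A6 := (348533 / 500000 : ℝ))
    (A9 := (903331 / 1000000 : ℝ)) (A10 := (569263 / 1000000 : ℝ)) (s := (236 / 3125 : ℝ)) (e := (1 / 10000000 : ℝ))
    (pb := (5182587 / 5000000 : ℝ)) (qb := (46597739 / 10000000 : ℝ)) (by norm_num)
    (by norm_num) (by norm_num) (by norm_num) (by norm_num) (by norm_num) (by norm_num) (by norm_num)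
    (by norm_num) (by norm_num)
    (by norm_num) (by norm_num) (by norm_num) (by norm_num) (by norm_num)
    rfl rfl rfl rfl rfl rfl (by norm_num) (by norm_num) (by norm_num) hp hpb hq hqb hpq

theorem rowL6_5 {p q : ℝ} (hp : 0 < p) (hpb : p ≤ (1301561 / 1250000 : ℝ)) (hq : 0 < q) (hqb : q ≤ (46230383 / 10000000 : ℝ))
    (hpq : 1 < p * q) : NoSol 6 p q :=
  noSol_rect (n := 6) (by norm_num) (N := 6) (a := (180151 / 250000 : ℝ)) (b := (325219 / 500000 : ℝ))
    (τ := (53129 / 312500 : ℝ)) (A5 := (502209 / 1000000 : ℝ)) (A6 := (173711 / 250000 : ℝ))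
    (A9 := (444269 / 500000 : ℝ)) (A10 := (580237 / 1000000 : ℝ)) (s := (3787 / 50000 : ℝ)) (e := (1 / 10000000 : ℝ))
    (pb := (1301561 / 1250000 : ℝ)) (qb := (46230383 / 10000000 : ℝ)) (by norm_num)
    (by norm_num) (by norm_num) (by norm_num) (by norm_num) (by norm_num) (by norm_num) (by norm_num)
    (by norm_num) (by norm_num)
    (by norm_num) (by norm_num) (by norm_num) (by norm_num) (by norm_num)
    rfl rfl rfl rfl rfl rfl (by norm_num) (by norm_num) (by norm_num) hp hpb hq hqb hpq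

theorem rowL6_6 {p q : ℝ} (hp : 0 < p) (hpb : p ≤ (2614837 / 2500000 : ℝ)) (hq : 0 < q) (hqb : q ≤ (57341 / 12500 : ℝ))
    (hpq : 1 < p * q) : NoSol 6 p q :=
  noSol_rect (n := 6) (by norm_num) (N := 6) (a := (2204 / 3125 : ℝ)) (b := (656157 / 1000000 : ℝ))
    (τ := (108253 / 625000 : ℝ)) (A5 := (504717 / 1000000 : ℝ)) (A6 := (692363 / 1000000 : ℝ))
    (A9 := (880789 / 1000000 : ℝ)) (A10 := (146051 / 250000 : ℝ)) (s := (1511 / 20000 : ℝ)) (e := (1 / 10000000 : ℝ))
    (pb := (2614837 / 2500000 : ℝ)) (qb := (57341 / 12500 : ℝ)) (by norm_num)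
    (by norm_num) (by norm_num) (by norm_num) (by norm_num) (by norm_num) (by norm_num) (by norm_num)
    (by norm_num) (by norm_num)
    (by norm_num) (by norm_num) (by norm_num) (by norm_num) (by norm_num)
    rfl rfl rfl rfl rfl rfl (by norm_num) (by norm_num) (by norm_num) hp hpb hq hqb hpq

theorem rowL6_7 {p q : ℝ} (hp : 0 < p) (hpb : p ≤ (5254021 / 5000000 : ℝ)) (hq : 0 < q) (hqb : q ≤ (22762351 / 5000000 : ℝ))
    (hpq : 1 < p * q) : NoSol 6 p q :=
  noSol_rect (n := 6) (by norm_num) (N := 6) (a := (175571 / 250000 : ℝ)) (b := (659813 / 1000000 : ℝ))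
    (τ := (435339 / 2500000 : ℝ)) (A5 := (503701 / 1000000 : ℝ)) (A6 := (43339 / 62500 : ℝ))
    (A9 := (444013 / 500000 : ℝ)) (A10 := (576049 / 1000000 : ℝ)) (s := (7511 / 100000 : ℝ)) (e := (1 / 10000000 : ℝ))
    (pb := (5254021 / 5000000 : ℝ)) (qb := (22762351 / 5000000 : ℝ)) (by norm_num)
    (by norm_num) (by norm_num) (by norm_num) (by norm_num) (by norm_num) (by norm_num) (by norm_num)
    (by norm_num) (by norm_num)
    (by norm_num) (by norm_num) (by norm_num) (by norm_num) (by norm_num)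
    rfl rfl rfl rfl rfl rfl (by norm_num) (by norm_num) (by norm_num) hp hpb hq hqb hpq

theorem rowL6_8 {p q : ℝ} (hp : 0 < p) (hpb : p ≤ (2111433 / 2000000 : ℝ)) (hq : 0 < q) (hqb : q ≤ (112923 / 25000 : ℝ))
    (hpq : 1 < p * q) : NoSol 6 p q :=
  noSol_rect (n := 6) (by norm_num) (N := 6) (a := (44051 / 62500 : ℝ)) (b := (330551 / 500000 : ℝ))
    (τ := (1769999 / 10000000 : ℝ)) (A5 := (250969 / 500000 : ℝ)) (A6 := (694893 / 1000000 : ℝ))
    (A9 := (221639 / 250000 : ℝ)) (A10 := (574593 / 1000000 : ℝ)) (s := (751 / 10000 : ℝ)) (e := (1 / 10000000 : ℝ))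
    (pb := (2111433 / 2000000 : ℝ)) (qb := (112923 / 25000 : ℝ)) (by norm_num)
    (by norm_num) (by norm_num) (by norm_num) (by norm_num) (by norm_num) (by norm_num) (by norm_num)
    (by norm_num) (by norm_num)
    (by norm_num) (by norm_num) (by norm_num) (by norm_num) (by norm_num)
    rfl rfl rfl rfl rfl rfl (by norm_num) (by norm_num) (by norm_num) hp hpb hq hqb hpq

theorem rowL6_9 {p q : ℝ} (hp : 0 < p) (hpb : p ≤ (2651723 / 2500000 : ℝ)) (hq : 0 < q) (hqb : q ≤ (22408411 / 5000000 : ℝ))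
    (hpq : 1 < p * q) : NoSol 6 p q :=
  noSol_rect (n := 6) (by norm_num) (N := 6) (a := (702761 / 1000000 : ℝ)) (b := (663303 / 1000000 : ℝ))
    (τ := (445731 / 2500000 : ℝ)) (A5 := (252699 / 500000 : ℝ)) (A6 := (345389 / 500000 : ℝ))
    (A9 := (222261 / 250000 : ℝ)) (A10 := (35759 / 62500 : ℝ)) (s := (7481 / 100000 : ℝ)) (e := (1 / 10000000 : ℝ))
    (pb := (2651723 / 2500000 : ℝ)) (qb := (22408411 / 5000000 : ℝ)) (by norm_num)
    (by norm_num) (by norm_num) (by norm_num) (by norm_num) (by norm_num) (by norm_num) (by norm_num)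
    (by norm_num) (by norm_num)
    (by norm_num) (by norm_num) (by norm_num) (by norm_num) (by norm_num)
    rfl rfl rfl rfl rfl rfl (by norm_num) (by norm_num) (by norm_num) hp hpb hq hqb hpq

theorem rowL6_10 {p q : ℝ} (hp : 0 < p) (hpb : p ≤ (2664263 / 2500000 : ℝ)) (hq : 0 < q) (hqb : q ≤ (22233173 / 5000000 : ℝ))
    (hpq : 1 < p * q) : NoSol 6 p q :=
  noSol_rect (n := 6) (by norm_num) (N := 6) (a := (10988 / 15625 : ℝ)) (b := (132997 / 200000 : ℝ))
    (τ := (900937 / 5000000 : ℝ)) (A5 := (31621 / 62500 : ℝ)) (A6 := (172437 / 250000 : ℝ))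
    (A9 := (890963 / 1000000 : ℝ)) (A10 := (569079 / 1000000 : ℝ)) (s := (7469 / 100000 : ℝ)) (e := (1 / 10000000 : ℝ))
    (pb := (2664263 / 2500000 : ℝ)) (qb := (22233173 / 5000000 : ℝ)) (by norm_num)
    (by norm_num) (by norm_num) (by norm_num) (by norm_num) (by norm_num) (by norm_num) (by norm_num)
    (by norm_num) (by norm_num)
    (by norm_num) (by norm_num) (by norm_num) (by norm_num) (by norm_num)
    rfl rfl rfl rfl rfl rfl (by norm_num) (by norm_num) (by norm_num) hp hpb hq hqb hpq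

theorem rowL6_11 {p q : ℝ} (hp : 0 < p) (hpb : p ≤ (5353813 / 5000000 : ℝ)) (hq : 0 < q) (hqb : q ≤ (22059503 / 5000000 : ℝ))
    (hpq : 1 < p * q) : NoSol 6 p q :=
  noSol_rect (n := 6) (by norm_num) (N := 6) (a := (8811 / 12500 : ℝ)) (b := (665447 / 1000000 : ℝ))
    (τ := (57123 / 312500 : ℝ)) (A5 := (252763 / 500000 : ℝ)) (A6 := (344869 / 500000 : ℝ))
    (A9 := (445137 / 500000 : ℝ)) (A10 := (35477 / 62500 : ℝ)) (s := (1871 / 25000 : ℝ)) (e := (1 / 10000000 : ℝ))
    (pb := (5353813 / 5000000 : ℝ)) (qb := (22059503 / 5000000 : ℝ)) (by norm_num)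
    (by norm_num) (by norm_num) (by norm_num) (by norm_num) (by norm_num) (by norm_num) (by norm_num)
    (by norm_num) (by norm_num)
    (by norm_num) (by norm_num) (by norm_num) (by norm_num) (by norm_num)
    rfl rfl rfl rfl rfl rfl (by norm_num) (by norm_num) (by norm_num) hp hpb hq hqb hpq

theorem rowL6_12 {p q : ℝ} (hp : 0 < p) (hpb : p ≤ (2151741 / 2000000 : ℝ)) (hq : 0 < q) (hqb : q ≤ (43774927 / 10000000 : ℝ))
    (hpq : 1 < p * q) : NoSol 6 p q :=
  noSol_rect (n := 6) (by norm_num) (N := 6) (a := (348091 / 500000 : ℝ)) (b := (670321 / 1000000 : ℝ))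
    (τ := (932021 / 5000000 : ℝ)) (A5 := (63087 / 125000 : ℝ)) (A6 := (43181 / 62500 : ℝ))
    (A9 := (176943 / 200000 : ℝ)) (A10 := (568739 / 1000000 : ℝ)) (s := (7467 / 100000 : ℝ)) (e := (1 / 10000000 : ℝ))
    (pb := (2151741 / 2000000 : ℝ)) (qb := (43774927 / 10000000 : ℝ)) (by norm_num)
    (by norm_num) (by norm_num) (by norm_num) (by norm_num) (by norm_num) (by norm_num) (by norm_num)
    (by norm_num) (by norm_num)
    (by norm_num) (by norm_num) (by norm_num) (by norm_num) (by norm_num)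
    rfl rfl rfl rfl rfl rfl (by norm_num) (by norm_num) (by norm_num) hp hpb hq hqb hpq

theorem rowL6_13 {p q : ℝ} (hp : 0 < p) (hpb : p ≤ (10809821 / 10000000 : ℝ)) (hq : 0 < q) (hqb : q ≤ (21716747 / 5000000 : ℝ))
    (hpq : 1 < p * q) : NoSol 6 p q :=
  noSol_rect (n := 6) (by norm_num) (N := 6) (a := (344523 / 500000 : ℝ)) (b := (26839 / 40000 : ℝ))
    (τ := (951391 / 5000000 : ℝ)) (A5 := (506919 / 1000000 : ℝ)) (A6 := (344377 / 500000 : ℝ))
    (A9 := (875833 / 1000000 : ℝ)) (A10 := (573543 / 1000000 : ℝ)) (s := (7507 / 100000 : ℝ)) (e := (1 / 10000000 : ℝ))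
    (pb := (10809821 / 10000000 : ℝ)) (qb := (21716747 / 5000000 : ℝ)) (by norm_num)
    (by norm_num) (by norm_num) (by norm_num) (by norm_num) (by norm_num) (by norm_num) (by norm_num)
    (by norm_num) (by norm_num)
    (by norm_num) (by norm_num) (by norm_num) (by norm_num) (by norm_num)
    rfl rfl rfl rfl rfl rfl (by norm_num) (by norm_num) (by norm_num) hp hpb hq hqb hpq

theorem rowL6_14 {p q : ℝ} (hp : 0 < p) (hpb : p ≤ (10861729 / 10000000 : ℝ)) (hq : 0 < q) (hqb : q ≤ (21548887 / 5000000 : ℝ))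
    (hpq : 1 < p * q) : NoSol 6 p q :=
  noSol_rect (n := 6) (by norm_num) (N := 6) (a := (172477 / 250000 : ℝ)) (b := (336447 / 500000 : ℝ))
    (τ := (1933493 / 10000000 : ℝ)) (A5 := (503937 / 1000000 : ℝ)) (A6 := (34589 / 50000 : ℝ))
    (A9 := (218903 / 250000 : ℝ)) (A10 := (1783 / 3125 : ℝ)) (s := (751 / 10000 : ℝ)) (e := (1 / 10000000 : ℝ))
    (pb := (10861729 / 10000000 : ℝ)) (qb := (21548887 / 5000000 : ℝ)) (by norm_num)
    (by norm_num) (by norm_num) (by norm_num) (by norm_num) (by norm_num) (by norm_num) (by norm_num)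
    (by norm_num) (by norm_num)
    (by norm_num) (by norm_num) (by norm_num) (by norm_num) (by norm_num)
    rfl rfl rfl rfl rfl rfl (by norm_num) (by norm_num) (by norm_num) hp hpb hq hqb hpq

theorem rowL6_15 {p q : ℝ} (hp : 0 < p) (hpb : p ≤ (10914063 / 10000000 : ℝ)) (hq : 0 < q) (hqb : q ≤ (42762793 / 10000000 : ℝ))
    (hpq : 1 < p * q) : NoSol 6 p q :=
  noSol_rect (n := 6) (by norm_num) (N := 6) (a := (171121 / 250000 : ℝ)) (b := (169227 / 250000 : ℝ))
    (τ := (1962249 / 10000000 : ℝ)) (A5 := (501533 / 1000000 : ℝ)) (A6 := (27759 / 40000 : ℝ))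
    (A9 := (87627 / 100000 : ℝ)) (A10 := (567413 / 1000000 : ℝ)) (s := (7511 / 100000 : ℝ)) (e := (1 / 10000000 : ℝ))
    (pb := (10914063 / 10000000 : ℝ)) (qb := (42762793 / 10000000 : ℝ)) (by norm_num)
    (by norm_num) (by norm_num) (by norm_num) (by norm_num) (by norm_num) (by norm_num) (by norm_num)
    (by norm_num) (by norm_num)
    (by norm_num) (by norm_num) (by norm_num) (by norm_num) (by norm_num)
    rfl rfl rfl rfl rfl rfl (by norm_num) (by norm_num) (by norm_num) hp hpb hq hqb hpq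

theorem rowL6_16 {p q : ℝ} (hp : 0 < p) (hpb : p ≤ (10966943 / 10000000 : ℝ)) (hq : 0 < q) (hqb : q ≤ (42430967 / 10000000 : ℝ))
    (hpq : 1 < p * q) : NoSol 6 p q :=
  noSol_rect (n := 6) (by norm_num) (N := 6) (a := (687521 / 1000000 : ℝ)) (b := (33987 / 50000 : ℝ))
    (τ := (1988691 / 10000000 : ℝ)) (A5 := (10029 / 20000 : ℝ)) (A6 := (173347 / 250000 : ℝ))
    (A9 := (876539 / 1000000 : ℝ)) (A10 := (282913 / 500000 : ℝ)) (s := (1497 / 20000 : ℝ)) (e := (1 / 10000000 : ℝ))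
    (pb := (10966943 / 10000000 : ℝ)) (qb := (42430967 / 10000000 : ℝ)) (by norm_num)
    (by norm_num) (by norm_num) (by norm_num) (by norm_num) (by norm_num) (by norm_num) (by norm_num)
    (by norm_num) (by norm_num)
    (by norm_num) (by norm_num) (by norm_num) (by norm_num) (by norm_num)
    rfl rfl rfl rfl rfl rfl (by norm_num) (by norm_num) (by norm_num) hp hpb hq hqb hpq

theorem rowL6_17 {p q : ℝ} (hp : 0 < p) (hpb : p ≤ (5510079 / 5000000 : ℝ)) (hq : 0 < q) (hqb : q ≤ (21050771 / 5000000 : ℝ))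
    (hpq : 1 < p * q) : NoSol 6 p q :=
  noSol_rect (n := 6) (by norm_num) (N := 6) (a := (342439 / 500000 : ℝ)) (b := (34201 / 50000 : ℝ))
    (τ := (2005391 / 10000000 : ℝ)) (A5 := (251773 / 500000 : ℝ)) (A6 := (690361 / 1000000 : ℝ))
    (A9 := (879479 / 1000000 : ℝ)) (A10 := (563077 / 1000000 : ℝ)) (s := (7449 / 100000 : ℝ)) (e := (1 / 10000000 : ℝ))
    (pb := (5510079 / 5000000 : ℝ)) (qb := (21050771 / 5000000 : ℝ)) (by norm_num)
    (by norm_num) (by norm_num) (by norm_num) (by norm_num) (by norm_num) (by norm_num) (by norm_num)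
    (by norm_num) (by norm_num)
    (by norm_num) (by norm_num) (by norm_num) (by norm_num) (by norm_num)
    rfl rfl rfl rfl rfl rfl (by norm_num) (by norm_num) (by norm_num) hp hpb hq hqb hpq

theorem rowL6_18 {p q : ℝ} (hp : 0 < p) (hpb : p ≤ (2768449 / 2500000 : ℝ)) (hq : 0 < q) (hqb : q ≤ (1671033 / 400000 : ℝ))
    (hpq : 1 < p * q) : NoSol 6 p q :=
  noSol_rect (n := 6) (by norm_num) (N := 6) (a := (684873 / 1000000 : ℝ)) (b := (345113 / 500000 : ℝ))
    (τ := (102219 / 500000 : ℝ)) (A5 := (125287 / 250000 : ℝ)) (A6 := (69213 / 100000 : ℝ))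
    (A9 := (219159 / 250000 : ℝ)) (A10 := (281633 / 500000 : ℝ)) (s := (1483 / 20000 : ℝ)) (e := (1 / 10000000 : ℝ))
    (pb := (2768449 / 2500000 : ℝ)) (qb := (1671033 / 400000 : ℝ)) (by norm_num)
    (by norm_num) (by norm_num) (by norm_num) (by norm_num) (by norm_num) (by norm_num) (by norm_num)
    (by norm_num) (by norm_num)
    (by norm_num) (by norm_num) (by norm_num) (by norm_num) (by norm_num)
    rfl rfl rfl rfl rfl rfl (by norm_num) (by norm_num) (by norm_num) hp hpb hq hqb hpq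

theorem rowL6_19 {p q : ℝ} (hp : 0 < p) (hpb : p ≤ (11128161 / 10000000 : ℝ)) (hq : 0 < q) (hqb : q ≤ (41453247 / 10000000 : ℝ))
    (hpq : 1 < p * q) : NoSol 6 p q :=
  noSol_rect (n := 6) (by norm_num) (N := 6) (a := (685503 / 1000000 : ℝ)) (b := (342297 / 500000 : ℝ))
    (τ := (2092687 / 10000000 : ℝ)) (A5 := (499343 / 1000000 : ℝ)) (A6 := (138987 / 200000 : ℝ))
    (A9 := (868449 / 1000000 : ℝ)) (A10 := (565583 / 1000000 : ℝ)) (s := (3763 / 50000 : ℝ)) (e := (1 / 10000000 : ℝ))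
    (pb := (11128161 / 10000000 : ℝ)) (qb := (41453247 / 10000000 : ℝ)) (by norm_num)
    (by norm_num) (by norm_num) (by norm_num) (by norm_num) (by norm_num) (by norm_num) (by norm_num)
    (by norm_num) (by norm_num)
    (by norm_num) (by norm_num) (by norm_num) (by norm_num) (by norm_num)
    rfl rfl rfl rfl rfl rfl (by norm_num) (by norm_num) (by norm_num) hp hpb hq hqb hpq

theorem rowL6_20 {p q : ℝ} (hp : 0 < p) (hpb : p ≤ (1397911 / 1250000 : ℝ)) (hq : 0 < q) (hqb : q ≤ (20566007 / 5000000 : ℝ))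
    (hpq : 1 < p * q) : NoSol 6 p q :=
  noSol_rect (n := 6) (by norm_num) (N := 6) (a := (688351 / 1000000 : ℝ)) (b := (685269 / 1000000 : ℝ))
    (τ := (2121511 / 10000000 : ℝ)) (A5 := (502037 / 1000000 : ℝ)) (A6 := (691533 / 1000000 : ℝ))
    (A9 := (866141 / 1000000 : ℝ)) (A10 := (283383 / 500000 : ℝ)) (s := (753 / 10000 : ℝ)) (e := (1 / 10000000 : ℝ))
    (pb := (1397911 / 1250000 : ℝ)) (qb := (20566007 / 5000000 : ℝ)) (by norm_num)
    (by norm_num) (by norm_num) (by norm_num) (by norm_num) (by norm_num) (by norm_num) (by norm_num)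
    (by norm_num) (by norm_num)
    (by norm_num) (by norm_num) (by norm_num) (by norm_num) (by norm_num)
    rfl rfl rfl rfl rfl rfl (by norm_num) (by norm_num) (by norm_num) hp hpb hq hqb hpq

theorem rowL6_21 {p q : ℝ} (hp : 0 < p) (hpb : p ≤ (70243 / 62500 : ℝ)) (hq : 0 < q) (hqb : q ≤ (40812001 / 10000000 : ℝ))
    (hpq : 1 < p * q) : NoSol 6 p q :=
  noSol_rect (n := 6) (by norm_num) (N := 6) (a := (10871 / 15625 : ℝ)) (b := (685283 / 1000000 : ℝ))
    (τ := (2166883 / 10000000 : ℝ)) (A5 := (498661 / 1000000 : ℝ)) (A6 := (86837 / 125000 : ℝ))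
    (A9 := (862479 / 1000000 : ℝ)) (A10 := (283473 / 500000 : ℝ)) (s := (189 / 2500 : ℝ)) (e := (1 / 10000000 : ℝ))
    (pb := (70243 / 62500 : ℝ)) (qb := (40812001 / 10000000 : ℝ)) (by norm_num)
    (by norm_num) (by norm_num) (by norm_num) (by norm_num) (by norm_num) (by norm_num) (by norm_num)
    (by norm_num) (by norm_num)
    (by norm_num) (by norm_num) (by norm_num) (by norm_num) (by norm_num)
    rfl rfl rfl rfl rfl rfl (by norm_num) (by norm_num) (by norm_num) hp hpb hq hqb hpq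

theorem rowL6_22 {p q : ℝ} (hp : 0 < p) (hpb : p ≤ (11293577 / 10000000 : ℝ)) (hq : 0 < q) (hqb : q ≤ (4049497 / 1000000 : ℝ))
    (hpq : 1 < p * q) : NoSol 6 p q :=
  noSol_rect (n := 6) (by norm_num) (N := 6) (a := (692317 / 1000000 : ℝ)) (b := (337759 / 500000 : ℝ))
    (τ := (269073 / 1250000 : ℝ)) (A5 := (102127 / 200000 : ℝ)) (A6 := (684007 / 1000000 : ℝ))
    (A9 := (173499 / 200000 : ℝ)) (A10 := (561731 / 1000000 : ℝ)) (s := (7599 / 100000 : ℝ)) (e := (1 / 10000000 : ℝ))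
    (pb := (11293577 / 10000000 : ℝ)) (qb := (4049497 / 1000000 : ℝ)) (by norm_num)
    (by norm_num) (by norm_num) (by norm_num) (by norm_num) (by norm_num) (by norm_num) (by norm_num)
    (by norm_num) (by norm_num)
    (by norm_num) (by norm_num) (by norm_num) (by norm_num) (by norm_num)
    rfl rfl rfl rfl rfl rfl (by norm_num) (by norm_num) (by norm_num) hp hpb hq hqb hpq

theorem rowL6_23 {p q : ℝ} (hp : 0 < p) (hpb : p ≤ (2837479 / 2500000 : ℝ)) (hq : 0 < q) (hqb : q ≤ (20094233 / 5000000 : ℝ))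
    (hpq : 1 < p * q) : NoSol 6 p q :=
  noSol_rect (n := 6) (by norm_num) (N := 6) (a := (347829 / 500000 : ℝ)) (b := (682107 / 1000000 : ℝ))
    (τ := (2197457 / 10000000 : ℝ)) (A5 := (126503 / 250000 : ℝ)) (A6 := (343531 / 500000 : ℝ))
    (A9 := (866409 / 1000000 : ℝ)) (A10 := (561611 / 1000000 : ℝ)) (s := (3793 / 50000 : ℝ)) (e := (1 / 10000000 : ℝ))
    (pb := (2837479 / 2500000 : ℝ)) (qb := (20094233 / 5000000 : ℝ)) (by norm_num)
    (by norm_num) (by norm_num) (by norm_num) (by norm_num) (by norm_num) (by norm_num) (by norm_num)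
    (by norm_num) (by norm_num)
    (by norm_num) (by norm_num) (by norm_num) (by norm_num) (by norm_num)
    rfl rfl rfl rfl rfl rfl (by norm_num) (by norm_num) (by norm_num) hp hpb hq hqb hpq

theorem rowL6_24 {p q : ℝ} (hp : 0 < p) (hpb : p ≤ (2851843 / 2500000 : ℝ)) (hq : 0 < q) (hqb : q ≤ (39878239 / 10000000 : ℝ))
    (hpq : 1 < p * q) : NoSol 6 p q :=
  noSol_rect (n := 6) (by norm_num) (N := 6) (a := (143369 / 200000 : ℝ)) (b := (168881 / 250000 : ℝ))
    (τ := (2258671 / 10000000 : ℝ)) (A5 := (50047 / 100000 : ℝ)) (A6 := (69227 / 100000 : ℝ))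
    (A9 := (171907 / 200000 : ℝ)) (A10 := (4513 / 8000 : ℝ)) (s := (1537 / 20000 : ℝ)) (e := (1 / 10000000 : ℝ))
    (pb := (2851843 / 2500000 : ℝ)) (qb := (39878239 / 10000000 : ℝ)) (by norm_num)
    (by norm_num) (by norm_num) (by norm_num) (by norm_num) (by norm_num) (by norm_num) (by norm_num)
    (by norm_num) (by norm_num)
    (by norm_num) (by norm_num) (by norm_num) (by norm_num) (by norm_num)
    rfl rfl rfl rfl rfl rfl (by norm_num) (by norm_num) (by norm_num) hp hpb hq hqb hpq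

theorem rowL6_25 {p q : ℝ} (hp : 0 < p) (hpb : p ≤ (458613 / 400000 : ℝ)) (hq : 0 < q) (hqb : q ≤ (19783719 / 5000000 : ℝ))
    (hpq : 1 < p * q) : NoSol 6 p q :=
  noSol_rect (n := 6) (by norm_num) (N := 6) (a := (358927 / 500000 : ℝ)) (b := (674263 / 1000000 : ℝ))
    (τ := (2311393 / 10000000 : ℝ)) (A5 := (249067 / 500000 : ℝ)) (A6 := (43461 / 62500 : ℝ))
    (A9 := (852787 / 1000000 : ℝ)) (A10 := (565797 / 1000000 : ℝ)) (s := (3871 / 50000 : ℝ)) (e := (1 / 10000000 : ℝ))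
    (pb := (458613 / 400000 : ℝ)) (qb := (19783719 / 5000000 : ℝ)) (by norm_num)
    (by norm_num) (by norm_num) (by norm_num) (by norm_num) (by norm_num) (by norm_num) (by norm_num)
    (by norm_num) (by norm_num)
    (by norm_num) (by norm_num) (by norm_num) (by norm_num) (by norm_num)
    rfl rfl rfl rfl rfl rfl (by norm_num) (by norm_num) (by norm_num) hp hpb hq hqb hpq

theorem rowL6_26 {p q : ℝ} (hp : 0 < p) (hpb : p ≤ (5762071 / 5000000 : ℝ)) (hq : 0 < q) (hqb : q ≤ (39259501 / 10000000 : ℝ))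
    (hpq : 1 < p * q) : NoSol 6 p q :=
  noSol_rect (n := 6) (by norm_num) (N := 6) (a := (44947 / 62500 : ℝ)) (b := (84743 / 125000 : ℝ))
    (τ := (2340683 / 10000000 : ℝ)) (A5 := (499431 / 1000000 : ℝ)) (A6 := (346747 / 500000 : ℝ))
    (A9 := (213203 / 250000 : ℝ)) (A10 := (282387 / 500000 : ℝ)) (s := (1929 / 25000 : ℝ)) (e := (1 / 10000000 : ℝ))
    (pb := (5762071 / 5000000 : ℝ)) (qb := (39259501 / 10000000 : ℝ)) (by norm_num)
    (by norm_num) (by norm_num) (by norm_num) (by norm_num) (by norm_num) (by norm_num) (by norm_num)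
    (by norm_num) (by norm_num)
    (by norm_num) (by norm_num) (by norm_num) (by norm_num) (by norm_num)
    rfl rfl rfl rfl rfl rfl (by norm_num) (by norm_num) (by norm_num) hp hpb hq hqb hpq

theorem rowL6_27 {p q : ℝ} (hp : 0 < p) (hpb : p ≤ (2895889 / 2500000 : ℝ)) (hq : 0 < q) (hqb : q ≤ (1558101 / 400000 : ℝ))
    (hpq : 1 < p * q) : NoSol 6 p q :=
  noSol_rect (n := 6) (by norm_num) (N := 6) (a := (180661 / 250000 : ℝ)) (b := (17071 / 25000 : ℝ))
    (τ := (2394749 / 10000000 : ℝ)) (A5 := (62363 / 125000 : ℝ)) (A6 := (86641 / 125000 : ℝ))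
    (A9 := (84609 / 100000 : ℝ)) (A10 := (284563 / 500000 : ℝ)) (s := (3859 / 50000 : ℝ)) (e := (1 / 10000000 : ℝ))
    (pb := (2895889 / 2500000 : ℝ)) (qb := (1558101 / 400000 : ℝ)) (by norm_num)
    (by norm_num) (by norm_num) (by norm_num) (by norm_num) (by norm_num) (by norm_num) (by norm_num)
    (by norm_num) (by norm_num)
    (by norm_num) (by norm_num) (by norm_num) (by norm_num) (by norm_num)
    rfl rfl rfl rfl rfl rfl (by norm_num) (by norm_num) (by norm_num) hp hpb hq hqb hpq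

theorem rowL6_28 {p q : ℝ} (hp : 0 < p) (hpb : p ≤ (11643547 / 10000000 : ℝ)) (hq : 0 < q) (hqb : q ≤ (966199 / 250000 : ℝ))
    (hpq : 1 < p * q) : NoSol 6 p q :=
  noSol_rect (n := 6) (by norm_num) (N := 6) (a := (181561 / 250000 : ℝ)) (b := (34077 / 50000 : ℝ))
    (τ := (1197221 / 5000000 : ℝ)) (A5 := (15699 / 31250 : ℝ)) (A6 := (21533 / 31250 : ℝ))
    (A9 := (854977 / 1000000 : ℝ)) (A10 := (561521 / 1000000 : ℝ)) (s := (1539 / 20000 : ℝ)) (e := (1 / 10000000 : ℝ))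
    (pb := (11643547 / 10000000 : ℝ)) (qb := (966199 / 250000 : ℝ)) (by norm_num)
    (by norm_num) (by norm_num) (by norm_num) (by norm_num) (by norm_num) (by norm_num) (by norm_num)
    (by norm_num) (by norm_num)
    (by norm_num) (by norm_num) (by norm_num) (by norm_num) (by norm_num)
    rfl rfl rfl rfl rfl rfl (by norm_num) (by norm_num) (by norm_num) hp hpb hq hqb hpq

theorem rowL6_29 {p q : ℝ} (hp : 0 < p) (hpb : p ≤ (11703379 / 10000000 : ℝ)) (hq : 0 < q) (hqb : q ≤ (9586481 / 2500000 : ℝ))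
    (hpq : 1 < p * q) : NoSol 6 p q :=
  noSol_rect (n := 6) (by norm_num) (N := 6) (a := (720697 / 1000000 : ℝ)) (b := (683917 / 1000000 : ℝ))
    (τ := (481779 / 2000000 : ℝ)) (A5 := (503673 / 1000000 : ℝ)) (A6 := (85949 / 125000 : ℝ))
    (A9 := (430111 / 500000 : ℝ)) (A10 := (555779 / 1000000 : ℝ)) (s := (7673 / 100000 : ℝ)) (e := (1 / 10000000 : ℝ))
    (pb := (11703379 / 10000000 : ℝ)) (qb := (9586481 / 2500000 : ℝ)) (by norm_num)
    (by norm_num) (by norm_num) (by norm_num) (by norm_num) (by norm_num) (by norm_num) (by norm_num)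
    (by norm_num) (by norm_num)
    (by norm_num) (by norm_num) (by norm_num) (by norm_num) (by norm_num)
    rfl rfl rfl rfl rfl rfl (by norm_num) (by norm_num) (by norm_num) hp hpb hq hqb hpq

theorem rowL6_30 {p q : ℝ} (hp : 0 < p) (hpb : p ≤ (2352901 / 2000000 : ℝ)) (hq : 0 < q) (hqb : q ≤ (38050033 / 10000000 : ℝ))
    (hpq : 1 < p * q) : NoSol 6 p q :=
  noSol_rect (n := 6) (by norm_num) (N := 6) (a := (179949 / 250000 : ℝ)) (b := (686107 / 1000000 : ℝ))
    (τ := (2464263 / 10000000 : ℝ)) (A5 := (250849 / 500000 : ℝ)) (A6 := (690131 / 1000000 : ℝ))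
    (A9 := (213461 / 250000 : ℝ)) (A10 := (13943 / 25000 : ℝ)) (s := (3851 / 50000 : ℝ)) (e := (1 / 10000000 : ℝ))
    (pb := (2352901 / 2000000 : ℝ)) (qb := (38050033 / 10000000 : ℝ)) (by norm_num)
    (by norm_num) (by norm_num) (by norm_num) (by norm_num) (by norm_num) (by norm_num) (by norm_num)
    (by norm_num) (by norm_num)
    (by norm_num) (by norm_num) (by norm_num) (by norm_num) (by norm_num)
    rfl rfl rfl rfl rfl rfl (by norm_num) (by norm_num) (by norm_num) hp hpb hq hqb hpq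

theorem rowL6_31 {p q : ℝ} (hp : 0 < p) (hpb : p ≤ (11827169 / 10000000 : ℝ)) (hq : 0 < q) (hqb : q ≤ (37753109 / 10000000 : ℝ))
    (hpq : 1 < p * q) : NoSol 6 p q :=
  noSol_rect (n := 6) (by norm_num) (N := 6) (a := (721317 / 1000000 : ℝ)) (b := (683123 / 1000000 : ℝ))
    (τ := (2530371 / 10000000 : ℝ)) (A5 := (251161 / 500000 : ℝ)) (A6 := (689431 / 1000000 : ℝ))
    (A9 := (13166 / 15625 : ℝ)) (A10 := (11299 / 20000 : ℝ)) (s := (1951 / 25000 : ℝ)) (e := (1 / 10000000 : ℝ))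
    (pb := (11827169 / 10000000 : ℝ)) (qb := (37753109 / 10000000 : ℝ)) (by norm_num)
    (by norm_num) (by norm_num) (by norm_num) (by norm_num) (by norm_num) (by norm_num) (by norm_num)
    (by norm_num) (by norm_num)
    (by norm_num) (by norm_num) (by norm_num) (by norm_num) (by norm_num)
    rfl rfl rfl rfl rfl rfl (by norm_num) (by norm_num) (by norm_num) hp hpb hq hqb hpq

theorem rowL6_32 {p q : ℝ} (hp : 0 < p) (hpb : p ≤ (2378137 / 2000000 : ℝ)) (hq : 0 < q) (hqb : q ≤ (18727097 / 5000000 : ℝ))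
    (hpq : 1 < p * q) : NoSol 6 p q :=
  noSol_rect (n := 6) (by norm_num) (N := 6) (a := (358321 / 500000 : ℝ)) (b := (692111 / 1000000 : ℝ))
    (τ := (2586421 / 10000000 : ℝ)) (A5 := (125199 / 250000 : ℝ)) (A6 := (2159 / 3125 : ℝ))
    (A9 := (418717 / 500000 : ℝ)) (A10 := (566967 / 1000000 : ℝ)) (s := (3887 / 50000 : ℝ)) (e := (1 / 10000000 : ℝ))
    (pb := (2378137 / 2000000 : ℝ)) (qb := (18727097 / 5000000 : ℝ)) (by norm_num)
    (by norm_num) (by norm_num) (by norm_num) (by norm_num) (by norm_num) (by norm_num) (by norm_num)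
    (by norm_num) (by norm_num)
    (by norm_num) (by norm_num) (by norm_num) (by norm_num) (by norm_num)
    rfl rfl rfl rfl rfl rfl (by norm_num) (by norm_num) (by norm_num) hp hpb hq hqb hpq

theorem rowL6_33 {p q : ℝ} (hp : 0 < p) (hpb : p ≤ (1494387 / 1250000 : ℝ)) (hq : 0 < q) (hqb : q ≤ (37156723 / 10000000 : ℝ))
    (hpq : 1 < p * q) : NoSol 6 p q :=
  noSol_rect (n := 6) (by norm_num) (N := 6) (a := (35829 / 50000 : ℝ)) (b := (69117 / 100000 : ℝ))
    (τ := (328329 / 1250000 : ℝ)) (A5 := (15649 / 31250 : ℝ)) (A6 := (138203 / 200000 : ℝ))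
    (A9 := (418121 / 500000 : ℝ)) (A10 := (56583 / 100000 : ℝ)) (s := (1953 / 25000 : ℝ)) (e := (1 / 10000000 : ℝ))
    (pb := (1494387 / 1250000 : ℝ)) (qb := (37156723 / 10000000 : ℝ)) (by norm_num)
    (by norm_num) (by norm_num) (by norm_num) (by norm_num) (by norm_num) (by norm_num) (by norm_num)
    (by norm_num) (by norm_num)
    (by norm_num) (by norm_num) (by norm_num) (by norm_num) (by norm_num)
    rfl rfl rfl rfl rfl rfl (by norm_num) (by norm_num) (by norm_num) hp hpb hq hqb hpq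

theorem rowL6_34 {p q : ℝ} (hp : 0 < p) (hpb : p ≤ (751269 / 625000 : ℝ)) (hq : 0 < q) (hqb : q ≤ (3686057 / 1000000 : ℝ))
    (hpq : 1 < p * q) : NoSol 6 p q :=
  noSol_rect (n := 6) (by norm_num) (N := 6) (a := (142739 / 200000 : ℝ)) (b := (697503 / 1000000 : ℝ))
    (τ := (2675393 / 10000000 : ℝ)) (A5 := (100053 / 200000 : ℝ)) (A6 := (172903 / 250000 : ℝ))
    (A9 := (833099 / 1000000 : ℝ)) (A10 := (283109 / 500000 : ℝ)) (s := (487 / 6250 : ℝ)) (e := (1 / 10000000 : ℝ))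
    (pb := (751269 / 625000 : ℝ)) (qb := (3686057 / 1000000 : ℝ)) (by norm_num)
    (by norm_num) (by norm_num) (by norm_num) (by norm_num) (by norm_num) (by norm_num) (by norm_num)
    (by norm_num) (by norm_num)
    (by norm_num) (by norm_num) (by norm_num) (by norm_num) (by norm_num)
    rfl rfl rfl rfl rfl rfl (by norm_num) (by norm_num) (by norm_num) hp hpb hq hqb hpq

theorem rowL6_35 {p q : ℝ} (hp : 0 < p) (hpb : p ≤ (12086347 / 10000000 : ℝ)) (hq : 0 < q) (hqb : q ≤ (36566249 / 10000000 : ℝ))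
    (hpq : 1 < p * q) : NoSol 6 p q :=
  noSol_rect (n := 6) (by norm_num) (N := 6) (a := (358553 / 500000 : ℝ)) (b := (348819 / 500000 : ℝ))
    (τ := (2699051 / 10000000 : ℝ)) (A5 := (2513 / 5000 : ℝ)) (A6 := (344183 / 500000 : ℝ))
    (A9 := (836059 / 1000000 : ℝ)) (A10 := (112697 / 200000 : ℝ)) (s := (1949 / 25000 : ℝ)) (e := (1 / 10000000 : ℝ))
    (pb := (12086347 / 10000000 : ℝ)) (qb := (36566249 / 10000000 : ℝ)) (by norm_num)
    (by norm_num) (by norm_num) (by norm_num) (by norm_num) (by norm_num) (by norm_num) (by norm_num)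
    (by norm_num) (by norm_num)
    (by norm_num) (by norm_num) (by norm_num) (by norm_num) (by norm_num)
    rfl rfl rfl rfl rfl rfl (by norm_num) (by norm_num) (by norm_num) hp hpb hq hqb hpq

theorem rowL6_36 {p q : ℝ} (hp : 0 < p) (hpb : p ≤ (2430697 / 2000000 : ℝ)) (hq : 0 < q) (hqb : q ≤ (18136821 / 5000000 : ℝ))
    (hpq : 1 < p * q) : NoSol 6 p q :=
  noSol_rect (n := 6) (by norm_num) (N := 6) (a := (177501 / 250000 : ℝ)) (b := (2191 / 3125 : ℝ))
    (τ := (344659 / 1250000 : ℝ)) (A5 := (20087 / 40000 : ℝ)) (A6 := (689547 / 1000000 : ℝ))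
    (A9 := (83009 / 100000 : ℝ)) (A10 := (113079 / 200000 : ℝ)) (s := (3911 / 50000 : ℝ)) (e := (1 / 10000000 : ℝ))
    (pb := (2430697 / 2000000 : ℝ)) (qb := (18136821 / 5000000 : ℝ)) (by norm_num)
    (by norm_num) (by norm_num) (by norm_num) (by norm_num) (by norm_num) (by norm_num) (by norm_num)
    (by norm_num) (by norm_num)
    (by norm_num) (by norm_num) (by norm_num) (by norm_num) (by norm_num)
    rfl rfl rfl rfl rfl rfl (by norm_num) (by norm_num) (by norm_num) hp hpb hq hqb hpq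

theorem rowL6_37 {p q : ℝ} (hp : 0 < p) (hpb : p ≤ (12221599 / 10000000 : ℝ)) (hq : 0 < q) (hqb : q ≤ (8995421 / 2500000 : ℝ))
    (hpq : 1 < p * q) : NoSol 6 p q :=
  noSol_rect (n := 6) (by norm_num) (N := 6) (a := (142003 / 200000 : ℝ)) (b := (140169 / 200000 : ℝ))
    (τ := (17537 / 62500 : ℝ)) (A5 := (20069 / 40000 : ℝ)) (A6 := (86279 / 125000 : ℝ))
    (A9 := (827831 / 1000000 : ℝ)) (A10 := (141243 / 250000 : ℝ)) (s := (3931 / 50000 : ℝ)) (e := (1 / 10000000 : ℝ))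
    (pb := (12221599 / 10000000 : ℝ)) (qb := (8995421 / 2500000 : ℝ)) (by norm_num)
    (by norm_num) (by norm_num) (by norm_num) (by norm_num) (by norm_num) (by norm_num) (by norm_num)
    (by norm_num) (by norm_num)
    (by norm_num) (by norm_num) (by norm_num) (by norm_num) (by norm_num)
    rfl rfl rfl rfl rfl rfl (by norm_num) (by norm_num) (by norm_num) hp hpb hq hqb hpq

theorem rowL6_38 {p q : ℝ} (hp : 0 < p) (hpb : p ≤ (6145049 / 5000000 : ℝ)) (hq : 0 < q) (hqb : q ≤ (35690991 / 10000000 : ℝ))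
    (hpq : 1 < p * q) : NoSol 6 p q :=
  noSol_rect (n := 6) (by norm_num) (N := 6) (a := (356509 / 500000 : ℝ)) (b := (10941 / 15625 : ℝ))
    (τ := (2880433 / 10000000 : ℝ)) (A5 := (503307 / 1000000 : ℝ)) (A6 := (689549 / 1000000 : ℝ))
    (A9 := (25501 / 31250 : ℝ)) (A10 := (71491 / 125000 : ℝ)) (s := (793 / 10000 : ℝ)) (e := (1 / 10000000 : ℝ))
    (pb := (6145049 / 5000000 : ℝ)) (qb := (35690991 / 10000000 : ℝ)) (by norm_num)
    (by norm_num) (by norm_num) (by norm_num) (by norm_num) (by norm_num) (by norm_num) (by norm_num)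
    (by norm_num) (by norm_num)
    (by norm_num) (by norm_num) (by norm_num) (by norm_num) (by norm_num)
    rfl rfl rfl rfl rfl rfl (by norm_num) (by norm_num) (by norm_num) hp hpb hq hqb hpq

theorem rowL6_39 {p q : ℝ} (hp : 0 < p) (hpb : p ≤ (12359677 / 10000000 : ℝ)) (hq : 0 < q) (hqb : q ≤ (553189 / 156250 : ℝ))
    (hpq : 1 < p * q) : NoSol 6 p q :=
  noSol_rect (n := 6) (by norm_num) (N := 6) (a := (142221 / 200000 : ℝ)) (b := (707151 / 1000000 : ℝ))
    (τ := (735853 / 2500000 : ℝ)) (A5 := (124673 / 250000 : ℝ)) (A6 := (694149 / 1000000 : ℝ))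
    (A9 := (10183 / 12500 : ℝ)) (A10 := (57053 / 100000 : ℝ)) (s := (99 / 1250 : ℝ)) (e := (1 / 10000000 : ℝ))
    (pb := (12359677 / 10000000 : ℝ)) (qb := (553189 / 156250 : ℝ)) (by norm_num)
    (by norm_num) (by norm_num) (by norm_num) (by norm_num) (by norm_num) (by norm_num) (by norm_num)
    (by norm_num) (by norm_num)
    (by norm_num) (by norm_num) (by norm_num) (by norm_num) (by norm_num)
    rfl rfl rfl rfl rfl rfl (by norm_num) (by norm_num) (by norm_num) hp hpb hq hqb hpq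

end Vale.Agent.Lib.P100
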