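import Vale.Agent.Lib.P100.Cover

/-!
Rational certificates, dimension 6.
-/

namespace Vale.Agent.Lib.P100

theorem rowL6_40 {p q : ℝ} (hp : 0 < p) (hpb : p ≤ (6215161 / 5000000 : ℝ)) (hq : 0 < q) (hqb : q ≤ (35118109 / 10000000 : ℝ))
    (hpq : 1 < p * q) : NoSol 6 p q :=
  noSol_rect (n := 6) (by norm_num) (N := 6) (a := (352229 / 500000 : ℝ)) (b := (712087 / 1000000 : ℝ))
    (τ := (598269 / 2000000 : ℝ)) (A5 := (500423 / 1000000 : ℝ)) (A6 := (138551 / 200000 : ℝ))
    (A9 := (811571 / 1000000 : ℝ)) (A10 := (8924 / 15625 : ℝ)) (s := (7917 / 100000 : ℝ)) (e := (1 / 10000000 : ℝ))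
    (pb := (6215161 / 5000000 : ℝ)) (qb := (35118109 / 10000000 : ℝ)) (by norm_num)
    (by norm_num) (by norm_num) (by norm_num) (by norm_num) (by norm_num) (by norm_num) (by norm_num)
    (by norm_num) (by norm_num)
    (by norm_num) (by norm_num) (by norm_num) (by norm_num) (by norm_num)
    rfl rfl rfl rfl rfl rfl (by norm_num) (by norm_num) (by norm_num) hp hpb hq hqb hpq

theorem rowL6_41 {p q : ℝ} (hp : 0 < p) (hpb : p ≤ (1250251 / 1000000 : ℝ)) (hq : 0 < q) (hqb : q ≤ (1088537 / 312500 : ℝ))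
    (hpq : 1 < p * q) : NoSol 6 p q :=
  noSol_rect (n := 6) (by norm_num) (N := 6) (a := (703747 / 1000000 : ℝ)) (b := (711733 / 1000000 : ℝ))
    (τ := (754967 / 2500000 : ℝ)) (A5 := (62659 / 125000 : ℝ)) (A6 := (691727 / 1000000 : ℝ))
    (A9 := (815273 / 1000000 : ℝ)) (A10 := (566629 / 1000000 : ℝ)) (s := (7933 / 100000 : ℝ)) (e := (1 / 10000000 : ℝ))
    (pb := (1250251 / 1000000 : ℝ)) (qb := (1088537 / 312500 : ℝ)) (by norm_num)
    (by norm_num) (by norm_num) (by norm_num) (by norm_num) (by norm_num) (by norm_num) (by norm_num)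
    (by norm_num) (by norm_num)
    (by norm_num) (by norm_num) (by norm_num) (by norm_num) (by norm_num)
    rfl rfl rfl rfl rfl rfl (by norm_num) (by norm_num) (by norm_num) hp hpb hq hqb hpq

theorem rowL6_42 {p q : ℝ} (hp : 0 < p) (hpb : p ≤ (392997 / 312500 : ℝ)) (hq : 0 < q) (hqb : q ≤ (17273771 / 5000000 : ℝ))
    (hpq : 1 < p * q) : NoSol 6 p q :=
  noSol_rect (n := 6) (by norm_num) (N := 6) (a := (176849 / 250000 : ℝ)) (b := (142353 / 200000 : ℝ))
    (τ := (3059213 / 10000000 : ℝ)) (A5 := (251509 / 500000 : ℝ)) (A6 := (43139 / 62500 : ℝ))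
    (A9 := (81513 / 100000 : ℝ)) (A10 := (14123 / 25000 : ℝ)) (s := (3973 / 50000 : ℝ)) (e := (1 / 10000000 : ℝ))
    (pb := (392997 / 312500 : ℝ)) (qb := (17273771 / 5000000 : ℝ)) (by norm_num)
    (by norm_num) (by norm_num) (by norm_num) (by norm_num) (by norm_num) (by norm_num) (by norm_num)
    (by norm_num) (by norm_num)
    (by norm_num) (by norm_num) (by norm_num) (by norm_num) (by norm_num)
    rfl rfl rfl rfl rfl rfl (by norm_num) (by norm_num) (by norm_num) hp hpb hq hqb hpq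

theorem rowL6_43 {p q : ℝ} (hp : 0 < p) (hpb : p ≤ (1265011 / 1000000 : ℝ)) (hq : 0 < q) (hqb : q ≤ (2141417 / 625000 : ℝ))
    (hpq : 1 < p * q) : NoSol 6 p q :=
  noSol_rect (n := 6) (by norm_num) (N := 6) (a := (2819 / 4000 : ℝ)) (b := (355323 / 500000 : ℝ))
    (τ := (3081563 / 10000000 : ℝ)) (A5 := (126399 / 250000 : ℝ)) (A6 := (687563 / 1000000 : ℝ))
    (A9 := (12798 / 15625 : ℝ)) (A10 := (140081 / 250000 : ℝ)) (s := (7963 / 100000 : ℝ)) (e := (1 / 10000000 : ℝ))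
    (pb := (1265011 / 1000000 : ℝ)) (qb := (2141417 / 625000 : ℝ)) (by norm_num)
    (by norm_num) (by norm_num) (by norm_num) (by norm_num) (by norm_num) (by norm_num) (by norm_num)
    (by norm_num) (by norm_num)
    (by norm_num) (by norm_num) (by norm_num) (by norm_num) (by norm_num)
    rfl rfl rfl rfl rfl rfl (by norm_num) (by norm_num) (by norm_num) hp hpb hq hqb hpq

theorem rowL6_44 {p q : ℝ} (hp : 0 < p) (hpb : p ≤ (6362863 / 5000000 : ℝ)) (hq : 0 < q) (hqb : q ≤ (33980173 / 10000000 : ℝ))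
    (hpq : 1 < p * q) : NoSol 6 p q :=
  noSol_rect (n := 6) (by norm_num) (N := 6) (a := (29419 / 40000 : ℝ)) (b := (696169 / 1000000 : ℝ))
    (τ := (315537 / 1000000 : ℝ)) (A5 := (505733 / 1000000 : ℝ)) (A6 := (343867 / 500000 : ℝ))
    (A9 := (101481 / 125000 : ℝ)) (A10 := (564251 / 1000000 : ℝ)) (s := (811 / 10000 : ℝ)) (e := (1 / 10000000 : ℝ))
    (pb := (6362863 / 5000000 : ℝ)) (qb := (33980173 / 10000000 : ℝ)) (by norm_num)
    (by norm_num) (by norm_num) (by norm_num) (by norm_num) (by norm_num) (by norm_num) (by norm_num)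
    (by norm_num) (by norm_num)
    (by norm_num) (by norm_num) (by norm_num) (by norm_num) (by norm_num)
    rfl rfl rfl rfl rfl rfl (by norm_num) (by norm_num) (by norm_num) hp hpb hq hqb hpq

theorem rowL6_45 {p q : ℝ} (hp : 0 < p) (hpb : p ≤ (6401229 / 5000000 : ℝ)) (hq : 0 < q) (hqb : q ≤ (8424463 / 2500000 : ℝ))
    (hpq : 1 < p * q) : NoSol 6 p q :=
  noSol_rect (n := 6) (by norm_num) (N := 6) (a := (368219 / 500000 : ℝ)) (b := (347549 / 500000 : ℝ))
    (τ := (159819 / 500000 : ℝ)) (A5 := (505981 / 1000000 : ℝ)) (A6 := (137433 / 200000 : ℝ))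
    (A9 := (813779 / 1000000 : ℝ)) (A10 := (561311 / 1000000 : ℝ)) (s := (8139 / 100000 : ℝ)) (e := (1 / 10000000 : ℝ))
    (pb := (6401229 / 5000000 : ℝ)) (qb := (8424463 / 2500000 : ℝ)) (by norm_num)
    (by norm_num) (by norm_num) (by norm_num) (by norm_num) (by norm_num) (by norm_num) (by norm_num)
    (by norm_num) (by norm_num)
    (by norm_num) (by norm_num) (by norm_num) (by norm_num) (by norm_num)
    rfl rfl rfl rfl rfl rfl (by norm_num) (by norm_num) (by norm_num) hp hpb hq hqb hpq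

theorem rowL6_46 {p q : ℝ} (hp : 0 < p) (hpb : p ≤ (6440169 / 5000000 : ℝ)) (hq : 0 < q) (hqb : q ≤ (33416923 / 10000000 : ℝ))
    (hpq : 1 < p * q) : NoSol 6 p q :=
  noSol_rect (n := 6) (by norm_num) (N := 6) (a := (91537 / 125000 : ℝ)) (b := (347679 / 500000 : ℝ))
    (τ := (1631529 / 5000000 : ℝ)) (A5 := (505367 / 1000000 : ℝ)) (A6 := (689423 / 1000000 : ℝ))
    (A9 := (809087 / 1000000 : ℝ)) (A10 := (561349 / 1000000 : ℝ)) (s := (2047 / 25000 : ℝ)) (e := (1 / 10000000 : ℝ))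
    (pb := (6440169 / 5000000 : ℝ)) (qb := (33416923 / 10000000 : ℝ)) (by norm_num)
    (by norm_num) (by norm_num) (by norm_num) (by norm_num) (by norm_num) (by norm_num) (by norm_num)
    (by norm_num) (by norm_num)
    (by norm_num) (by norm_num) (by norm_num) (by norm_num) (by norm_num)
    rfl rfl rfl rfl rfl rfl (by norm_num) (by norm_num) (by norm_num) hp hpb hq hqb hpq

theorem rowL6_47 {p q : ℝ} (hp : 0 < p) (hpb : p ≤ (1295927 / 1000000 : ℝ)) (hq : 0 < q) (hqb : q ≤ (33137351 / 10000000 : ℝ))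
    (hpq : 1 < p * q) : NoSol 6 p q :=
  noSol_rect (n := 6) (by norm_num) (N := 6) (a := (731973 / 1000000 : ℝ)) (b := (139189 / 200000 : ℝ))
    (τ := (3309293 / 10000000 : ℝ)) (A5 := (506021 / 1000000 : ℝ)) (A6 := (172193 / 250000 : ℝ))
    (A9 := (809639 / 1000000 : ℝ)) (A10 := (2237 / 4000 : ℝ)) (s := (821 / 10000 : ℝ)) (e := (1 / 10000000 : ℝ))
    (pb := (1295927 / 1000000 : ℝ)) (qb := (33137351 / 10000000 : ℝ)) (by norm_num)
    (by norm_num) (by norm_num) (by norm_num) (by norm_num) (by norm_num) (by norm_num) (by norm_num)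
    (by norm_num) (by norm_num)
    (by norm_num) (by norm_num) (by norm_num) (by norm_num) (by norm_num)
    rfl rfl rfl rfl rfl rfl (by norm_num) (by norm_num) (by norm_num) hp hpb hq hqb hpq

theorem rowL6_48 {p q : ℝ} (hp : 0 < p) (hpb : p ≤ (13039577 / 10000000 : ℝ)) (hq : 0 < q) (hqb : q ≤ (657191 / 200000 : ℝ))
    (hpq : 1 < p * q) : NoSol 6 p q :=
  noSol_rect (n := 6) (by norm_num) (N := 6) (a := (741141 / 1000000 : ℝ)) (b := (10941 / 15625 : ℝ))
    (τ := (838471 / 2500000 : ℝ)) (A5 := (509203 / 1000000 : ℝ)) (A6 := (136931 / 200000 : ℝ))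
    (A9 := (202253 / 250000 : ℝ)) (A10 := (279871 / 500000 : ℝ)) (s := (8191 / 100000 : ℝ)) (e := (1 / 10000000 : ℝ))
    (pb := (13039577 / 10000000 : ℝ)) (qb := (657191 / 200000 : ℝ)) (by norm_num)
    (by norm_num) (by norm_num) (by norm_num) (by norm_num) (by norm_num) (by norm_num) (by norm_num)
    (by norm_num) (by norm_num)
    (by norm_num) (by norm_num) (by norm_num) (by norm_num) (by norm_num)
    rfl rfl rfl rfl rfl rfl (by norm_num) (by norm_num) (by norm_num) hp hpb hq hqb hpq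

theorem rowL6_49 {p q : ℝ} (hp : 0 < p) (hpb : p ≤ (26243 / 20000 : ℝ)) (hq : 0 < q) (hqb : q ≤ (16291237 / 5000000 : ℝ))
    (hpq : 1 < p * q) : NoSol 6 p q :=
  noSol_rect (n := 6) (by norm_num) (N := 6) (a := (185607 / 250000 : ℝ)) (b := (698239 / 1000000 : ℝ))
    (τ := (1715081 / 5000000 : ℝ)) (A5 := (506983 / 1000000 : ℝ)) (A6 := (85913 / 125000 : ℝ))
    (A9 := (402763 / 500000 : ℝ)) (A10 := (28009 / 50000 : ℝ)) (s := (1653 / 20000 : ℝ)) (e := (1 / 10000000 : ℝ))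
    (pb := (26243 / 20000 : ℝ)) (qb := (16291237 / 5000000 : ℝ)) (by norm_num)
    (by norm_num) (by norm_num) (by norm_num) (by norm_num) (by norm_num) (by norm_num) (by norm_num)
    (by norm_num) (by norm_num)
    (by norm_num) (by norm_num) (by norm_num) (by norm_num) (by norm_num)
    rfl rfl rfl rfl rfl rfl (by norm_num) (by norm_num) (by norm_num) hp hpb hq hqb hpq

theorem rowL6_50 {p q : ℝ} (hp : 0 < p) (hpb : p ≤ (13204873 / 10000000 : ℝ)) (hq : 0 < q) (hqb : q ≤ (16152717 / 5000000 : ℝ))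
    (hpq : 1 < p * q) : NoSol 6 p q :=
  noSol_rect (n := 6) (by norm_num) (N := 6) (a := (366957 / 500000 : ℝ)) (b := (141653 / 200000 : ℝ))
    (τ := (1757371 / 5000000 : ℝ)) (A5 := (253737 / 500000 : ℝ)) (A6 := (688391 / 1000000 : ℝ))
    (A9 := (398697 / 500000 : ℝ)) (A10 := (563581 / 1000000 : ℝ)) (s := (8263 / 100000 : ℝ)) (e := (1 / 10000000 : ℝ))
    (pb := (13204873 / 10000000 : ℝ)) (qb := (16152717 / 5000000 : ℝ)) (by norm_num)
    (by norm_num) (by norm_num) (by norm_num) (by norm_num) (by norm_num) (by norm_num) (by norm_num)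
    (by norm_num) (by norm_num)
    (by norm_num) (by norm_num) (by norm_num) (by norm_num) (by norm_num)
    rfl rfl rfl rfl rfl rfl (by norm_num) (by norm_num) (by norm_num) hp hpb hq hqb hpq

theorem rowL6_51 {p q : ℝ} (hp : 0 < p) (hpb : p ≤ (3322427 / 2500000 : ℝ)) (hq : 0 < q) (hqb : q ≤ (2001821 / 625000 : ℝ))
    (hpq : 1 < p * q) : NoSol 6 p q :=
  noSol_rect (n := 6) (by norm_num) (N := 6) (a := (739577 / 1000000 : ℝ)) (b := (351211 / 500000 : ℝ))
    (τ := (3576721 / 10000000 : ℝ)) (A5 := (126851 / 250000 : ℝ)) (A6 := (688799 / 1000000 : ℝ))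
    (A9 := (199053 / 250000 : ℝ)) (A10 := (562537 / 1000000 : ℝ)) (s := (1669 / 20000 : ℝ)) (e := (1 / 10000000 : ℝ))
    (pb := (3322427 / 2500000 : ℝ)) (qb := (2001821 / 625000 : ℝ)) (by norm_num)
    (by norm_num) (by norm_num) (by norm_num) (by norm_num) (by norm_num) (by norm_num) (by norm_num)
    (by norm_num) (by norm_num)
    (by norm_num) (by norm_num) (by norm_num) (by norm_num) (by norm_num)
    rfl rfl rfl rfl rfl rfl (by norm_num) (by norm_num) (by norm_num) hp hpb hq hqb hpq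

theorem rowL6_52 {p q : ℝ} (hp : 0 < p) (hpb : p ≤ (6687849 / 5000000 : ℝ)) (hq : 0 < q) (hqb : q ≤ (6350733 / 2000000 : ℝ))
    (hpq : 1 < p * q) : NoSol 6 p q :=
  noSol_rect (n := 6) (by norm_num) (N := 6) (a := (144971 / 200000 : ℝ)) (b := (358863 / 500000 : ℝ))
    (τ := (1807659 / 5000000 : ℝ)) (A5 := (15797 / 31250 : ℝ)) (A6 := (137929 / 200000 : ℝ))
    (A9 := (803121 / 1000000 : ℝ)) (A10 := (556037 / 1000000 : ℝ)) (s := (8251 / 100000 : ℝ)) (e := (1 / 10000000 : ℝ))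
    (pb := (6687849 / 5000000 : ℝ)) (qb := (6350733 / 2000000 : ℝ)) (by norm_num)
    (by norm_num) (by norm_num) (by norm_num) (by norm_num) (by norm_num) (by norm_num) (by norm_num)
    (by norm_num) (by norm_num)
    (by norm_num) (by norm_num) (by norm_num) (by norm_num) (by norm_num)
    rfl rfl rfl rfl rfl rfl (by norm_num) (by norm_num) (by norm_num) hp hpb hq hqb hpq

theorem rowL6_53 {p q : ℝ} (hp : 0 < p) (hpb : p ≤ (3365823 / 2500000 : ℝ)) (hq : 0 < q) (hqb : q ≤ (3935013 / 1250000 : ℝ))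
    (hpq : 1 < p * q) : NoSol 6 p q :=
  noSol_rect (n := 6) (by norm_num) (N := 6) (a := (45151 / 62500 : ℝ)) (b := (722653 / 1000000 : ℝ))
    (τ := (1872821 / 5000000 : ℝ)) (A5 := (250483 / 500000 : ℝ)) (A6 := (347793 / 500000 : ℝ))
    (A9 := (791633 / 1000000 : ℝ)) (A10 := (562087 / 1000000 : ℝ)) (s := (1041 / 12500 : ℝ)) (e := (1 / 10000000 : ℝ))
    (pb := (3365823 / 2500000 : ℝ)) (qb := (3935013 / 1250000 : ℝ)) (by norm_num)
    (by norm_num) (by norm_num) (by norm_num) (by norm_num) (by norm_num) (by norm_num) (by norm_num)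
    (by norm_num) (by norm_num)
    (by norm_num) (by norm_num) (by norm_num) (by norm_num) (by norm_num)
    rfl rfl rfl rfl rfl rfl (by norm_num) (by norm_num) (by norm_num) hp hpb hq hqb hpq

theorem rowL6_54 {p q : ℝ} (hp : 0 < p) (hpb : p ≤ (13551493 / 10000000 : ℝ)) (hq : 0 < q) (hqb : q ≤ (31207123 / 10000000 : ℝ))
    (hpq : 1 < p * q) : NoSol 6 p q :=
  noSol_rect (n := 6) (by norm_num) (N := 6) (a := (35717 / 50000 : ℝ)) (b := (7333 / 10000 : ℝ))
    (τ := (938389 / 2500000 : ℝ)) (A5 := (502657 / 1000000 : ℝ)) (A6 := (138751 / 200000 : ℝ))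
    (A9 := (200363 / 250000 : ℝ)) (A10 := (552373 / 1000000 : ℝ)) (s := (411 / 5000 : ℝ)) (e := (1 / 10000000 : ℝ))
    (pb := (13551493 / 10000000 : ℝ)) (qb := (31207123 / 10000000 : ℝ)) (by norm_num)
    (by norm_num) (by norm_num) (by norm_num) (by norm_num) (by norm_num) (by norm_num) (by norm_num)
    (by norm_num) (by norm_num)
    (by norm_num) (by norm_num) (by norm_num) (by norm_num) (by norm_num)
    rfl rfl rfl rfl rfl rfl (by norm_num) (by norm_num) (by norm_num) hp hpb hq hqb hpq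

theorem rowL6_55 {p q : ℝ} (hp : 0 < p) (hpb : p ≤ (6821117 / 5000000 : ℝ)) (hq : 0 < q) (hqb : q ≤ (7734467 / 2500000 : ℝ))
    (hpq : 1 < p * q) : NoSol 6 p q :=
  noSol_rect (n := 6) (by norm_num) (N := 6) (a := (720377 / 1000000 : ℝ)) (b := (362857 / 500000 : ℝ))
    (τ := (3835873 / 10000000 : ℝ)) (A5 := (6321 / 12500 : ℝ)) (A6 := (691967 / 1000000 : ℝ))
    (A9 := (12403 / 15625 : ℝ)) (A10 := (556341 / 1000000 : ℝ)) (s := (4173 / 50000 : ℝ)) (e := (1 / 10000000 : ℝ))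
    (pb := (6821117 / 5000000 : ℝ)) (qb := (7734467 / 2500000 : ℝ)) (by norm_num)
    (by norm_num) (by norm_num) (by norm_num) (by norm_num) (by norm_num) (by norm_num) (by norm_num)
    (by norm_num) (by norm_num)
    (by norm_num) (by norm_num) (by norm_num) (by norm_num) (by norm_num)
    rfl rfl rfl rfl rfl rfl (by norm_num) (by norm_num) (by norm_num) hp hpb hq hqb hpq

theorem rowL6_56 {p q : ℝ} (hp : 0 < p) (hpb : p ≤ (6867409 / 5000000 : ℝ)) (hq : 0 < q) (hqb : q ≤ (15333281 / 5000000 : ℝ))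
    (hpq : 1 < p * q) : NoSol 6 p q :=
  noSol_rect (n := 6) (by norm_num) (N := 6) (a := (735809 / 1000000 : ℝ)) (b := (143341 / 200000 : ℝ))
    (τ := (1963537 / 5000000 : ℝ)) (A5 := (252683 / 500000 : ℝ)) (A6 := (692897 / 1000000 : ℝ))
    (A9 := (788571 / 1000000 : ℝ)) (A10 := (558589 / 1000000 : ℝ)) (s := (8469 / 100000 : ℝ)) (e := (1 / 10000000 : ℝ))
    (pb := (6867409 / 5000000 : ℝ)) (qb := (15333281 / 5000000 : ℝ)) (by norm_num)
    (by norm_num) (by norm_num) (by norm_num) (by norm_num) (by norm_num) (by norm_num) (by norm_num)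
    (by norm_num) (by norm_num)
    (by norm_num) (by norm_num) (by norm_num) (by norm_num) (by norm_num)
    rfl rfl rfl rfl rfl rfl (by norm_num) (by norm_num) (by norm_num) hp hpb hq hqb hpq

theorem rowL6_57 {p q : ℝ} (hp : 0 < p) (hpb : p ≤ (2765797 / 2000000 : ℝ)) (hq : 0 < q) (hqb : q ≤ (30395523 / 10000000 : ℝ))
    (hpq : 1 < p * q) : NoSol 6 p q :=
  noSol_rect (n := 6) (by norm_num) (N := 6) (a := (370441 / 500000 : ℝ)) (b := (179427 / 250000 : ℝ))
    (τ := (1990401 / 5000000 : ℝ)) (A5 := (509063 / 1000000 : ℝ)) (A6 := (689519 / 1000000 : ℝ))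
    (A9 := (787523 / 1000000 : ℝ)) (A10 := (558021 / 1000000 : ℝ)) (s := (8487 / 100000 : ℝ)) (e := (1 / 10000000 : ℝ))
    (pb := (2765797 / 2000000 : ℝ)) (qb := (30395523 / 10000000 : ℝ)) (by norm_num)
    (by norm_num) (by norm_num) (by norm_num) (by norm_num) (by norm_num) (by norm_num) (by norm_num)
    (by norm_num) (by norm_num)
    (by norm_num) (by norm_num) (by norm_num) (by norm_num) (by norm_num)
    rfl rfl rfl rfl rfl rfl (by norm_num) (by norm_num) (by norm_num) hp hpb hq hqb hpq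

theorem rowL6_58 {p q : ℝ} (hp : 0 < p) (hpb : p ≤ (3481121 / 2500000 : ℝ)) (hq : 0 < q) (hqb : q ≤ (1882853 / 625000 : ℝ))
    (hpq : 1 < p * q) : NoSol 6 p q :=
  noSol_rect (n := 6) (by norm_num) (N := 6) (a := (147087 / 200000 : ℝ)) (b := (711493 / 1000000 : ℝ))
    (τ := (2047017 / 5000000 : ℝ)) (A5 := (506611 / 1000000 : ℝ)) (A6 := (173567 / 250000 : ℝ))
    (A9 := (780119 / 1000000 : ℝ)) (A10 := (13999 / 25000 : ℝ)) (s := (863 / 10000 : ℝ)) (e := (1 / 10000000 : ℝ))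
    (pb := (3481121 / 2500000 : ℝ)) (qb := (1882853 / 625000 : ℝ)) (by norm_num)
    (by norm_num) (by norm_num) (by norm_num) (by norm_num) (by norm_num) (by norm_num) (by norm_num)
    (by norm_num) (by norm_num)
    (by norm_num) (by norm_num) (by norm_num) (by norm_num) (by norm_num)
    rfl rfl rfl rfl rfl rfl (by norm_num) (by norm_num) (by norm_num) hp hpb hq hqb hpq

theorem rowL6_59 {p q : ℝ} (hp : 0 < p) (hpb : p ≤ (438189 / 312500 : ℝ)) (hq : 0 < q) (hqb : q ≤ (1492887 / 500000 : ℝ))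
    (hpq : 1 < p * q) : NoSol 6 p q :=
  noSol_rect (n := 6) (by norm_num) (N := 6) (a := (740713 / 1000000 : ℝ)) (b := (89303 / 125000 : ℝ))
    (τ := (836269 / 2000000 : ℝ)) (A5 := (253667 / 500000 : ℝ)) (A6 := (692911 / 1000000 : ℝ))
    (A9 := (7769 / 10000 : ℝ)) (A10 := (2249 / 4000 : ℝ)) (s := (271 / 3125 : ℝ)) (e := (1 / 10000000 : ℝ))
    (pb := (438189 / 312500 : ℝ)) (qb := (1492887 / 500000 : ℝ)) (by norm_num)
    (by norm_num) (by norm_num) (by norm_num) (by norm_num) (by norm_num) (by norm_num) (by norm_num)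
    (by norm_num) (by norm_num)
    (by norm_num) (by norm_num) (by norm_num) (by norm_num) (by norm_num)
    rfl rfl rfl rfl rfl rfl (by norm_num) (by norm_num) (by norm_num) hp hpb hq hqb hpq

theorem rowL6_60 {p q : ℝ} (hp : 0 < p) (hpb : p ≤ (14121423 / 10000000 : ℝ)) (hq : 0 < q) (hqb : q ≤ (3698733 / 1250000 : ℝ))
    (hpq : 1 < p * q) : NoSol 6 p q :=
  noSol_rect (n := 6) (by norm_num) (N := 6) (a := (185073 / 250000 : ℝ)) (b := (718661 / 1000000 : ℝ))
    (τ := (85199 / 200000 : ℝ)) (A5 := (508519 / 1000000 : ℝ)) (A6 := (692431 / 1000000 : ℝ))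
    (A9 := (774549 / 1000000 : ℝ)) (A10 := (562193 / 1000000 : ℝ)) (s := (8693 / 100000 : ℝ)) (e := (1 / 10000000 : ℝ))
    (pb := (14121423 / 10000000 : ℝ)) (qb := (3698733 / 1250000 : ℝ)) (by norm_num)
    (by norm_num) (by norm_num) (by norm_num) (by norm_num) (by norm_num) (by norm_num) (by norm_num)
    (by norm_num) (by norm_num)
    (by norm_num) (by norm_num) (by norm_num) (by norm_num) (by norm_num)
    rfl rfl rfl rfl rfl rfl (by norm_num) (by norm_num) (by norm_num) hp hpb hq hqb hpq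

theorem rowL6_61 {p q : ℝ} (hp : 0 < p) (hpb : p ≤ (7111319 / 5000000 : ℝ)) (hq : 0 < q) (hqb : q ≤ (234583 / 80000 : ℝ))
    (hpq : 1 < p * q) : NoSol 6 p q :=
  noSol_rect (n := 6) (by norm_num) (N := 6) (a := (92923 / 125000 : ℝ)) (b := (719863 / 1000000 : ℝ))
    (τ := (4318963 / 10000000 : ℝ)) (A5 := (127651 / 250000 : ℝ)) (A6 := (10801 / 15625 : ℝ))
    (A9 := (387553 / 500000 : ℝ)) (A10 := (279699 / 500000 : ℝ)) (s := (2177 / 25000 : ℝ)) (e := (1 / 10000000 : ℝ))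
    (pb := (7111319 / 5000000 : ℝ)) (qb := (234583 / 80000 : ℝ)) (by norm_num)
    (by norm_num) (by norm_num) (by norm_num) (by norm_num) (by norm_num) (by norm_num) (by norm_num)
    (by norm_num) (by norm_num)
    (by norm_num) (by norm_num) (by norm_num) (by norm_num) (by norm_num)
    rfl rfl rfl rfl rfl rfl (by norm_num) (by norm_num) (by norm_num) hp hpb hq hqb hpq

theorem rowL6_62 {p q : ℝ} (hp : 0 < p) (hpb : p ≤ (3581409 / 2500000 : ℝ)) (hq : 0 < q) (hqb : q ≤ (1162273 / 400000 : ℝ))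
    (hpq : 1 < p * q) : NoSol 6 p q :=
  noSol_rect (n := 6) (by norm_num) (N := 6) (a := (373161 / 500000 : ℝ)) (b := (89177 / 125000 : ℝ))
    (τ := (4400061 / 10000000 : ℝ)) (A5 := (511079 / 1000000 : ℝ)) (A6 := (86321 / 125000 : ℝ))
    (A9 := (774213 / 1000000 : ℝ)) (A10 := (559113 / 1000000 : ℝ)) (s := (8811 / 100000 : ℝ)) (e := (1 / 10000000 : ℝ))
    (pb := (3581409 / 2500000 : ℝ)) (qb := (1162273 / 400000 : ℝ)) (by norm_num)
    (by norm_num) (by norm_num) (by norm_num) (by norm_num) (by norm_num) (by norm_num) (by norm_num)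
    (by norm_num) (by norm_num)
    (by norm_num) (by norm_num) (by norm_num) (by norm_num) (by norm_num)
    rfl rfl rfl rfl rfl rfl (by norm_num) (by norm_num) (by norm_num) hp hpb hq hqb hpq

theorem rowL6_63 {p q : ℝ} (hp : 0 < p) (hpb : p ≤ (7215381 / 5000000 : ℝ)) (hq : 0 < q) (hqb : q ≤ (14395993 / 5000000 : ℝ))
    (hpq : 1 < p * q) : NoSol 6 p q :=
  noSol_rect (n := 6) (by norm_num) (N := 6) (a := (745353 / 1000000 : ℝ)) (b := (718663 / 1000000 : ℝ))
    (τ := (561001 / 1250000 : ℝ)) (A5 := (254991 / 500000 : ℝ)) (A6 := (138513 / 200000 : ℝ))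
    (A9 := (193377 / 250000 : ℝ)) (A10 := (557223 / 1000000 : ℝ)) (s := (1103 / 12500 : ℝ)) (e := (1 / 10000000 : ℝ))
    (pb := (7215381 / 5000000 : ℝ)) (qb := (14395993 / 5000000 : ℝ)) (by norm_num)
    (by norm_num) (by norm_num) (by norm_num) (by norm_num) (by norm_num) (by norm_num) (by norm_num)
    (by norm_num) (by norm_num)
    (by norm_num) (by norm_num) (by norm_num) (by norm_num) (by norm_num)
    rfl rfl rfl rfl rfl rfl (by norm_num) (by norm_num) (by norm_num) hp hpb hq hqb hpq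

theorem rowL6_64 {p q : ℝ} (hp : 0 < p) (hpb : p ≤ (14537541 / 10000000 : ℝ)) (hq : 0 < q) (hqb : q ≤ (2852761 / 1000000 : ℝ))
    (hpq : 1 < p * q) : NoSol 6 p q :=
  noSol_rect (n := 6) (by norm_num) (N := 6) (a := (720171 / 1000000 : ℝ)) (b := (91867 / 125000 : ℝ))
    (τ := (4586487 / 10000000 : ℝ)) (A5 := (509759 / 1000000 : ℝ)) (A6 := (138783 / 200000 : ℝ))
    (A9 := (154091 / 200000 : ℝ)) (A10 := (557243 / 1000000 : ℝ)) (s := (8811 / 100000 : ℝ)) (e := (1 / 10000000 : ℝ))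
    (pb := (14537541 / 10000000 : ℝ)) (qb := (2852761 / 1000000 : ℝ)) (by norm_num)
    (by norm_num) (by norm_num) (by norm_num) (by norm_num) (by norm_num) (by norm_num) (by norm_num)
    (by norm_num) (by norm_num)
    (by norm_num) (by norm_num) (by norm_num) (by norm_num) (by norm_num)
    rfl rfl rfl rfl rfl rfl (by norm_num) (by norm_num) (by norm_num) hp hpb hq hqb hpq

theorem rowL6_65 {p q : ℝ} (hp : 0 < p) (hpb : p ≤ (14646247 / 10000000 : ℝ)) (hq : 0 < q) (hqb : q ≤ (7066253 / 2500000 : ℝ))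
    (hpq : 1 < p * q) : NoSol 6 p q :=
  noSol_rect (n := 6) (by norm_num) (N := 6) (a := (11266 / 15625 : ℝ)) (b := (734361 / 1000000 : ℝ))
    (τ := (932851 / 2000000 : ℝ)) (A5 := (128269 / 250000 : ℝ)) (A6 := (3457 / 5000 : ℝ))
    (A9 := (767989 / 1000000 : ℝ)) (A10 := (557511 / 1000000 : ℝ)) (s := (1109 / 12500 : ℝ)) (e := (1 / 10000000 : ℝ))
    (pb := (14646247 / 10000000 : ℝ)) (qb := (7066253 / 2500000 : ℝ)) (by norm_num)
    (by norm_num) (by norm_num) (by norm_num) (by norm_num) (by norm_num) (by norm_num) (by norm_num)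
    (by norm_num) (by norm_num)
    (by norm_num) (by norm_num) (by norm_num) (by norm_num) (by norm_num)
    rfl rfl rfl rfl rfl rfl (by norm_num) (by norm_num) (by norm_num) hp hpb hq hqb hpq

theorem rowL6_66 {p q : ℝ} (hp : 0 < p) (hpb : p ≤ (1475697 / 1000000 : ℝ)) (hq : 0 < q) (hqb : q ≤ (875113 / 312500 : ℝ))
    (hpq : 1 < p * q) : NoSol 6 p q :=
  noSol_rect (n := 6) (by norm_num) (N := 6) (a := (721129 / 1000000 : ℝ)) (b := (736011 / 1000000 : ℝ))
    (τ := (4766243 / 10000000 : ℝ)) (A5 := (256609 / 500000 : ℝ)) (A6 := (8649 / 12500 : ℝ))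
    (A9 := (23911 / 31250 : ℝ)) (A10 := (558029 / 1000000 : ℝ)) (s := (4467 / 50000 : ℝ)) (e := (1 / 10000000 : ℝ))
    (pb := (1475697 / 1000000 : ℝ)) (qb := (875113 / 312500 : ℝ)) (by norm_num)
    (by norm_num) (by norm_num) (by norm_num) (by norm_num) (by norm_num) (by norm_num) (by norm_num)
    (by norm_num) (by norm_num)
    (by norm_num) (by norm_num) (by norm_num) (by norm_num) (by norm_num)
    rfl rfl rfl rfl rfl rfl (by norm_num) (by norm_num) (by norm_num) hp hpb hq hqb hpq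

theorem rowL6_67 {p q : ℝ} (hp : 0 < p) (hpb : p ≤ (1486971 / 1000000 : ℝ)) (hq : 0 < q) (hqb : q ≤ (866979 / 312500 : ℝ))
    (hpq : 1 < p * q) : NoSol 6 p q :=
  noSol_rect (n := 6) (by norm_num) (N := 6) (a := (363781 / 500000 : ℝ)) (b := (732249 / 1000000 : ℝ))
    (τ := (4853683 / 10000000 : ℝ)) (A5 := (257221 / 500000 : ℝ)) (A6 := (27643 / 40000 : ℝ))
    (A9 := (76417 / 100000 : ℝ)) (A10 := (278663 / 500000 : ℝ)) (s := (2253 / 25000 : ℝ)) (e := (1 / 10000000 : ℝ))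
    (pb := (1486971 / 1000000 : ℝ)) (qb := (866979 / 312500 : ℝ)) (by norm_num)
    (by norm_num) (by norm_num) (by norm_num) (by norm_num) (by norm_num) (by norm_num) (by norm_num)
    (by norm_num) (by norm_num)
    (by norm_num) (by norm_num) (by norm_num) (by norm_num) (by norm_num)
    rfl rfl rfl rfl rfl rfl (by norm_num) (by norm_num) (by norm_num) hp hpb hq hqb hpq

theorem rowL6_68 {p q : ℝ} (hp : 0 < p) (hpb : p ≤ (7492327 / 5000000 : ℝ)) (hq : 0 < q) (hqb : q ≤ (6871067 / 2500000 : ℝ))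
    (hpq : 1 < p * q) : NoSol 6 p q :=
  noSol_rect (n := 6) (by norm_num) (N := 6) (a := (73017 / 100000 : ℝ)) (b := (184969 / 250000 : ℝ))
    (τ := (616713 / 1250000 : ℝ)) (A5 := (516881 / 1000000 : ℝ)) (A6 := (21519 / 31250 : ℝ))
    (A9 := (763737 / 1000000 : ℝ)) (A10 := (556753 / 1000000 : ℝ)) (s := (563 / 6250 : ℝ)) (e := (1 / 10000000 : ℝ))
    (pb := (7492327 / 5000000 : ℝ)) (qb := (6871067 / 2500000 : ℝ)) (by norm_num)
    (by norm_num) (by norm_num) (by norm_num) (by norm_num) (by norm_num) (by norm_num) (by norm_num)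
    (by norm_num) (by norm_num)
    (by norm_num) (by norm_num) (by norm_num) (by norm_num) (by norm_num)
    rfl rfl rfl rfl rfl rfl (by norm_num) (by norm_num) (by norm_num) hp hpb hq hqb hpq

theorem rowL6_69 {p q : ℝ} (hp : 0 < p) (hpb : p ≤ (15101939 / 10000000 : ℝ)) (hq : 0 < q) (hqb : q ≤ (13613069 / 5000000 : ℝ))
    (hpq : 1 < p * q) : NoSol 6 p q :=
  noSol_rect (n := 6) (by norm_num) (N := 6) (a := (729817 / 1000000 : ℝ)) (b := (739433 / 1000000 : ℝ))
    (τ := (5056807 / 10000000 : ℝ)) (A5 := (515309 / 1000000 : ℝ)) (A6 := (691453 / 1000000 : ℝ))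
    (A9 := (380209 / 500000 : ℝ)) (A10 := (278481 / 500000 : ℝ)) (s := (1137 / 12500 : ℝ)) (e := (1 / 10000000 : ℝ))
    (pb := (15101939 / 10000000 : ℝ)) (qb := (13613069 / 5000000 : ℝ)) (by norm_num)
    (by norm_num) (by norm_num) (by norm_num) (by norm_num) (by norm_num) (by norm_num) (by norm_num)
    (by norm_num) (by norm_num)
    (by norm_num) (by norm_num) (by norm_num) (by norm_num) (by norm_num)
    rfl rfl rfl rfl rfl rfl (by norm_num) (by norm_num) (by norm_num) hp hpb hq hqb hpq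

theorem rowL6_70 {p q : ℝ} (hp : 0 < p) (hpb : p ≤ (1522137 / 1000000 : ℝ)) (hq : 0 < q) (hqb : q ≤ (3371097 / 1250000 : ℝ))
    (hpq : 1 < p * q) : NoSol 6 p q :=
  noSol_rect (n := 6) (by norm_num) (N := 6) (a := (728237 / 1000000 : ℝ)) (b := (739513 / 1000000 : ℝ))
    (τ := (5174729 / 10000000 : ℝ)) (A5 := (514779 / 1000000 : ℝ)) (A6 := (693407 / 1000000 : ℝ))
    (A9 := (11834 / 15625 : ℝ)) (A10 := (278439 / 500000 : ℝ)) (s := (9177 / 100000 : ℝ)) (e := (1 / 10000000 : ℝ))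
    (pb := (1522137 / 1000000 : ℝ)) (qb := (3371097 / 1250000 : ℝ)) (by norm_num)
    (by norm_num) (by norm_num) (by norm_num) (by norm_num) (by norm_num) (by norm_num) (by norm_num)
    (by norm_num) (by norm_num)
    (by norm_num) (by norm_num) (by norm_num) (by norm_num) (by norm_num)
    rfl rfl rfl rfl rfl rfl (by norm_num) (by norm_num) (by norm_num) hp hpb hq hqb hpq

theorem rowL6_71 {p q : ℝ} (hp : 0 < p) (hpb : p ≤ (15343153 / 10000000 : ℝ)) (hq : 0 < q) (hqb : q ≤ (3339093 / 1250000 : ℝ))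
    (hpq : 1 < p * q) : NoSol 6 p q :=
  noSol_rect (n := 6) (by norm_num) (N := 6) (a := (366579 / 500000 : ℝ)) (b := (740613 / 1000000 : ℝ))
    (τ := (5254117 / 10000000 : ℝ)) (A5 := (51601 / 100000 : ℝ)) (A6 := (693529 / 1000000 : ℝ))
    (A9 := (379363 / 500000 : ℝ)) (A10 := (276521 / 500000 : ℝ)) (s := (2299 / 25000 : ℝ)) (e := (1 / 10000000 : ℝ))
    (pb := (15343153 / 10000000 : ℝ)) (qb := (3339093 / 1250000 : ℝ)) (by norm_num)
    (by norm_num) (by norm_num) (by norm_num) (by norm_num) (by norm_num) (by norm_num) (by norm_num)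
    (by norm_num) (by norm_num)
    (by norm_num) (by norm_num) (by norm_num) (by norm_num) (by norm_num)
    rfl rfl rfl rfl rfl rfl (by norm_num) (by norm_num) (by norm_num) hp hpb hq hqb hpq

theorem rowL6_72 {p q : ℝ} (hp : 0 < p) (hpb : p ≤ (193339 / 125000 : ℝ)) (hq : 0 < q) (hqb : q ≤ (26457731 / 10000000 : ℝ))
    (hpq : 1 < p * q) : NoSol 6 p q :=
  noSol_rect (n := 6) (by norm_num) (N := 6) (a := (739221 / 1000000 : ℝ)) (b := (740789 / 1000000 : ℝ))
    (τ := (5399097 / 10000000 : ℝ)) (A5 := (128413 / 250000 : ℝ)) (A6 := (27833 / 40000 : ℝ))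
    (A9 := (755351 / 1000000 : ℝ)) (A10 := (554931 / 1000000 : ℝ)) (s := (9289 / 100000 : ℝ)) (e := (1 / 10000000 : ℝ))
    (pb := (193339 / 125000 : ℝ)) (qb := (26457731 / 10000000 : ℝ)) (by norm_num)
    (by norm_num) (by norm_num) (by norm_num) (by norm_num) (by norm_num) (by norm_num) (by norm_num)
    (by norm_num) (by norm_num)
    (by norm_num) (by norm_num) (by norm_num) (by norm_num) (by norm_num)
    rfl rfl rfl rfl rfl rfl (by norm_num) (by norm_num) (by norm_num) hp hpb hq hqb hpq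

theorem rowL6_73 {p q : ℝ} (hp : 0 < p) (hpb : p ≤ (1559339 / 1000000 : ℝ)) (hq : 0 < q) (hqb : q ≤ (26204209 / 10000000 : ℝ))
    (hpq : 1 < p * q) : NoSol 6 p q :=
  noSol_rect (n := 6) (by norm_num) (N := 6) (a := (147683 / 200000 : ℝ)) (b := (740543 / 1000000 : ℝ))
    (τ := (5478647 / 10000000 : ℝ)) (A5 := (516257 / 1000000 : ℝ)) (A6 := (13907 / 20000 : ℝ))
    (A9 := (755671 / 1000000 : ℝ)) (A10 := (275653 / 500000 : ℝ)) (s := (2333 / 25000 : ℝ)) (e := (1 / 10000000 : ℝ))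
    (pb := (1559339 / 1000000 : ℝ)) (qb := (26204209 / 10000000 : ℝ)) (by norm_num)
    (by norm_num) (by norm_num) (by norm_num) (by norm_num) (by norm_num) (by norm_num) (by norm_num)
    (by norm_num) (by norm_num)
    (by norm_num) (by norm_num) (by norm_num) (by norm_num) (by norm_num)
    rfl rfl rfl rfl rfl rfl (by norm_num) (by norm_num) (by norm_num) hp hpb hq hqb hpq

theorem rowL6_74 {p q : ℝ} (hp : 0 < p) (hpb : p ≤ (3930529 / 2500000 : ℝ)) (hq : 0 < q) (hqb : q ≤ (519041 / 200000 : ℝ))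
    (hpq : 1 < p * q) : NoSol 6 p q :=
  noSol_rect (n := 6) (by norm_num) (N := 6) (a := (186349 / 250000 : ℝ)) (b := (367559 / 500000 : ℝ))
    (τ := (280281 / 500000 : ℝ)) (A5 := (517787 / 1000000 : ℝ)) (A6 := (138981 / 200000 : ℝ))
    (A9 := (15029 / 20000 : ℝ)) (A10 := (110609 / 200000 : ℝ)) (s := (189 / 2000 : ℝ)) (e := (1 / 10000000 : ℝ))
    (pb := (3930529 / 2500000 : ℝ)) (qb := (519041 / 200000 : ℝ)) (by norm_num)
    (by norm_num) (by norm_num) (by norm_num) (by norm_num) (by norm_num) (by norm_num) (by norm_num)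
    (by norm_num) (by norm_num)
    (by norm_num) (by norm_num) (by norm_num) (by norm_num) (by norm_num)
    rfl rfl rfl rfl rfl rfl (by norm_num) (by norm_num) (by norm_num) hp hpb hq hqb hpq

theorem rowL6_75 {p q : ℝ} (hp : 0 < p) (hpb : p ≤ (7926547 / 5000000 : ℝ)) (hq : 0 < q) (hqb : q ≤ (25701071 / 10000000 : ℝ))
    (hpq : 1 < p * q) : NoSol 6 p q :=
  noSol_rect (n := 6) (by norm_num) (N := 6) (a := (185991 / 250000 : ℝ)) (b := (736009 / 1000000 : ℝ))
    (τ := (5743041 / 10000000 : ℝ)) (A5 := (515921 / 1000000 : ℝ)) (A6 := (698463 / 1000000 : ℝ))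
    (A9 := (374731 / 500000 : ℝ)) (A10 := (551839 / 1000000 : ℝ)) (s := (9529 / 100000 : ℝ)) (e := (1 / 10000000 : ℝ))
    (pb := (7926547 / 5000000 : ℝ)) (qb := (25701071 / 10000000 : ℝ)) (by norm_num)
    (by norm_num) (by norm_num) (by norm_num) (by norm_num) (by norm_num) (by norm_num) (by norm_num)
    (by norm_num) (by norm_num)
    (by norm_num) (by norm_num) (by norm_num) (by norm_num) (by norm_num)
    rfl rfl rfl rfl rfl rfl (by norm_num) (by norm_num) (by norm_num) hp hpb hq hqb hpq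

theorem rowL6_76 {p q : ℝ} (hp : 0 < p) (hpb : p ≤ (15986513 / 10000000 : ℝ)) (hq : 0 < q) (hqb : q ≤ (5090357 / 2000000 : ℝ))
    (hpq : 1 < p * q) : NoSol 6 p q :=
  noSol_rect (n := 6) (by norm_num) (N := 6) (a := (743699 / 1000000 : ℝ)) (b := (737207 / 1000000 : ℝ))
    (τ := (5827653 / 10000000 : ℝ)) (A5 := (12953 / 25000 : ℝ)) (A6 := (348131 / 500000 : ℝ))
    (A9 := (11743 / 15625 : ℝ)) (A10 := (274531 / 500000 : ℝ)) (s := (9573 / 100000 : ℝ)) (e := (1 / 10000000 : ℝ))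
    (pb := (15986513 / 10000000 : ℝ)) (qb := (5090357 / 2000000 : ℝ)) (by norm_num)
    (by norm_num) (by norm_num) (by norm_num) (by norm_num) (by norm_num) (by norm_num) (by norm_num)
    (by norm_num) (by norm_num)
    (by norm_num) (by norm_num) (by norm_num) (by norm_num) (by norm_num)
    rfl rfl rfl rfl rfl rfl (by norm_num) (by norm_num) (by norm_num) hp hpb hq hqb hpq

theorem rowL6_77 {p q : ℝ} (hp : 0 < p) (hpb : p ≤ (3224477 / 2000000 : ℝ)) (hq : 0 < q) (hqb : q ≤ (787623 / 312500 : ℝ))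
    (hpq : 1 < p * q) : NoSol 6 p q :=
  noSol_rect (n := 6) (by norm_num) (N := 6) (a := (743647 / 1000000 : ℝ)) (b := (738291 / 1000000 : ℝ))
    (τ := (5987209 / 10000000 : ℝ)) (A5 := (516873 / 1000000 : ℝ)) (A6 := (699269 / 1000000 : ℝ))
    (A9 := (747111 / 1000000 : ℝ)) (A10 := (550213 / 1000000 : ℝ)) (s := (1209 / 12500 : ℝ)) (e := (1 / 10000000 : ℝ))
    (pb := (3224477 / 2000000 : ℝ)) (qb := (787623 / 312500 : ℝ)) (by norm_num)
    (by norm_num) (by norm_num) (by norm_num) (by norm_num) (by norm_num) (by norm_num) (by norm_num)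
    (by norm_num) (by norm_num)
    (by norm_num) (by norm_num) (by norm_num) (by norm_num) (by norm_num)
    rfl rfl rfl rfl rfl rfl (by norm_num) (by norm_num) (by norm_num) hp hpb hq hqb hpq

theorem rowL6_78 {p q : ℝ} (hp : 0 < p) (hpb : p ≤ (254073 / 156250 : ℝ)) (hq : 0 < q) (hqb : q ≤ (4991523 / 2000000 : ℝ))
    (hpq : 1 < p * q) : NoSol 6 p q :=
  noSol_rect (n := 6) (by norm_num) (N := 6) (a := (750851 / 1000000 : ℝ)) (b := (738073 / 1000000 : ℝ))
    (τ := (6098047 / 10000000 : ℝ)) (A5 := (518169 / 1000000 : ℝ)) (A6 := (699101 / 1000000 : ℝ))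
    (A9 := (747037 / 1000000 : ℝ)) (A10 := (548187 / 1000000 : ℝ)) (s := (9721 / 100000 : ℝ)) (e := (1 / 10000000 : ℝ))
    (pb := (254073 / 156250 : ℝ)) (qb := (4991523 / 2000000 : ℝ)) (by norm_num)
    (by norm_num) (by norm_num) (by norm_num) (by norm_num) (by norm_num) (by norm_num) (by norm_num)
    (by norm_num) (by norm_num)
    (by norm_num) (by norm_num) (by norm_num) (by norm_num) (by norm_num)
    rfl rfl rfl rfl rfl rfl (by norm_num) (by norm_num) (by norm_num) hp hpb hq hqb hpq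

theorem rowL6_79 {p q : ℝ} (hp : 0 < p) (hpb : p ≤ (131209 / 80000 : ℝ)) (hq : 0 < q) (hqb : q ≤ (772281 / 312500 : ℝ))
    (hpq : 1 < p * q) : NoSol 6 p q :=
  noSol_rect (n := 6) (by norm_num) (N := 6) (a := (752197 / 1000000 : ℝ)) (b := (73903 / 100000 : ℝ))
    (τ := (6183531 / 10000000 : ℝ)) (A5 := (520413 / 1000000 : ℝ)) (A6 := (87009 / 125000 : ℝ))
    (A9 := (750251 / 1000000 : ℝ)) (A10 := (545281 / 1000000 : ℝ)) (s := (9761 / 100000 : ℝ)) (e := (1 / 10000000 : ℝ))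
    (pb := (131209 / 80000 : ℝ)) (qb := (772281 / 312500 : ℝ)) (by norm_num)
    (by norm_num) (by norm_num) (by norm_num) (by norm_num) (by norm_num) (by norm_num) (by norm_num)
    (by norm_num) (by norm_num)
    (by norm_num) (by norm_num) (by norm_num) (by norm_num) (by norm_num)
    rfl rfl rfl rfl rfl rfl (by norm_num) (by norm_num) (by norm_num) hp hpb hq hqb hpq

end Vale.Agent.Lib.P100
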