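import Vale.Agent.Lib.P100.Cover

/-!
Rational certificates, dimension 6.
-/

namespace Vale.Agent.Lib.P100

theorem rowL6_80 {p q : ℝ} (hp : 0 < p) (hpb : p ≤ (16544079 / 10000000 : ℝ)) (hq : 0 < q) (hqb : q ≤ (12235293 / 5000000 : ℝ))
    (hpq : 1 < p * q) : NoSol 6 p q :=
  noSol_rect (n := 6) (by norm_num) (N := 6) (a := (751729 / 1000000 : ℝ)) (b := (73589 / 100000 : ℝ))
    (τ := (6331557 / 10000000 : ℝ)) (A5 := (129929 / 250000 : ℝ)) (A6 := (3489 / 5000 : ℝ))
    (A9 := (748427 / 1000000 : ℝ)) (A10 := (108991 / 200000 : ℝ)) (s := (4939 / 50000 : ℝ)) (e := (1 / 10000000 : ℝ))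
    (pb := (16544079 / 10000000 : ℝ)) (qb := (12235293 / 5000000 : ℝ)) (by norm_num)
    (by norm_num) (by norm_num) (by norm_num) (by norm_num) (by norm_num) (by norm_num) (by norm_num)
    (by norm_num) (by norm_num)
    (by norm_num) (by norm_num) (by norm_num) (by norm_num) (by norm_num)
    rfl rfl rfl rfl rfl rfl (by norm_num) (by norm_num) (by norm_num) hp hpb hq hqb hpq

theorem rowL6_81 {p q : ℝ} (hp : 0 < p) (hpb : p ≤ (521563 / 312500 : ℝ)) (hq : 0 < q) (hqb : q ≤ (4845979 / 2000000 : ℝ))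
    (hpq : 1 < p * q) : NoSol 6 p q :=
  noSol_rect (n := 6) (by norm_num) (N := 6) (a := (188003 / 250000 : ℝ)) (b := (739229 / 1000000 : ℝ))
    (τ := (651959 / 1000000 : ℝ)) (A5 := (65209 / 125000 : ℝ)) (A6 := (13961 / 20000 : ℝ))
    (A9 := (739459 / 1000000 : ℝ)) (A10 := (55029 / 100000 : ℝ)) (s := (2501 / 25000 : ℝ)) (e := (1 / 10000000 : ℝ))
    (pb := (521563 / 312500 : ℝ)) (qb := (4845979 / 2000000 : ℝ)) (by norm_num)
    (by norm_num) (by norm_num) (by norm_num) (by norm_num) (by norm_num) (by norm_num) (by norm_num)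
    (by norm_num) (by norm_num)
    (by norm_num) (by norm_num) (by norm_num) (by norm_num) (by norm_num)
    rfl rfl rfl rfl rfl rfl (by norm_num) (by norm_num) (by norm_num) hp hpb hq hqb hpq

theorem rowL6_82 {p q : ℝ} (hp : 0 < p) (hpb : p ≤ (526193 / 312500 : ℝ)) (hq : 0 < q) (hqb : q ≤ (5997557 / 2500000 : ℝ))
    (hpq : 1 < p * q) : NoSol 6 p q :=
  noSol_rect (n := 6) (by norm_num) (N := 6) (a := (18883 / 25000 : ℝ)) (b := (182303 / 250000 : ℝ))
    (τ := (1658251 / 2500000 : ℝ)) (A5 := (522391 / 1000000 : ℝ)) (A6 := (698739 / 1000000 : ℝ))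
    (A9 := (370541 / 500000 : ℝ)) (A10 := (546441 / 1000000 : ℝ)) (s := (5059 / 50000 : ℝ)) (e := (1 / 10000000 : ℝ))
    (pb := (526193 / 312500 : ℝ)) (qb := (5997557 / 2500000 : ℝ)) (by norm_num)
    (by norm_num) (by norm_num) (by norm_num) (by norm_num) (by norm_num) (by norm_num) (by norm_num)
    (by norm_num) (by norm_num)
    (by norm_num) (by norm_num) (by norm_num) (by norm_num) (by norm_num)
    rfl rfl rfl rfl rfl rfl (by norm_num) (by norm_num) (by norm_num) hp hpb hq hqb hpq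

theorem rowL6_83 {p q : ℝ} (hp : 0 < p) (hpb : p ≤ (16989227 / 10000000 : ℝ)) (hq : 0 < q) (hqb : q ≤ (2375293 / 1000000 : ℝ))
    (hpq : 1 < p * q) : NoSol 6 p q :=
  noSol_rect (n := 6) (by norm_num) (N := 6) (a := (756589 / 1000000 : ℝ)) (b := (14689 / 20000 : ℝ))
    (τ := (3397833 / 5000000 : ℝ)) (A5 := (521747 / 1000000 : ℝ)) (A6 := (700809 / 1000000 : ℝ))
    (A9 := (739037 / 1000000 : ℝ)) (A10 := (546089 / 1000000 : ℝ)) (s := (509 / 5000 : ℝ)) (e := (1 / 10000000 : ℝ))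
    (pb := (16989227 / 10000000 : ℝ)) (qb := (2375293 / 1000000 : ℝ)) (by norm_num)
    (by norm_num) (by norm_num) (by norm_num) (by norm_num) (by norm_num) (by norm_num) (by norm_num)
    (by norm_num) (by norm_num)
    (by norm_num) (by norm_num) (by norm_num) (by norm_num) (by norm_num)
    rfl rfl rfl rfl rfl rfl (by norm_num) (by norm_num) (by norm_num) hp hpb hq hqb hpq

theorem rowL6_84 {p q : ℝ} (hp : 0 < p) (hpb : p ≤ (1071411 / 625000 : ℝ)) (hq : 0 < q) (hqb : q ≤ (11758507 / 5000000 : ℝ))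
    (hpq : 1 < p * q) : NoSol 6 p q :=
  noSol_rect (n := 6) (by norm_num) (N := 6) (a := (757167 / 1000000 : ℝ)) (b := (183107 / 250000 : ℝ))
    (τ := (1725407 / 2500000 : ℝ)) (A5 := (528299 / 1000000 : ℝ)) (A6 := (139051 / 200000 : ℝ))
    (A9 := (184141 / 250000 : ℝ)) (A10 := (546949 / 1000000 : ℝ)) (s := (10279 / 100000 : ℝ)) (e := (1 / 10000000 : ℝ))
    (pb := (1071411 / 625000 : ℝ)) (qb := (11758507 / 5000000 : ℝ)) (by norm_num)
    (by norm_num) (by norm_num) (by norm_num) (by norm_num) (by norm_num) (by norm_num) (by norm_num)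
    (by norm_num) (by norm_num)
    (by norm_num) (by norm_num) (by norm_num) (by norm_num) (by norm_num)
    rfl rfl rfl rfl rfl rfl (by norm_num) (by norm_num) (by norm_num) hp hpb hq hqb hpq

theorem rowL6_85 {p q : ℝ} (hp : 0 < p) (hpb : p ≤ (8649481 / 5000000 : ℝ)) (hq : 0 < q) (hqb : q ≤ (23283489 / 10000000 : ℝ))
    (hpq : 1 < p * q) : NoSol 6 p q :=
  noSol_rect (n := 6) (by norm_num) (N := 6) (a := (47447 / 62500 : ℝ)) (b := (368979 / 500000 : ℝ))
    (τ := (7082433 / 10000000 : ℝ)) (A5 := (131379 / 250000 : ℝ)) (A6 := (700283 / 1000000 : ℝ))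
    (A9 := (18383 / 25000 : ℝ)) (A10 := (272467 / 500000 : ℝ)) (s := (323 / 3125 : ℝ)) (e := (1 / 10000000 : ℝ))
    (pb := (8649481 / 5000000 : ℝ)) (qb := (23283489 / 10000000 : ℝ)) (by norm_num)
    (by norm_num) (by norm_num) (by norm_num) (by norm_num) (by norm_num) (by norm_num) (by norm_num)
    (by norm_num) (by norm_num)
    (by norm_num) (by norm_num) (by norm_num) (by norm_num) (by norm_num)
    rfl rfl rfl rfl rfl rfl (by norm_num) (by norm_num) (by norm_num) hp hpb hq hqb hpq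

theorem rowL6_86 {p q : ℝ} (hp : 0 < p) (hpb : p ≤ (8728723 / 5000000 : ℝ)) (hq : 0 < q) (hqb : q ≤ (1440707 / 625000 : ℝ))
    (hpq : 1 < p * q) : NoSol 6 p q :=
  noSol_rect (n := 6) (by norm_num) (N := 6) (a := (19019 / 25000 : ℝ)) (b := (741947 / 1000000 : ℝ))
    (τ := (1443031 / 2000000 : ℝ)) (A5 := (262749 / 500000 : ℝ)) (A6 := (700847 / 1000000 : ℝ))
    (A9 := (737459 / 1000000 : ℝ)) (A10 := (33853 / 62500 : ℝ)) (s := (10373 / 100000 : ℝ)) (e := (1 / 10000000 : ℝ))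
    (pb := (8728723 / 5000000 : ℝ)) (qb := (1440707 / 625000 : ℝ)) (by norm_num)
    (by norm_num) (by norm_num) (by norm_num) (by norm_num) (by norm_num) (by norm_num) (by norm_num)
    (by norm_num) (by norm_num)
    (by norm_num) (by norm_num) (by norm_num) (by norm_num) (by norm_num)
    rfl rfl rfl rfl rfl rfl (by norm_num) (by norm_num) (by norm_num) hp hpb hq hqb hpq

theorem rowL6_87 {p q : ℝ} (hp : 0 < p) (hpb : p ≤ (8809321 / 5000000 : ℝ)) (hq : 0 < q) (hqb : q ≤ (4564389 / 2000000 : ℝ))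
    (hpq : 1 < p * q) : NoSol 6 p q :=
  noSol_rect (n := 6) (by norm_num) (N := 6) (a := (4691 / 6250 : ℝ)) (b := (2941 / 4000 : ℝ))
    (τ := (7419413 / 10000000 : ℝ)) (A5 := (262861 / 500000 : ℝ)) (A6 := (703807 / 1000000 : ℝ))
    (A9 := (365769 / 500000 : ℝ)) (A10 := (543347 / 1000000 : ℝ)) (s := (1059 / 10000 : ℝ)) (e := (1 / 10000000 : ℝ))
    (pb := (8809321 / 5000000 : ℝ)) (qb := (4564389 / 2000000 : ℝ)) (by norm_num)
    (by norm_num) (by norm_num) (by norm_num) (by norm_num) (by norm_num) (by norm_num) (by norm_num)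
    (by norm_num) (by norm_num)
    (by norm_num) (by norm_num) (by norm_num) (by norm_num) (by norm_num)
    rfl rfl rfl rfl rfl rfl (by norm_num) (by norm_num) (by norm_num) hp hpb hq hqb hpq

theorem rowL6_88 {p q : ℝ} (hp : 0 < p) (hpb : p ≤ (4445689 / 2500000 : ℝ)) (hq : 0 < q) (hqb : q ≤ (22594539 / 10000000 : ℝ))
    (hpq : 1 < p * q) : NoSol 6 p q :=
  noSol_rect (n := 6) (by norm_num) (N := 6) (a := (748363 / 1000000 : ℝ)) (b := (746677 / 1000000 : ℝ))
    (τ := (7520943 / 10000000 : ℝ)) (A5 := (66171 / 125000 : ℝ)) (A6 := (349701 / 500000 : ℝ))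
    (A9 := (734397 / 1000000 : ℝ)) (A10 := (16907 / 31250 : ℝ)) (s := (331 / 3125 : ℝ)) (e := (1 / 10000000 : ℝ))
    (pb := (4445689 / 2500000 : ℝ)) (qb := (22594539 / 10000000 : ℝ)) (by norm_num)
    (by norm_num) (by norm_num) (by norm_num) (by norm_num) (by norm_num) (by norm_num) (by norm_num)
    (by norm_num) (by norm_num)
    (by norm_num) (by norm_num) (by norm_num) (by norm_num) (by norm_num)
    rfl rfl rfl rfl rfl rfl (by norm_num) (by norm_num) (by norm_num) hp hpb hq hqb hpq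

theorem rowL6_89 {p q : ℝ} (hp : 0 < p) (hpb : p ≤ (17949403 / 10000000 : ℝ)) (hq : 0 < q) (hqb : q ≤ (11184443 / 5000000 : ℝ))
    (hpq : 1 < p * q) : NoSol 6 p q :=
  noSol_rect (n := 6) (by norm_num) (N := 6) (a := (30193 / 40000 : ℝ)) (b := (74857 / 100000 : ℝ))
    (τ := (1947037 / 2500000 : ℝ)) (A5 := (131803 / 250000 : ℝ)) (A6 := (352643 / 500000 : ℝ))
    (A9 := (725767 / 1000000 : ℝ)) (A10 := (27241 / 50000 : ℝ)) (s := (2683 / 25000 : ℝ)) (e := (1 / 10000000 : ℝ))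
    (pb := (17949403 / 10000000 : ℝ)) (qb := (11184443 / 5000000 : ℝ)) (by norm_num)
    (by norm_num) (by norm_num) (by norm_num) (by norm_num) (by norm_num) (by norm_num) (by norm_num)
    (by norm_num) (by norm_num)
    (by norm_num) (by norm_num) (by norm_num) (by norm_num) (by norm_num)
    rfl rfl rfl rfl rfl rfl (by norm_num) (by norm_num) (by norm_num) hp hpb hq hqb hpq

theorem rowL6_90 {p q : ℝ} (hp : 0 < p) (hpb : p ≤ (18118757 / 10000000 : ℝ)) (hq : 0 < q) (hqb : q ≤ (22145581 / 10000000 : ℝ))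
    (hpq : 1 < p * q) : NoSol 6 p q :=
  noSol_rect (n := 6) (by norm_num) (N := 6) (a := (74691 / 100000 : ℝ)) (b := (374291 / 500000 : ℝ))
    (τ := (8008481 / 10000000 : ℝ)) (A5 := (527823 / 1000000 : ℝ)) (A6 := (141317 / 200000 : ℝ))
    (A9 := (144073 / 200000 : ℝ)) (A10 := (21907 / 40000 : ℝ)) (s := (2183 / 20000 : ℝ)) (e := (1 / 10000000 : ℝ))
    (pb := (18118757 / 10000000 : ℝ)) (qb := (22145581 / 10000000 : ℝ)) (by norm_num)
    (by norm_num) (by norm_num) (by norm_num) (by norm_num) (by norm_num) (by norm_num) (by norm_num)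
    (by norm_num) (by norm_num)
    (by norm_num) (by norm_num) (by norm_num) (by norm_num) (by norm_num)
    rfl rfl rfl rfl rfl rfl (by norm_num) (by norm_num) (by norm_num) hp hpb hq hqb hpq

theorem rowL6_91 {p q : ℝ} (hp : 0 < p) (hpb : p ≤ (18291027 / 10000000 : ℝ)) (hq : 0 < q) (hqb : q ≤ (21924439 / 10000000 : ℝ))
    (hpq : 1 < p * q) : NoSol 6 p q :=
  noSol_rect (n := 6) (by norm_num) (N := 6) (a := (372561 / 500000 : ℝ)) (b := (15009 / 20000 : ℝ))
    (τ := (8149597 / 10000000 : ℝ)) (A5 := (530471 / 1000000 : ℝ)) (A6 := (2203 / 3125 : ℝ))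
    (A9 := (360461 / 500000 : ℝ)) (A10 := (545731 / 1000000 : ℝ)) (s := (11001 / 100000 : ℝ)) (e := (1 / 10000000 : ℝ))
    (pb := (18291027 / 10000000 : ℝ)) (qb := (21924439 / 10000000 : ℝ)) (by norm_num)
    (by norm_num) (by norm_num) (by norm_num) (by norm_num) (by norm_num) (by norm_num) (by norm_num)
    (by norm_num) (by norm_num)
    (by norm_num) (by norm_num) (by norm_num) (by norm_num) (by norm_num)
    rfl rfl rfl rfl rfl rfl (by norm_num) (by norm_num) (by norm_num) hp hpb hq hqb hpq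

theorem rowL6_92 {p q : ℝ} (hp : 0 < p) (hpb : p ≤ (18466129 / 10000000 : ℝ)) (hq : 0 < q) (hqb : q ≤ (86821 / 40000 : ℝ))
    (hpq : 1 < p * q) : NoSol 6 p q :=
  noSol_rect (n := 6) (by norm_num) (N := 6) (a := (744171 / 1000000 : ℝ)) (b := (11721 / 15625 : ℝ))
    (τ := (26017 / 31250 : ℝ)) (A5 := (106161 / 200000 : ℝ)) (A6 := (35279 / 50000 : ℝ))
    (A9 := (721077 / 1000000 : ℝ)) (A10 := (54423 / 100000 : ℝ)) (s := (5557 / 50000 : ℝ)) (e := (1 / 10000000 : ℝ))
    (pb := (18466129 / 10000000 : ℝ)) (qb := (86821 / 40000 : ℝ)) (by norm_num)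
    (by norm_num) (by norm_num) (by norm_num) (by norm_num) (by norm_num) (by norm_num) (by norm_num)
    (by norm_num) (by norm_num)
    (by norm_num) (by norm_num) (by norm_num) (by norm_num) (by norm_num)
    rfl rfl rfl rfl rfl rfl (by norm_num) (by norm_num) (by norm_num) hp hpb hq hqb hpq

theorem rowL6_93 {p q : ℝ} (hp : 0 < p) (hpb : p ≤ (9322039 / 5000000 : ℝ)) (hq : 0 < q) (hqb : q ≤ (2686023 / 1250000 : ℝ))
    (hpq : 1 < p * q) : NoSol 6 p q :=
  noSol_rect (n := 6) (by norm_num) (N := 6) (a := (14953 / 20000 : ℝ)) (b := (752041 / 1000000 : ℝ))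
    (τ := (4263027 / 5000000 : ℝ)) (A5 := (529483 / 1000000 : ℝ)) (A6 := (1769 / 2500 : ℝ))
    (A9 := (721281 / 1000000 : ℝ)) (A10 := (6787 / 12500 : ℝ)) (s := (2801 / 25000 : ℝ)) (e := (1 / 10000000 : ℝ))
    (pb := (9322039 / 5000000 : ℝ)) (qb := (2686023 / 1250000 : ℝ)) (by norm_num)
    (by norm_num) (by norm_num) (by norm_num) (by norm_num) (by norm_num) (by norm_num) (by norm_num)
    (by norm_num) (by norm_num)
    (by norm_num) (by norm_num) (by norm_num) (by norm_num) (by norm_num)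
    rfl rfl rfl rfl rfl rfl (by norm_num) (by norm_num) (by norm_num) hp hpb hq hqb hpq

theorem rowL6_94 {p q : ℝ} (hp : 0 < p) (hpb : p ≤ (18824619 / 10000000 : ℝ)) (hq : 0 < q) (hqb : q ≤ (850931 / 400000 : ℝ))
    (hpq : 1 < p * q) : NoSol 6 p q :=
  noSol_rect (n := 6) (by norm_num) (N := 6) (a := (373879 / 500000 : ℝ)) (b := (15047 / 20000 : ℝ))
    (τ := (8679289 / 10000000 : ℝ)) (A5 := (266199 / 500000 : ℝ)) (A6 := (353477 / 500000 : ℝ))
    (A9 := (360541 / 500000 : ℝ)) (A10 := (270281 / 500000 : ℝ)) (s := (11297 / 100000 : ℝ)) (e := (1 / 10000000 : ℝ))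
    (pb := (18824619 / 10000000 : ℝ)) (qb := (850931 / 400000 : ℝ)) (by norm_num)
    (by norm_num) (by norm_num) (by norm_num) (by norm_num) (by norm_num) (by norm_num) (by norm_num)
    (by norm_num) (by norm_num)
    (by norm_num) (by norm_num) (by norm_num) (by norm_num) (by norm_num)
    rfl rfl rfl rfl rfl rfl (by norm_num) (by norm_num) (by norm_num) hp hpb hq hqb hpq

theorem rowL6_95 {p q : ℝ} (hp : 0 < p) (hpb : p ≤ (19007983 / 10000000 : ℝ)) (hq : 0 < q) (hqb : q ≤ (2106087 / 1000000 : ℝ))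
    (hpq : 1 < p * q) : NoSol 6 p q :=
  noSol_rect (n := 6) (by norm_num) (N := 6) (a := (2334 / 3125 : ℝ)) (b := (375703 / 500000 : ℝ))
    (τ := (222023 / 250000 : ℝ)) (A5 := (266441 / 500000 : ℝ)) (A6 := (44311 / 62500 : ℝ))
    (A9 := (22487 / 31250 : ℝ)) (A10 := (53923 / 100000 : ℝ)) (s := (11427 / 100000 : ℝ)) (e := (1 / 10000000 : ℝ))
    (pb := (19007983 / 10000000 : ℝ)) (qb := (2106087 / 1000000 : ℝ)) (by norm_num)
    (by norm_num) (by norm_num) (by norm_num) (by norm_num) (by norm_num) (by norm_num) (by norm_num)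
    (by norm_num) (by norm_num)
    (by norm_num) (by norm_num) (by norm_num) (by norm_num) (by norm_num)
    rfl rfl rfl rfl rfl rfl (by norm_num) (by norm_num) (by norm_num) hp hpb hq hqb hpq

theorem rowL6_96 {p q : ℝ} (hp : 0 < p) (hpb : p ≤ (479841 / 250000 : ℝ)) (hq : 0 < q) (hqb : q ≤ (20850729 / 10000000 : ℝ))
    (hpq : 1 < p * q) : NoSol 6 p q :=
  noSol_rect (n := 6) (by norm_num) (N := 6) (a := (37213 / 50000 : ℝ)) (b := (186703 / 250000 : ℝ))
    (τ := (9116453 / 10000000 : ℝ)) (A5 := (531671 / 1000000 : ℝ)) (A6 := (28457 / 40000 : ℝ))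
    (A9 := (717953 / 1000000 : ℝ)) (A10 := (26967 / 50000 : ℝ)) (s := (11609 / 100000 : ℝ)) (e := (1 / 10000000 : ℝ))
    (pb := (479841 / 250000 : ℝ)) (qb := (20850729 / 10000000 : ℝ)) (by norm_num)
    (by norm_num) (by norm_num) (by norm_num) (by norm_num) (by norm_num) (by norm_num) (by norm_num)
    (by norm_num) (by norm_num)
    (by norm_num) (by norm_num) (by norm_num) (by norm_num) (by norm_num)
    rfl rfl rfl rfl rfl rfl (by norm_num) (by norm_num) (by norm_num) hp hpb hq hqb hpq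

theorem rowL6_97 {p q : ℝ} (hp : 0 < p) (hpb : p ≤ (3876441 / 2000000 : ℝ)) (hq : 0 < q) (hqb : q ≤ (1290217 / 625000 : ℝ))
    (hpq : 1 < p * q) : NoSol 6 p q :=
  noSol_rect (n := 6) (by norm_num) (N := 6) (a := (148999 / 200000 : ℝ)) (b := (748623 / 1000000 : ℝ))
    (τ := (9306781 / 10000000 : ℝ)) (A5 := (532697 / 1000000 : ℝ)) (A6 := (44459 / 62500 : ℝ))
    (A9 := (71823 / 100000 : ℝ)) (A10 := (537973 / 1000000 : ℝ)) (s := (1171 / 10000 : ℝ)) (e := (1 / 10000000 : ℝ))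
    (pb := (3876441 / 2000000 : ℝ)) (qb := (1290217 / 625000 : ℝ)) (by norm_num)
    (by norm_num) (by norm_num) (by norm_num) (by norm_num) (by norm_num) (by norm_num) (by norm_num)
    (by norm_num) (by norm_num)
    (by norm_num) (by norm_num) (by norm_num) (by norm_num) (by norm_num)
    rfl rfl rfl rfl rfl rfl (by norm_num) (by norm_num) (by norm_num) hp hpb hq hqb hpq

theorem rowL6_98 {p q : ℝ} (hp : 0 < p) (hpb : p ≤ (4893337 / 2500000 : ℝ)) (hq : 0 < q) (hqb : q ≤ (20438427 / 10000000 : ℝ))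
    (hpq : 1 < p * q) : NoSol 6 p q :=
  noSol_rect (n := 6) (by norm_num) (N := 6) (a := (744949 / 1000000 : ℝ)) (b := (748801 / 1000000 : ℝ))
    (τ := (1188759 / 1250000 : ℝ)) (A5 := (33351 / 62500 : ℝ)) (A6 := (711343 / 1000000 : ℝ))
    (A9 := (717981 / 1000000 : ℝ)) (A10 := (537173 / 1000000 : ℝ)) (s := (2959 / 25000 : ℝ)) (e := (1 / 10000000 : ℝ))
    (pb := (4893337 / 2500000 : ℝ)) (qb := (20438427 / 10000000 : ℝ)) (by norm_num)
    (by norm_num) (by norm_num) (by norm_num) (by norm_num) (by norm_num) (by norm_num) (by norm_num)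
    (by norm_num) (by norm_num)
    (by norm_num) (by norm_num) (by norm_num) (by norm_num) (by norm_num)
    rfl rfl rfl rfl rfl rfl (by norm_num) (by norm_num) (by norm_num) hp hpb hq hqb hpq

theorem rowL6_99 {p q : ℝ} (hp : 0 < p) (hpb : p ≤ (3953301 / 2000000 : ℝ)) (hq : 0 < q) (hqb : q ≤ (2529497 / 1250000 : ℝ))
    (hpq : 1 < p * q) : NoSol 6 p q :=
  noSol_rect (n := 6) (by norm_num) (N := 6) (a := (746591 / 1000000 : ℝ)) (b := (371321 / 500000 : ℝ))
    (τ := (9731513 / 10000000 : ℝ)) (A5 := (133193 / 250000 : ℝ)) (A6 := (44673 / 62500 : ℝ))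
    (A9 := (358957 / 500000 : ℝ)) (A10 := (534527 / 1000000 : ℝ)) (s := (11981 / 100000 : ℝ)) (e := (1 / 10000000 : ℝ))
    (pb := (3953301 / 2000000 : ℝ)) (qb := (2529497 / 1250000 : ℝ)) (by norm_num)
    (by norm_num) (by norm_num) (by norm_num) (by norm_num) (by norm_num) (by norm_num) (by norm_num)
    (by norm_num) (by norm_num)
    (by norm_num) (by norm_num) (by norm_num) (by norm_num) (by norm_num)
    rfl rfl rfl rfl rfl rfl (by norm_num) (by norm_num) (by norm_num) hp hpb hq hqb hpq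

theorem rowL6_100 {p q : ℝ} (hp : 0 < p) (hpb : p ≤ (3992489 / 2000000 : ℝ)) (hq : 0 < q) (hqb : q ≤ (20036699 / 10000000 : ℝ))
    (hpq : 1 < p * q) : NoSol 6 p q :=
  noSol_rect (n := 6) (by norm_num) (N := 6) (a := (149089 / 200000 : ℝ)) (b := (744251 / 1000000 : ℝ))
    (τ := (4977181 / 5000000 : ℝ)) (A5 := (534319 / 1000000 : ℝ)) (A6 := (89383 / 125000 : ℝ))
    (A9 := (28641 / 40000 : ℝ)) (A10 := (534539 / 1000000 : ℝ)) (s := (303 / 2500 : ℝ)) (e := (1 / 10000000 : ℝ))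
    (pb := (3992489 / 2000000 : ℝ)) (qb := (20036699 / 10000000 : ℝ)) (by norm_num)
    (by norm_num) (by norm_num) (by norm_num) (by norm_num) (by norm_num) (by norm_num) (by norm_num)
    (by norm_num) (by norm_num)
    (by norm_num) (by norm_num) (by norm_num) (by norm_num) (by norm_num)
    rfl rfl rfl rfl rfl rfl (by norm_num) (by norm_num) (by norm_num) hp hpb hq hqb hpq

end Vale.Agent.Lib.P100
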