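import Vale.Agent.Lib.P100.Cover

/-!
Rational certificates, dimension 7.
-/

namespace Vale.Agent.Lib.P100

theorem rowL7_0 {p q : ℝ} (hp : 0 < p) (hpb : p ≤ (7636467 / 10000000 : ℝ)) (hq : 0 < q) (hqb : q ≤ (57142863 / 10000000 : ℝ))
    (hpq : 1 < p * q) : NoSol 7 p q :=
  noSol_rect (n := 7) (by norm_num) (N := 7) (a := (387277 / 500000 : ℝ)) (b := (358899 / 500000 : ℝ))
    (τ := (969847 / 10000000 : ℝ)) (A5 := (60793 / 125000 : ℝ)) (A6 := (10554 / 15625 : ℝ))
    (A9 := (3513 / 4000 : ℝ)) (A10 := (602911 / 1000000 : ℝ)) (s := (2953 / 50000 : ℝ)) (e := (1 / 10000000 : ℝ))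
    (pb := (7636467 / 10000000 : ℝ)) (qb := (57142863 / 10000000 : ℝ)) (by norm_num)
    (by norm_num) (by norm_num) (by norm_num) (by norm_num) (by norm_num) (by norm_num) (by norm_num)
    (by norm_num) (by norm_num)
    (by norm_num) (by norm_num) (by norm_num) (by norm_num) (by norm_num)
    rfl rfl rfl rfl rfl rfl (by norm_num) (by norm_num) (by norm_num) hp hpb hq hqb hpq

theorem rowL7_1 {p q : ℝ} (hp : 0 < p) (hpb : p ≤ (1530571 / 2000000 : ℝ)) (hq : 0 < q) (hqb : q ≤ (5697697 / 1000000 : ℝ))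
    (hpq : 1 < p * q) : NoSol 7 p q :=
  noSol_rect (n := 7) (by norm_num) (N := 7) (a := (394909 / 500000 : ℝ)) (b := (178239 / 250000 : ℝ))
    (τ := (958581 / 10000000 : ℝ)) (A5 := (487529 / 1000000 : ℝ)) (A6 := (336969 / 500000 : ℝ))
    (A9 := (893487 / 1000000 : ℝ)) (A10 := (118497 / 200000 : ℝ)) (s := (1481 / 25000 : ℝ)) (e := (1 / 10000000 : ℝ))
    (pb := (1530571 / 2000000 : ℝ)) (qb := (5697697 / 1000000 : ℝ)) (by norm_num)
    (by norm_num) (by norm_num) (by norm_num) (by norm_num) (by norm_num) (by norm_num) (by norm_num)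
    (by norm_num) (by norm_num)
    (by norm_num) (by norm_num) (by norm_num) (by norm_num) (by norm_num)
    rfl rfl rfl rfl rfl rfl (by norm_num) (by norm_num) (by norm_num) hp hpb hq hqb hpq

theorem rowL7_2 {p q : ℝ} (hp : 0 < p) (hpb : p ≤ (7671331 / 10000000 : ℝ)) (hq : 0 < q) (hqb : q ≤ (5674167 / 1000000 : ℝ))
    (hpq : 1 < p * q) : NoSol 7 p q :=
  noSol_rect (n := 7) (by norm_num) (N := 7) (a := (788773 / 1000000 : ℝ)) (b := (713851 / 1000000 : ℝ))
    (τ := (478641 / 5000000 : ℝ)) (A5 := (246591 / 500000 : ℝ)) (A6 := (333861 / 500000 : ℝ))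
    (A9 := (179463 / 200000 : ℝ)) (A10 := (147929 / 250000 : ℝ)) (s := (1471 / 25000 : ℝ)) (e := (1 / 10000000 : ℝ))
    (pb := (7671331 / 10000000 : ℝ)) (qb := (5674167 / 1000000 : ℝ)) (by norm_num)
    (by norm_num) (by norm_num) (by norm_num) (by norm_num) (by norm_num) (by norm_num) (by norm_num)
    (by norm_num) (by norm_num)
    (by norm_num) (by norm_num) (by norm_num) (by norm_num) (by norm_num)
    rfl rfl rfl rfl rfl rfl (by norm_num) (by norm_num) (by norm_num) hp hpb hq hqb hpq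

theorem rowL7_3 {p q : ℝ} (hp : 0 < p) (hpb : p ≤ (3845277 / 5000000 : ℝ)) (hq : 0 < q) (hqb : q ≤ (56478883 / 10000000 : ℝ))
    (hpq : 1 < p * q) : NoSol 7 p q :=
  noSol_rect (n := 7) (by norm_num) (N := 7) (a := (16009 / 20000 : ℝ)) (b := (709259 / 1000000 : ℝ))
    (τ := (482021 / 5000000 : ℝ)) (A5 := (246087 / 500000 : ℝ)) (A6 := (167123 / 250000 : ℝ))
    (A9 := (449159 / 500000 : ℝ)) (A10 := (589329 / 1000000 : ℝ)) (s := (5939 / 100000 : ℝ)) (e := (1 / 10000000 : ℝ))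
    (pb := (3845277 / 5000000 : ℝ)) (qb := (56478883 / 10000000 : ℝ)) (by norm_num)
    (by norm_num) (by norm_num) (by norm_num) (by norm_num) (by norm_num) (by norm_num) (by norm_num)
    (by norm_num) (by norm_num)
    (by norm_num) (by norm_num) (by norm_num) (by norm_num) (by norm_num)
    rfl rfl rfl rfl rfl rfl (by norm_num) (by norm_num) (by norm_num) hp hpb hq hqb hpq

theorem rowL7_4 {p q : ℝ} (hp : 0 < p) (hpb : p ≤ (60234 / 78125 : ℝ)) (hq : 0 < q) (hqb : q ≤ (28104117 / 5000000 : ℝ))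
    (hpq : 1 < p * q) : NoSol 7 p q :=
  noSol_rect (n := 7) (by norm_num) (N := 7) (a := (793939 / 1000000 : ℝ)) (b := (177533 / 250000 : ℝ))
    (τ := (244113 / 2500000 : ℝ)) (A5 := (97641 / 200000 : ℝ)) (A6 := (26923 / 40000 : ℝ))
    (A9 := (895461 / 1000000 : ℝ)) (A10 := (146769 / 250000 : ℝ)) (s := (187 / 3125 : ℝ)) (e := (1 / 10000000 : ℝ))
    (pb := (60234 / 78125 : ℝ)) (qb := (28104117 / 5000000 : ℝ)) (by norm_num)
    (by norm_num) (by norm_num) (by norm_num) (by norm_num) (by norm_num) (by norm_num) (by norm_num)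
    (by norm_num) (by norm_num)
    (by norm_num) (by norm_num) (by norm_num) (by norm_num) (by norm_num)
    rfl rfl rfl rfl rfl rfl (by norm_num) (by norm_num) (by norm_num) hp hpb hq hqb hpq

theorem rowL7_5 {p q : ℝ} (hp : 0 < p) (hpb : p ≤ (3866923 / 5000000 : ℝ)) (hq : 0 < q) (hqb : q ≤ (27968967 / 5000000 : ℝ))
    (hpq : 1 < p * q) : NoSol 7 p q :=
  noSol_rect (n := 7) (by norm_num) (N := 7) (a := (194699 / 250000 : ℝ)) (b := (180527 / 250000 : ℝ))
    (τ := (189577 / 2000000 : ℝ)) (A5 := (247969 / 500000 : ℝ)) (A6 := (166149 / 250000 : ℝ))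
    (A9 := (231369 / 250000 : ℝ)) (A10 := (569167 / 1000000 : ℝ)) (s := (5729 / 100000 : ℝ)) (e := (1 / 10000000 : ℝ))
    (pb := (3866923 / 5000000 : ℝ)) (qb := (27968967 / 5000000 : ℝ)) (by norm_num)
    (by norm_num) (by norm_num) (by norm_num) (by norm_num) (by norm_num) (by norm_num) (by norm_num)
    (by norm_num) (by norm_num)
    (by norm_num) (by norm_num) (by norm_num) (by norm_num) (by norm_num)
    rfl rfl rfl rfl rfl rfl (by norm_num) (by norm_num) (by norm_num) hp hpb hq hqb hpq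

theorem rowL7_6 {p q : ℝ} (hp : 0 < p) (hpb : p ≤ (1939443 / 2500000 : ℝ)) (hq : 0 < q) (hqb : q ≤ (11121761 / 2000000 : ℝ))
    (hpq : 1 < p * q) : NoSol 7 p q :=
  noSol_rect (n := 7) (by norm_num) (N := 7) (a := (762511 / 1000000 : ℝ)) (b := (363529 / 500000 : ℝ))
    (τ := (486873 / 5000000 : ℝ)) (A5 := (498239 / 1000000 : ℝ)) (A6 := (165549 / 250000 : ℝ))
    (A9 := (453571 / 500000 : ℝ)) (A10 := (290439 / 500000 : ℝ)) (s := (5701 / 100000 : ℝ)) (e := (1 / 10000000 : ℝ))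
    (pb := (1939443 / 2500000 : ℝ)) (qb := (11121761 / 2000000 : ℝ)) (by norm_num)
    (by norm_num) (by norm_num) (by norm_num) (by norm_num) (by norm_num) (by norm_num) (by norm_num)
    (by norm_num) (by norm_num)
    (by norm_num) (by norm_num) (by norm_num) (by norm_num) (by norm_num)
    rfl rfl rfl rfl rfl rfl (by norm_num) (by norm_num) (by norm_num) hp hpb hq hqb hpq

theorem rowL7_7 {p q : ℝ} (hp : 0 < p) (hpb : p ≤ (972823 / 1250000 : ℝ)) (hq : 0 < q) (hqb : q ≤ (27641693 / 5000000 : ℝ))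
    (hpq : 1 < p * q) : NoSol 7 p q :=
  noSol_rect (n := 7) (by norm_num) (N := 7) (a := (762253 / 1000000 : ℝ)) (b := (364683 / 500000 : ℝ))
    (τ := (977819 / 10000000 : ℝ)) (A5 := (99769 / 200000 : ℝ)) (A6 := (661553 / 1000000 : ℝ))
    (A9 := (911051 / 1000000 : ℝ)) (A10 := (576383 / 1000000 : ℝ)) (s := (176 / 3125 : ℝ)) (e := (1 / 10000000 : ℝ))
    (pb := (972823 / 1250000 : ℝ)) (qb := (27641693 / 5000000 : ℝ)) (by norm_num)
    (by norm_num) (by norm_num) (by norm_num) (by norm_num) (by norm_num) (by norm_num) (by norm_num)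
    (by norm_num) (by norm_num)
    (by norm_num) (by norm_num) (by norm_num) (by norm_num) (by norm_num)
    rfl rfl rfl rfl rfl rfl (by norm_num) (by norm_num) (by norm_num) hp hpb hq hqb hpq

theorem rowL7_8 {p q : ℝ} (hp : 0 < p) (hpb : p ≤ (7809063 / 10000000 : ℝ)) (hq : 0 < q) (hqb : q ≤ (54950219 / 10000000 : ℝ))
    (hpq : 1 < p * q) : NoSol 7 p q :=
  noSol_rect (n := 7) (by norm_num) (N := 7) (a := (23881 / 31250 : ℝ)) (b := (362273 / 500000 : ℝ))
    (τ := (245677 / 2500000 : ℝ)) (A5 := (503879 / 1000000 : ℝ)) (A6 := (655997 / 1000000 : ℝ))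
    (A9 := (456001 / 500000 : ℝ)) (A10 := (288337 / 500000 : ℝ)) (s := (1149 / 20000 : ℝ)) (e := (1 / 10000000 : ℝ))
    (pb := (7809063 / 10000000 : ℝ)) (qb := (54950219 / 10000000 : ℝ)) (by norm_num)
    (by norm_num) (by norm_num) (by norm_num) (by norm_num) (by norm_num) (by norm_num) (by norm_num)
    (by norm_num) (by norm_num)
    (by norm_num) (by norm_num) (by norm_num) (by norm_num) (by norm_num)
    rfl rfl rfl rfl rfl rfl (by norm_num) (by norm_num) (by norm_num) hp hpb hq hqb hpq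

theorem rowL7_9 {p q : ℝ} (hp : 0 < p) (hpb : p ≤ (3918117 / 5000000 : ℝ)) (hq : 0 < q) (hqb : q ≤ (54599407 / 10000000 : ℝ))
    (hpq : 1 < p * q) : NoSol 7 p q :=
  noSol_rect (n := 7) (by norm_num) (N := 7) (a := (152267 / 200000 : ℝ)) (b := (181557 / 250000 : ℝ))
    (τ := (19931 / 200000 : ℝ)) (A5 := (502937 / 1000000 : ℝ)) (A6 := (656971 / 1000000 : ℝ))
    (A9 := (908703 / 1000000 : ℝ)) (A10 := (57631 / 100000 : ℝ)) (s := (1431 / 25000 : ℝ)) (e := (1 / 10000000 : ℝ))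
    (pb := (3918117 / 5000000 : ℝ)) (qb := (54599407 / 10000000 : ℝ)) (by norm_num)
    (by norm_num) (by norm_num) (by norm_num) (by norm_num) (by norm_num) (by norm_num) (by norm_num)
    (by norm_num) (by norm_num)
    (by norm_num) (by norm_num) (by norm_num) (by norm_num) (by norm_num)
    rfl rfl rfl rfl rfl rfl (by norm_num) (by norm_num) (by norm_num) hp hpb hq hqb hpq

theorem rowL7_10 {p q : ℝ} (hp : 0 < p) (hpb : p ≤ (1572857 / 2000000 : ℝ)) (hq : 0 < q) (hqb : q ≤ (5424441 / 1000000 : ℝ))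
    (hpq : 1 < p * q) : NoSol 7 p q :=
  noSol_rect (n := 7) (by norm_num) (N := 7) (a := (190567 / 250000 : ℝ)) (b := (36369 / 50000 : ℝ))
    (τ := (501941 / 5000000 : ℝ)) (A5 := (504073 / 1000000 : ℝ)) (A6 := (655757 / 1000000 : ℝ))
    (A9 := (182059 / 200000 : ℝ)) (A10 := (286763 / 500000 : ℝ)) (s := (1419 / 25000 : ℝ)) (e := (1 / 10000000 : ℝ))
    (pb := (1572857 / 2000000 : ℝ)) (qb := (5424441 / 1000000 : ℝ)) (by norm_num)
    (by norm_num) (by norm_num) (by norm_num) (by norm_num) (by norm_num) (by norm_num) (by norm_num)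
    (by norm_num) (by norm_num)
    (by norm_num) (by norm_num) (by norm_num) (by norm_num) (by norm_num)
    rfl rfl rfl rfl rfl rfl (by norm_num) (by norm_num) (by norm_num) hp hpb hq hqb hpq

theorem rowL7_11 {p q : ℝ} (hp : 0 < p) (hpb : p ≤ (3946607 / 5000000 : ℝ)) (hq : 0 < q) (hqb : q ≤ (53883099 / 10000000 : ℝ))
    (hpq : 1 < p * q) : NoSol 7 p q :=
  noSol_rect (n := 7) (by norm_num) (N := 7) (a := (152697 / 200000 : ℝ)) (b := (363223 / 500000 : ℝ))
    (τ := (12723 / 125000 : ℝ)) (A5 := (251529 / 500000 : ℝ)) (A6 := (328409 / 500000 : ℝ))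
    (A9 := (907687 / 1000000 : ℝ)) (A10 := (572593 / 1000000 : ℝ)) (s := (5699 / 100000 : ℝ)) (e := (1 / 10000000 : ℝ))
    (pb := (3946607 / 5000000 : ℝ)) (qb := (53883099 / 10000000 : ℝ)) (by norm_num)
    (by norm_num) (by norm_num) (by norm_num) (by norm_num) (by norm_num) (by norm_num) (by norm_num)
    (by norm_num) (by norm_num)
    (by norm_num) (by norm_num) (by norm_num) (by norm_num) (by norm_num)
    rfl rfl rfl rfl rfl rfl (by norm_num) (by norm_num) (by norm_num) hp hpb hq hqb hpq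

theorem rowL7_12 {p q : ℝ} (hp : 0 < p) (hpb : p ≤ (7922533 / 10000000 : ℝ)) (hq : 0 < q) (hqb : q ≤ (26757939 / 5000000 : ℝ))
    (hpq : 1 < p * q) : NoSol 7 p q :=
  noSol_rect (n := 7) (by norm_num) (N := 7) (a := (748141 / 1000000 : ℝ)) (b := (366981 / 500000 : ℝ))
    (τ := (506593 / 5000000 : ℝ)) (A5 := (254037 / 500000 : ℝ)) (A6 := (81397 / 125000 : ℝ))
    (A9 := (459077 / 500000 : ℝ)) (A10 := (282929 / 500000 : ℝ)) (s := (5609 / 100000 : ℝ)) (e := (1 / 10000000 : ℝ))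
    (pb := (7922533 / 10000000 : ℝ)) (qb := (26757939 / 5000000 : ℝ)) (by norm_num)
    (by norm_num) (by norm_num) (by norm_num) (by norm_num) (by norm_num) (by norm_num) (by norm_num)
    (by norm_num) (by norm_num)
    (by norm_num) (by norm_num) (by norm_num) (by norm_num) (by norm_num)
    rfl rfl rfl rfl rfl rfl (by norm_num) (by norm_num) (by norm_num) hp hpb hq hqb hpq

theorem rowL7_13 {p q : ℝ} (hp : 0 < p) (hpb : p ≤ (159031 / 200000 : ℝ)) (hq : 0 < q) (hqb : q ≤ (53149177 / 10000000 : ℝ))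
    (hpq : 1 < p * q) : NoSol 7 p q :=
  noSol_rect (n := 7) (by norm_num) (N := 7) (a := (73999 / 100000 : ℝ)) (b := (366581 / 500000 : ℝ))
    (τ := (32239 / 312500 : ℝ)) (A5 := (512033 / 1000000 : ℝ)) (A6 := (161589 / 250000 : ℝ))
    (A9 := (28401 / 31250 : ℝ)) (A10 := (572769 / 1000000 : ℝ)) (s := (5699 / 100000 : ℝ)) (e := (1 / 10000000 : ℝ))
    (pb := (159031 / 200000 : ℝ)) (qb := (53149177 / 10000000 : ℝ)) (by norm_num)
    (by norm_num) (by norm_num) (by norm_num) (by norm_num) (by norm_num) (by norm_num) (by norm_num)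
    (by norm_num) (by norm_num)
    (by norm_num) (by norm_num) (by norm_num) (by norm_num) (by norm_num)
    rfl rfl rfl rfl rfl rfl (by norm_num) (by norm_num) (by norm_num) hp hpb hq hqb hpq

theorem rowL7_14 {p q : ℝ} (hp : 0 < p) (hpb : p ≤ (3990497 / 5000000 : ℝ)) (hq : 0 < q) (hqb : q ≤ (52791559 / 10000000 : ℝ))
    (hpq : 1 < p * q) : NoSol 7 p q :=
  noSol_rect (n := 7) (by norm_num) (N := 7) (a := (184747 / 250000 : ℝ)) (b := (732373 / 1000000 : ℝ))
    (τ := (1044621 / 10000000 : ℝ)) (A5 := (128019 / 250000 : ℝ)) (A6 := (323057 / 500000 : ℝ))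
    (A9 := (906861 / 1000000 : ℝ)) (A10 := (57209 / 100000 : ℝ)) (s := (5737 / 100000 : ℝ)) (e := (1 / 10000000 : ℝ))
    (pb := (3990497 / 5000000 : ℝ)) (qb := (52791559 / 10000000 : ℝ)) (by norm_num)
    (by norm_num) (by norm_num) (by norm_num) (by norm_num) (by norm_num) (by norm_num) (by norm_num)
    (by norm_num) (by norm_num)
    (by norm_num) (by norm_num) (by norm_num) (by norm_num) (by norm_num)
    rfl rfl rfl rfl rfl rfl (by norm_num) (by norm_num) (by norm_num) hp hpb hq hqb hpq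

theorem rowL7_15 {p q : ℝ} (hp : 0 < p) (hpb : p ≤ (1001507 / 1250000 : ℝ)) (hq : 0 < q) (hqb : q ≤ (26216977 / 5000000 : ℝ))
    (hpq : 1 < p * q) : NoSol 7 p q :=
  noSol_rect (n := 7) (by norm_num) (N := 7) (a := (740159 / 1000000 : ℝ)) (b := (146581 / 200000 : ℝ))
    (τ := (1061121 / 10000000 : ℝ)) (A5 := (507243 / 1000000 : ℝ)) (A6 := (651297 / 1000000 : ℝ))
    (A9 := (181107 / 200000 : ℝ)) (A10 := (142087 / 250000 : ℝ)) (s := (5739 / 100000 : ℝ)) (e := (1 / 10000000 : ℝ))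
    (pb := (1001507 / 1250000 : ℝ)) (qb := (26216977 / 5000000 : ℝ)) (by norm_num)
    (by norm_num) (by norm_num) (by norm_num) (by norm_num) (by norm_num) (by norm_num) (by norm_num)
    (by norm_num) (by norm_num)
    (by norm_num) (by norm_num) (by norm_num) (by norm_num) (by norm_num)
    rfl rfl rfl rfl rfl rfl (by norm_num) (by norm_num) (by norm_num) hp hpb hq hqb hpq

theorem rowL7_16 {p q : ℝ} (hp : 0 < p) (hpb : p ≤ (1608867 / 2000000 : ℝ)) (hq : 0 < q) (hqb : q ≤ (13015583 / 2500000 : ℝ))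
    (hpq : 1 < p * q) : NoSol 7 p q :=
  noSol_rect (n := 7) (by norm_num) (N := 7) (a := (742969 / 1000000 : ℝ)) (b := (183713 / 250000 : ℝ))
    (τ := (535759 / 5000000 : ℝ)) (A5 := (507209 / 1000000 : ℝ)) (A6 := (651779 / 1000000 : ℝ))
    (A9 := (226563 / 250000 : ℝ)) (A10 := (141211 / 250000 : ℝ)) (s := (113 / 2000 : ℝ)) (e := (1 / 10000000 : ℝ))
    (pb := (1608867 / 2000000 : ℝ)) (qb := (13015583 / 2500000 : ℝ)) (by norm_num)
    (by norm_num) (by norm_num) (by norm_num) (by norm_num) (by norm_num) (by norm_num) (by norm_num)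
    (by norm_num) (by norm_num)
    (by norm_num) (by norm_num) (by norm_num) (by norm_num) (by norm_num)
    rfl rfl rfl rfl rfl rfl (by norm_num) (by norm_num) (by norm_num) hp hpb hq hqb hpq

theorem rowL7_17 {p q : ℝ} (hp : 0 < p) (hpb : p ≤ (1009663 / 1250000 : ℝ)) (hq : 0 < q) (hqb : q ≤ (2584107 / 500000 : ℝ))
    (hpq : 1 < p * q) : NoSol 7 p q :=
  noSol_rect (n := 7) (by norm_num) (N := 7) (a := (742437 / 1000000 : ℝ)) (b := (734987 / 1000000 : ℝ))
    (τ := (13571 / 125000 : ℝ)) (A5 := (101611 / 200000 : ℝ)) (A6 := (130171 / 200000 : ℝ))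
    (A9 := (903939 / 1000000 : ℝ)) (A10 := (564449 / 1000000 : ℝ)) (s := (113 / 2000 : ℝ)) (e := (1 / 10000000 : ℝ))
    (pb := (1009663 / 1250000 : ℝ)) (qb := (2584107 / 500000 : ℝ)) (by norm_num)
    (by norm_num) (by norm_num) (by norm_num) (by norm_num) (by norm_num) (by norm_num) (by norm_num)
    (by norm_num) (by norm_num)
    (by norm_num) (by norm_num) (by norm_num) (by norm_num) (by norm_num)
    rfl rfl rfl rfl rfl rfl (by norm_num) (by norm_num) (by norm_num) hp hpb hq hqb hpq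

theorem rowL7_18 {p q : ℝ} (hp : 0 < p) (hpb : p ≤ (4055437 / 5000000 : ℝ)) (hq : 0 < q) (hqb : q ≤ (2051999 / 400000 : ℝ))
    (hpq : 1 < p * q) : NoSol 7 p q :=
  noSol_rect (n := 7) (by norm_num) (N := 7) (a := (371871 / 500000 : ℝ)) (b := (735771 / 1000000 : ℝ))
    (τ := (1103829 / 10000000 : ℝ)) (A5 := (503471 / 1000000 : ℝ)) (A6 := (655851 / 1000000 : ℝ))
    (A9 := (902317 / 1000000 : ℝ)) (A10 := (56073 / 100000 : ℝ)) (s := (141 / 2500 : ℝ)) (e := (1 / 10000000 : ℝ))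
    (pb := (4055437 / 5000000 : ℝ)) (qb := (2051999 / 400000 : ℝ)) (by norm_num)
    (by norm_num) (by norm_num) (by norm_num) (by norm_num) (by norm_num) (by norm_num) (by norm_num)
    (by norm_num) (by norm_num)
    (by norm_num) (by norm_num) (by norm_num) (by norm_num) (by norm_num)
    rfl rfl rfl rfl rfl rfl (by norm_num) (by norm_num) (by norm_num) hp hpb hq hqb hpq

theorem rowL7_19 {p q : ℝ} (hp : 0 < p) (hpb : p ≤ (407231 / 500000 : ℝ)) (hq : 0 < q) (hqb : q ≤ (25458541 / 5000000 : ℝ))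
    (hpq : 1 < p * q) : NoSol 7 p q :=
  noSol_rect (n := 7) (by norm_num) (N := 7) (a := (37529 / 50000 : ℝ)) (b := (146261 / 200000 : ℝ))
    (τ := (562697 / 5000000 : ℝ)) (A5 := (249111 / 500000 : ℝ)) (A6 := (661573 / 1000000 : ℝ))
    (A9 := (449393 / 500000 : ℝ)) (A10 := (558063 / 1000000 : ℝ)) (s := (717 / 12500 : ℝ)) (e := (1 / 10000000 : ℝ))
    (pb := (407231 / 500000 : ℝ)) (qb := (25458541 / 5000000 : ℝ)) (by norm_num)
    (by norm_num) (by norm_num) (by norm_num) (by norm_num) (by norm_num) (by norm_num) (by norm_num)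
    (by norm_num) (by norm_num)
    (by norm_num) (by norm_num) (by norm_num) (by norm_num) (by norm_num)
    rfl rfl rfl rfl rfl rfl (by norm_num) (by norm_num) (by norm_num) hp hpb hq hqb hpq

theorem rowL7_20 {p q : ℝ} (hp : 0 < p) (hpb : p ≤ (2044921 / 2500000 : ℝ)) (hq : 0 < q) (hqb : q ≤ (50538373 / 10000000 : ℝ))
    (hpq : 1 < p * q) : NoSol 7 p q :=
  noSol_rect (n := 7) (by norm_num) (N := 7) (a := (793013 / 1000000 : ℝ)) (b := (356787 / 500000 : ℝ))
    (τ := (115201 / 1000000 : ℝ)) (A5 := (99919 / 200000 : ℝ)) (A6 := (659769 / 1000000 : ℝ))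
    (A9 := (887761 / 1000000 : ℝ)) (A10 := (564677 / 1000000 : ℝ)) (s := (5859 / 100000 : ℝ)) (e := (1 / 10000000 : ℝ))
    (pb := (2044921 / 2500000 : ℝ)) (qb := (50538373 / 10000000 : ℝ)) (by norm_num)
    (by norm_num) (by norm_num) (by norm_num) (by norm_num) (by norm_num) (by norm_num) (by norm_num)
    (by norm_num) (by norm_num)
    (by norm_num) (by norm_num) (by norm_num) (by norm_num) (by norm_num)
    rfl rfl rfl rfl rfl rfl (by norm_num) (by norm_num) (by norm_num) hp hpb hq hqb hpq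

theorem rowL7_21 {p q : ℝ} (hp : 0 < p) (hpb : p ≤ (1642833 / 2000000 : ℝ)) (hq : 0 < q) (hqb : q ≤ (50151291 / 10000000 : ℝ))
    (hpq : 1 < p * q) : NoSol 7 p q :=
  noSol_rect (n := 7) (by norm_num) (N := 7) (a := (393561 / 500000 : ℝ)) (b := (718517 / 1000000 : ℝ))
    (τ := (1151009 / 10000000 : ℝ)) (A5 := (6241 / 12500 : ℝ)) (A6 := (8253 / 12500 : ℝ))
    (A9 := (449453 / 500000 : ℝ)) (A10 := (22151 / 40000 : ℝ)) (s := (5777 / 100000 : ℝ)) (e := (1 / 10000000 : ℝ))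
    (pb := (1642833 / 2000000 : ℝ)) (qb := (50151291 / 10000000 : ℝ)) (by norm_num)
    (by norm_num) (by norm_num) (by norm_num) (by norm_num) (by norm_num) (by norm_num) (by norm_num)
    (by norm_num) (by norm_num)
    (by norm_num) (by norm_num) (by norm_num) (by norm_num) (by norm_num)
    rfl rfl rfl rfl rfl rfl (by norm_num) (by norm_num) (by norm_num) hp hpb hq hqb hpq

theorem rowL7_22 {p q : ℝ} (hp : 0 < p) (hpb : p ≤ (1031107 / 1250000 : ℝ)) (hq : 0 < q) (hqb : q ≤ (12444217 / 2500000 : ℝ))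
    (hpq : 1 < p * q) : NoSol 7 p q :=
  noSol_rect (n := 7) (by norm_num) (N := 7) (a := (4917 / 6250 : ℝ)) (b := (718917 / 1000000 : ℝ))
    (τ := (1163287 / 10000000 : ℝ)) (A5 := (62479 / 125000 : ℝ)) (A6 := (659637 / 1000000 : ℝ))
    (A9 := (449657 / 500000 : ℝ)) (A10 := (551301 / 1000000 : ℝ)) (s := (1443 / 25000 : ℝ)) (e := (1 / 10000000 : ℝ))
    (pb := (1031107 / 1250000 : ℝ)) (qb := (12444217 / 2500000 : ℝ)) (by norm_num)
    (by norm_num) (by norm_num) (by norm_num) (by norm_num) (by norm_num) (by norm_num) (by norm_num)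
    (by norm_num) (by norm_num)
    (by norm_num) (by norm_num) (by norm_num) (by norm_num) (by norm_num)
    rfl rfl rfl rfl rfl rfl (by norm_num) (by norm_num) (by norm_num) hp hpb hq hqb hpq

theorem rowL7_23 {p q : ℝ} (hp : 0 < p) (hpb : p ≤ (8285967 / 10000000 : ℝ)) (hq : 0 < q) (hqb : q ≤ (49406241 / 10000000 : ℝ))
    (hpq : 1 < p * q) : NoSol 7 p q :=
  noSol_rect (n := 7) (by norm_num) (N := 7) (a := (393509 / 500000 : ℝ)) (b := (716107 / 1000000 : ℝ))
    (τ := (150921 / 1250000 : ℝ)) (A5 := (249669 / 500000 : ℝ)) (A6 := (330047 / 500000 : ℝ))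
    (A9 := (877571 / 1000000 : ℝ)) (A10 := (56453 / 100000 : ℝ)) (s := (583 / 10000 : ℝ)) (e := (1 / 10000000 : ℝ))
    (pb := (8285967 / 10000000 : ℝ)) (qb := (49406241 / 10000000 : ℝ)) (by norm_num)
    (by norm_num) (by norm_num) (by norm_num) (by norm_num) (by norm_num) (by norm_num) (by norm_num)
    (by norm_num) (by norm_num)
    (by norm_num) (by norm_num) (by norm_num) (by norm_num) (by norm_num)
    rfl rfl rfl rfl rfl rfl (by norm_num) (by norm_num) (by norm_num) hp hpb hq hqb hpq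

theorem rowL7_24 {p q : ℝ} (hp : 0 < p) (hpb : p ≤ (8323967 / 10000000 : ℝ)) (hq : 0 < q) (hqb : q ≤ (49016341 / 10000000 : ℝ))
    (hpq : 1 < p * q) : NoSol 7 p q :=
  noSol_rect (n := 7) (by norm_num) (N := 7) (a := (789063 / 1000000 : ℝ)) (b := (357227 / 500000 : ℝ))
    (τ := (30571 / 250000 : ℝ)) (A5 := (31319 / 62500 : ℝ)) (A6 := (329061 / 500000 : ℝ))
    (A9 := (219027 / 250000 : ℝ)) (A10 := (35251 / 62500 : ℝ)) (s := (5859 / 100000 : ℝ)) (e := (1 / 10000000 : ℝ))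
    (pb := (8323967 / 10000000 : ℝ)) (qb := (49016341 / 10000000 : ℝ)) (by norm_num)
    (by norm_num) (by norm_num) (by norm_num) (by norm_num) (by norm_num) (by norm_num) (by norm_num)
    (by norm_num) (by norm_num)
    (by norm_num) (by norm_num) (by norm_num) (by norm_num) (by norm_num)
    rfl rfl rfl rfl rfl rfl (by norm_num) (by norm_num) (by norm_num) hp hpb hq hqb hpq

theorem rowL7_25 {p q : ℝ} (hp : 0 < p) (hpb : p ≤ (1045367 / 1250000 : ℝ)) (hq : 0 < q) (hqb : q ≤ (48623973 / 10000000 : ℝ))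
    (hpq : 1 < p * q) : NoSol 7 p q :=
  noSol_rect (n := 7) (by norm_num) (N := 7) (a := (154441 / 200000 : ℝ)) (b := (89837 / 125000 : ℝ))
    (τ := (623769 / 5000000 : ℝ)) (A5 := (50121 / 100000 : ℝ)) (A6 := (131703 / 200000 : ℝ))
    (A9 := (869163 / 1000000 : ℝ)) (A10 := (565889 / 1000000 : ℝ)) (s := (2943 / 50000 : ℝ)) (e := (1 / 10000000 : ℝ))
    (pb := (1045367 / 1250000 : ℝ)) (qb := (48623973 / 10000000 : ℝ)) (by norm_num)
    (by norm_num) (by norm_num) (by norm_num) (by norm_num) (by norm_num) (by norm_num) (by norm_num)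
    (by norm_num) (by norm_num)
    (by norm_num) (by norm_num) (by norm_num) (by norm_num) (by norm_num)
    rfl rfl rfl rfl rfl rfl (by norm_num) (by norm_num) (by norm_num) hp hpb hq hqb hpq

theorem rowL7_26 {p q : ℝ} (hp : 0 < p) (hpb : p ≤ (1679859 / 2000000 : ℝ)) (hq : 0 < q) (hqb : q ≤ (24114317 / 5000000 : ℝ))
    (hpq : 1 < p * q) : NoSol 7 p q :=
  noSol_rect (n := 7) (by norm_num) (N := 7) (a := (390851 / 500000 : ℝ)) (b := (711113 / 1000000 : ℝ))
    (τ := (1299521 / 10000000 : ℝ)) (A5 := (15711 / 31250 : ℝ)) (A6 := (656771 / 1000000 : ℝ))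
    (A9 := (3373 / 4000 : ℝ)) (A10 := (291537 / 500000 : ℝ)) (s := (5997 / 100000 : ℝ)) (e := (1 / 10000000 : ℝ))
    (pb := (1679859 / 2000000 : ℝ)) (qb := (24114317 / 5000000 : ℝ)) (by norm_num)
    (by norm_num) (by norm_num) (by norm_num) (by norm_num) (by norm_num) (by norm_num) (by norm_num)
    (by norm_num) (by norm_num)
    (by norm_num) (by norm_num) (by norm_num) (by norm_num) (by norm_num)
    rfl rfl rfl rfl rfl rfl (by norm_num) (by norm_num) (by norm_num) hp hpb hq hqb hpq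

theorem rowL7_27 {p q : ℝ} (hp : 0 < p) (hpb : p ≤ (2107411 / 2500000 : ℝ)) (hq : 0 < q) (hqb : q ≤ (47866033 / 10000000 : ℝ))
    (hpq : 1 < p * q) : NoSol 7 p q :=
  noSol_rect (n := 7) (by norm_num) (N := 7) (a := (12457 / 15625 : ℝ)) (b := (351987 / 500000 : ℝ))
    (τ := (273303 / 2000000 : ℝ)) (A5 := (239867 / 500000 : ℝ)) (A6 := (681713 / 1000000 : ℝ))
    (A9 := (413079 / 500000 : ℝ)) (A10 := (582777 / 1000000 : ℝ)) (s := (3089 / 50000 : ℝ)) (e := (1 / 10000000 : ℝ))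
    (pb := (2107411 / 2500000 : ℝ)) (qb := (47866033 / 10000000 : ℝ)) (by norm_num)
    (by norm_num) (by norm_num) (by norm_num) (by norm_num) (by norm_num) (by norm_num) (by norm_num)
    (by norm_num) (by norm_num)
    (by norm_num) (by norm_num) (by norm_num) (by norm_num) (by norm_num)
    rfl rfl rfl rfl rfl rfl (by norm_num) (by norm_num) (by norm_num) hp hpb hq hqb hpq

theorem rowL7_28 {p q : ℝ} (hp : 0 < p) (hpb : p ≤ (8464447 / 10000000 : ℝ)) (hq : 0 < q) (hqb : q ≤ (47567887 / 10000000 : ℝ))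
    (hpq : 1 < p * q) : NoSol 7 p q :=
  noSol_rect (n := 7) (by norm_num) (N := 7) (a := (32219 / 40000 : ℝ)) (b := (703043 / 1000000 : ℝ))
    (τ := (681069 / 5000000 : ℝ)) (A5 := (489673 / 1000000 : ℝ)) (A6 := (670109 / 1000000 : ℝ))
    (A9 := (831487 / 1000000 : ℝ)) (A10 := (291361 / 500000 : ℝ)) (s := (761 / 12500 : ℝ)) (e := (1 / 10000000 : ℝ))
    (pb := (8464447 / 10000000 : ℝ)) (qb := (47567887 / 10000000 : ℝ)) (by norm_num)
    (by norm_num) (by norm_num) (by norm_num) (by norm_num) (by norm_num) (by norm_num) (by norm_num)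
    (by norm_num) (by norm_num)
    (by norm_num) (by norm_num) (by norm_num) (by norm_num) (by norm_num)
    rfl rfl rfl rfl rfl rfl (by norm_num) (by norm_num) (by norm_num) hp hpb hq hqb hpq

theorem rowL7_29 {p q : ℝ} (hp : 0 < p) (hpb : p ≤ (8501727 / 10000000 : ℝ)) (hq : 0 < q) (hqb : q ≤ (4723093 / 1000000 : ℝ))
    (hpq : 1 < p * q) : NoSol 7 p q :=
  noSol_rect (n := 7) (by norm_num) (N := 7) (a := (3233 / 4000 : ℝ)) (b := (70211 / 100000 : ℝ))
    (τ := (1366209 / 10000000 : ℝ)) (A5 := (49369 / 100000 : ℝ)) (A6 := (166381 / 250000 : ℝ))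
    (A9 := (209049 / 250000 : ℝ)) (A10 := (579261 / 1000000 : ℝ)) (s := (1217 / 20000 : ℝ)) (e := (1 / 10000000 : ℝ))
    (pb := (8501727 / 10000000 : ℝ)) (qb := (4723093 / 1000000 : ℝ)) (by norm_num)
    (by norm_num) (by norm_num) (by norm_num) (by norm_num) (by norm_num) (by norm_num) (by norm_num)
    (by norm_num) (by norm_num)
    (by norm_num) (by norm_num) (by norm_num) (by norm_num) (by norm_num)
    rfl rfl rfl rfl rfl rfl (by norm_num) (by norm_num) (by norm_num) hp hpb hq hqb hpq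

theorem rowL7_30 {p q : ℝ} (hp : 0 < p) (hpb : p ≤ (8541383 / 10000000 : ℝ)) (hq : 0 < q) (hqb : q ≤ (1171893 / 250000 : ℝ))
    (hpq : 1 < p * q) : NoSol 7 p q :=
  noSol_rect (n := 7) (by norm_num) (N := 7) (a := (797279 / 1000000 : ℝ)) (b := (70547 / 100000 : ℝ))
    (τ := (1370231 / 10000000 : ℝ)) (A5 := (31167 / 62500 : ℝ)) (A6 := (330327 / 500000 : ℝ))
    (A9 := (840161 / 1000000 : ℝ)) (A10 := (287793 / 500000 : ℝ)) (s := (379 / 6250 : ℝ)) (e := (1 / 10000000 : ℝ))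
    (pb := (8541383 / 10000000 : ℝ)) (qb := (1171893 / 250000 : ℝ)) (by norm_num)
    (by norm_num) (by norm_num) (by norm_num) (by norm_num) (by norm_num) (by norm_num) (by norm_num)
    (by norm_num) (by norm_num)
    (by norm_num) (by norm_num) (by norm_num) (by norm_num) (by norm_num)
    rfl rfl rfl rfl rfl rfl (by norm_num) (by norm_num) (by norm_num) hp hpb hq hqb hpq

theorem rowL7_31 {p q : ℝ} (hp : 0 < p) (hpb : p ≤ (8581779 / 10000000 : ℝ)) (hq : 0 < q) (hqb : q ≤ (46504217 / 10000000 : ℝ))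
    (hpq : 1 < p * q) : NoSol 7 p q :=
  noSol_rect (n := 7) (by norm_num) (N := 7) (a := (24763 / 31250 : ℝ)) (b := (708183 / 1000000 : ℝ))
    (τ := (1392671 / 10000000 : ℝ)) (A5 := (494489 / 1000000 : ℝ)) (A6 := (665363 / 1000000 : ℝ))
    (A9 := (6721 / 8000 : ℝ)) (A10 := (142781 / 250000 : ℝ)) (s := (6049 / 100000 : ℝ)) (e := (1 / 10000000 : ℝ))
    (pb := (8581779 / 10000000 : ℝ)) (qb := (46504217 / 10000000 : ℝ)) (by norm_num)
    (by norm_num) (by norm_num) (by norm_num) (by norm_num) (by norm_num) (by norm_num) (by norm_num)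
    (by norm_num) (by norm_num)
    (by norm_num) (by norm_num) (by norm_num) (by norm_num) (by norm_num)
    rfl rfl rfl rfl rfl rfl (by norm_num) (by norm_num) (by norm_num) hp hpb hq hqb hpq

theorem rowL7_32 {p q : ℝ} (hp : 0 < p) (hpb : p ≤ (4311429 / 5000000 : ℝ)) (hq : 0 < q) (hqb : q ≤ (46132337 / 10000000 : ℝ))
    (hpq : 1 < p * q) : NoSol 7 p q :=
  noSol_rect (n := 7) (by norm_num) (N := 7) (a := (791059 / 1000000 : ℝ)) (b := (177013 / 250000 : ℝ))
    (τ := (1412219 / 10000000 : ℝ)) (A5 := (494517 / 1000000 : ℝ)) (A6 := (665443 / 1000000 : ℝ))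
    (A9 := (839109 / 1000000 : ℝ)) (A10 := (569347 / 1000000 : ℝ)) (s := (6073 / 100000 : ℝ)) (e := (1 / 10000000 : ℝ))
    (pb := (4311429 / 5000000 : ℝ)) (qb := (46132337 / 10000000 : ℝ)) (by norm_num)
    (by norm_num) (by norm_num) (by norm_num) (by norm_num) (by norm_num) (by norm_num) (by norm_num)
    (by norm_num) (by norm_num)
    (by norm_num) (by norm_num) (by norm_num) (by norm_num) (by norm_num)
    rfl rfl rfl rfl rfl rfl (by norm_num) (by norm_num) (by norm_num) hp hpb hq hqb hpq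

theorem rowL7_33 {p q : ℝ} (hp : 0 < p) (hpb : p ≤ (8664481 / 10000000 : ℝ)) (hq : 0 < q) (hqb : q ≤ (45760777 / 10000000 : ℝ))
    (hpq : 1 < p * q) : NoSol 7 p q :=
  noSol_rect (n := 7) (by norm_num) (N := 7) (a := (795961 / 1000000 : ℝ)) (b := (352379 / 500000 : ℝ))
    (τ := (17917 / 125000 : ℝ)) (A5 := (49757 / 100000 : ℝ)) (A6 := (662023 / 1000000 : ℝ))
    (A9 := (835321 / 1000000 : ℝ)) (A10 := (571273 / 1000000 : ℝ)) (s := (3059 / 50000 : ℝ)) (e := (1 / 10000000 : ℝ))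
    (pb := (8664481 / 10000000 : ℝ)) (qb := (45760777 / 10000000 : ℝ)) (by norm_num)
    (by norm_num) (by norm_num) (by norm_num) (by norm_num) (by norm_num) (by norm_num) (by norm_num)
    (by norm_num) (by norm_num)
    (by norm_num) (by norm_num) (by norm_num) (by norm_num) (by norm_num)
    rfl rfl rfl rfl rfl rfl (by norm_num) (by norm_num) (by norm_num) hp hpb hq hqb hpq

theorem rowL7_34 {p q : ℝ} (hp : 0 < p) (hpb : p ≤ (2176643 / 2500000 : ℝ)) (hq : 0 < q) (hqb : q ≤ (45390917 / 10000000 : ℝ))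
    (hpq : 1 < p * q) : NoSol 7 p q :=
  noSol_rect (n := 7) (by norm_num) (N := 7) (a := (796263 / 1000000 : ℝ)) (b := (88091 / 125000 : ℝ))
    (τ := (1457879 / 10000000 : ℝ)) (A5 := (497361 / 1000000 : ℝ)) (A6 := (165547 / 250000 : ℝ))
    (A9 := (416111 / 500000 : ℝ)) (A10 := (285611 / 500000 : ℝ)) (s := (6117 / 100000 : ℝ)) (e := (1 / 10000000 : ℝ))
    (pb := (2176643 / 2500000 : ℝ)) (qb := (45390917 / 10000000 : ℝ)) (by norm_num)
    (by norm_num) (by norm_num) (by norm_num) (by norm_num) (by norm_num) (by norm_num) (by norm_num)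
    (by norm_num) (by norm_num)
    (by norm_num) (by norm_num) (by norm_num) (by norm_num) (by norm_num)
    rfl rfl rfl rfl rfl rfl (by norm_num) (by norm_num) (by norm_num) hp hpb hq hqb hpq

theorem rowL7_35 {p q : ℝ} (hp : 0 < p) (hpb : p ≤ (8748923 / 10000000 : ℝ)) (hq : 0 < q) (hqb : q ≤ (22511747 / 5000000 : ℝ))
    (hpq : 1 < p * q) : NoSol 7 p q :=
  noSol_rect (n := 7) (by norm_num) (N := 7) (a := (24779 / 31250 : ℝ)) (b := (704699 / 1000000 : ℝ))
    (τ := (296431 / 2000000 : ℝ)) (A5 := (499129 / 1000000 : ℝ)) (A6 := (660457 / 1000000 : ℝ))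
    (A9 := (165563 / 200000 : ℝ)) (A10 := (572657 / 1000000 : ℝ)) (s := (3071 / 50000 : ℝ)) (e := (1 / 10000000 : ℝ))
    (pb := (8748923 / 10000000 : ℝ)) (qb := (22511747 / 5000000 : ℝ)) (by norm_num)
    (by norm_num) (by norm_num) (by norm_num) (by norm_num) (by norm_num) (by norm_num) (by norm_num)
    (by norm_num) (by norm_num)
    (by norm_num) (by norm_num) (by norm_num) (by norm_num) (by norm_num)
    rfl rfl rfl rfl rfl rfl (by norm_num) (by norm_num) (by norm_num) hp hpb hq hqb hpq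

theorem rowL7_36 {p q : ℝ} (hp : 0 < p) (hpb : p ≤ (8792471 / 10000000 : ℝ)) (hq : 0 < q) (hqb : q ≤ (44660321 / 10000000 : ℝ))
    (hpq : 1 < p * q) : NoSol 7 p q :=
  noSol_rect (n := 7) (by norm_num) (N := 7) (a := (794161 / 1000000 : ℝ)) (b := (706371 / 1000000 : ℝ))
    (τ := (1496263 / 10000000 : ℝ)) (A5 := (501303 / 1000000 : ℝ)) (A6 := (328877 / 500000 : ℝ))
    (A9 := (414807 / 500000 : ℝ)) (A10 := (570387 / 1000000 : ℝ)) (s := (6069 / 100000 : ℝ)) (e := (1 / 10000000 : ℝ))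
    (pb := (8792471 / 10000000 : ℝ)) (qb := (44660321 / 10000000 : ℝ)) (by norm_num)
    (by norm_num) (by norm_num) (by norm_num) (by norm_num) (by norm_num) (by norm_num) (by norm_num)
    (by norm_num) (by norm_num)
    (by norm_num) (by norm_num) (by norm_num) (by norm_num) (by norm_num)
    rfl rfl rfl rfl rfl rfl (by norm_num) (by norm_num) (by norm_num) hp hpb hq hqb hpq

theorem rowL7_37 {p q : ℝ} (hp : 0 < p) (hpb : p ≤ (8836629 / 10000000 : ℝ)) (hq : 0 < q) (hqb : q ≤ (22146761 / 5000000 : ℝ))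
    (hpq : 1 < p * q) : NoSol 7 p q :=
  noSol_rect (n := 7) (by norm_num) (N := 7) (a := (200097 / 250000 : ℝ)) (b := (352039 / 500000 : ℝ))
    (τ := (1501569 / 10000000 : ℝ)) (A5 := (101441 / 200000 : ℝ)) (A6 := (651013 / 1000000 : ℝ))
    (A9 := (833643 / 1000000 : ℝ)) (A10 := (567887 / 1000000 : ℝ)) (s := (6067 / 100000 : ℝ)) (e := (1 / 10000000 : ℝ))
    (pb := (8836629 / 10000000 : ℝ)) (qb := (22146761 / 5000000 : ℝ)) (by norm_num)
    (by norm_num) (by norm_num) (by norm_num) (by norm_num) (by norm_num) (by norm_num) (by norm_num)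
    (by norm_num) (by norm_num)
    (by norm_num) (by norm_num) (by norm_num) (by norm_num) (by norm_num)
    rfl rfl rfl rfl rfl rfl (by norm_num) (by norm_num) (by norm_num) hp hpb hq hqb hpq

theorem rowL7_38 {p q : ℝ} (hp : 0 < p) (hpb : p ≤ (8880133 / 10000000 : ℝ)) (hq : 0 < q) (hqb : q ≤ (1757131 / 400000 : ℝ))
    (hpq : 1 < p * q) : NoSol 7 p q :=
  noSol_rect (n := 7) (by norm_num) (N := 7) (a := (812237 / 1000000 : ℝ)) (b := (174813 / 250000 : ℝ))
    (τ := (94107 / 625000 : ℝ)) (A5 := (256623 / 500000 : ℝ)) (A6 := (161 / 250 : ℝ))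
    (A9 := (838131 / 1000000 : ℝ)) (A10 := (565159 / 1000000 : ℝ)) (s := (6101 / 100000 : ℝ)) (e := (1 / 10000000 : ℝ))
    (pb := (8880133 / 10000000 : ℝ)) (qb := (1757131 / 400000 : ℝ)) (by norm_num)
    (by norm_num) (by norm_num) (by norm_num) (by norm_num) (by norm_num) (by norm_num) (by norm_num)
    (by norm_num) (by norm_num)
    (by norm_num) (by norm_num) (by norm_num) (by norm_num) (by norm_num)
    rfl rfl rfl rfl rfl rfl (by norm_num) (by norm_num) (by norm_num) hp hpb hq hqb hpq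

theorem rowL7_39 {p q : ℝ} (hp : 0 < p) (hpb : p ≤ (8923361 / 10000000 : ℝ)) (hq : 0 < q) (hqb : q ≤ (43574849 / 10000000 : ℝ))
    (hpq : 1 < p * q) : NoSol 7 p q :=
  noSol_rect (n := 7) (by norm_num) (N := 7) (a := (810969 / 1000000 : ℝ)) (b := (704103 / 1000000 : ℝ))
    (τ := (1502133 / 10000000 : ℝ)) (A5 := (51669 / 100000 : ℝ)) (A6 := (639573 / 1000000 : ℝ))
    (A9 := (848963 / 1000000 : ℝ)) (A10 := (557017 / 1000000 : ℝ)) (s := (1491 / 25000 : ℝ)) (e := (1 / 10000000 : ℝ))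
    (pb := (8923361 / 10000000 : ℝ)) (qb := (43574849 / 10000000 : ℝ)) (by norm_num)
    (by norm_num) (by norm_num) (by norm_num) (by norm_num) (by norm_num) (by norm_num) (by norm_num)
    (by norm_num) (by norm_num)
    (by norm_num) (by norm_num) (by norm_num) (by norm_num) (by norm_num)
    rfl rfl rfl rfl rfl rfl (by norm_num) (by norm_num) (by norm_num) hp hpb hq hqb hpq

end Vale.Agent.Lib.P100
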