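import Vale.Agent.Lib.P100.Cover

/-!
Rational certificates, dimension 7.
-/

namespace Vale.Agent.Lib.P100

theorem rowL7_40 {p q : ℝ} (hp : 0 < p) (hpb : p ≤ (8967963 / 10000000 : ℝ)) (hq : 0 < q) (hqb : q ≤ (43229803 / 10000000 : ℝ))
    (hpq : 1 < p * q) : NoSol 7 p q :=
  noSol_rect (n := 7) (by norm_num) (N := 7) (a := (202203 / 250000 : ℝ)) (b := (702539 / 1000000 : ℝ))
    (τ := (61577 / 400000 : ℝ)) (A5 := (32149 / 62500 : ℝ)) (A6 := (642587 / 1000000 : ℝ))
    (A9 := (4203 / 5000 : ℝ)) (A10 := (559357 / 1000000 : ℝ)) (s := (1509 / 25000 : ℝ)) (e := (1 / 10000000 : ℝ))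
    (pb := (8967963 / 10000000 : ℝ)) (qb := (43229803 / 10000000 : ℝ)) (by norm_num)
    (by norm_num) (by norm_num) (by norm_num) (by norm_num) (by norm_num) (by norm_num) (by norm_num)
    (by norm_num) (by norm_num)
    (by norm_num) (by norm_num) (by norm_num) (by norm_num) (by norm_num)
    rfl rfl rfl rfl rfl rfl (by norm_num) (by norm_num) (by norm_num) hp hpb hq hqb hpq

theorem rowL7_41 {p q : ℝ} (hp : 0 < p) (hpb : p ≤ (4507103 / 5000000 : ℝ)) (hq : 0 < q) (hqb : q ≤ (42880033 / 10000000 : ℝ))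
    (hpq : 1 < p * q) : NoSol 7 p q :=
  noSol_rect (n := 7) (by norm_num) (N := 7) (a := (806951 / 1000000 : ℝ)) (b := (4409 / 6250 : ℝ))
    (τ := (316157 / 2000000 : ℝ)) (A5 := (100913 / 200000 : ℝ)) (A6 := (32641 / 50000 : ℝ))
    (A9 := (418753 / 500000 : ℝ)) (A10 := (555927 / 1000000 : ℝ)) (s := (3019 / 50000 : ℝ)) (e := (1 / 10000000 : ℝ))
    (pb := (4507103 / 5000000 : ℝ)) (qb := (42880033 / 10000000 : ℝ)) (by norm_num)
    (by norm_num) (by norm_num) (by norm_num) (by norm_num) (by norm_num) (by norm_num) (by norm_num)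
    (by norm_num) (by norm_num)
    (by norm_num) (by norm_num) (by norm_num) (by norm_num) (by norm_num)
    rfl rfl rfl rfl rfl rfl (by norm_num) (by norm_num) (by norm_num) hp hpb hq hqb hpq

theorem rowL7_42 {p q : ℝ} (hp : 0 < p) (hpb : p ≤ (1812241 / 2000000 : ℝ)) (hq : 0 < q) (hqb : q ≤ (42523913 / 10000000 : ℝ))
    (hpq : 1 < p * q) : NoSol 7 p q :=
  noSol_rect (n := 7) (by norm_num) (N := 7) (a := (789269 / 1000000 : ℝ)) (b := (88617 / 125000 : ℝ))
    (τ := (1621937 / 10000000 : ℝ)) (A5 := (63059 / 125000 : ℝ)) (A6 := (654427 / 1000000 : ℝ))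
    (A9 := (826381 / 1000000 : ℝ)) (A10 := (279989 / 500000 : ℝ)) (s := (3031 / 50000 : ℝ)) (e := (1 / 10000000 : ℝ))
    (pb := (1812241 / 2000000 : ℝ)) (qb := (42523913 / 10000000 : ℝ)) (by norm_num)
    (by norm_num) (by norm_num) (by norm_num) (by norm_num) (by norm_num) (by norm_num) (by norm_num)
    (by norm_num) (by norm_num)
    (by norm_num) (by norm_num) (by norm_num) (by norm_num) (by norm_num)
    rfl rfl rfl rfl rfl rfl (by norm_num) (by norm_num) (by norm_num) hp hpb hq hqb hpq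

theorem rowL7_43 {p q : ℝ} (hp : 0 < p) (hpb : p ≤ (1138491 / 1250000 : ℝ)) (hq : 0 < q) (hqb : q ≤ (10542147 / 2500000 : ℝ))
    (hpq : 1 < p * q) : NoSol 7 p q :=
  noSol_rect (n := 7) (by norm_num) (N := 7) (a := (99699 / 125000 : ℝ)) (b := (702223 / 1000000 : ℝ))
    (τ := (103041 / 625000 : ℝ)) (A5 := (15793 / 31250 : ℝ)) (A6 := (130741 / 200000 : ℝ))
    (A9 := (411583 / 500000 : ℝ)) (A10 := (559999 / 1000000 : ℝ)) (s := (6201 / 100000 : ℝ)) (e := (1 / 10000000 : ℝ))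
    (pb := (1138491 / 1250000 : ℝ)) (qb := (10542147 / 2500000 : ℝ)) (by norm_num)
    (by norm_num) (by norm_num) (by norm_num) (by norm_num) (by norm_num) (by norm_num) (by norm_num)
    (by norm_num) (by norm_num)
    (by norm_num) (by norm_num) (by norm_num) (by norm_num) (by norm_num)
    rfl rfl rfl rfl rfl rfl (by norm_num) (by norm_num) (by norm_num) hp hpb hq hqb hpq

theorem rowL7_44 {p q : ℝ} (hp : 0 < p) (hpb : p ≤ (9154927 / 10000000 : ℝ)) (hq : 0 < q) (hqb : q ≤ (41821781 / 10000000 : ℝ))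
    (hpq : 1 < p * q) : NoSol 7 p q :=
  noSol_rect (n := 7) (by norm_num) (N := 7) (a := (402121 / 500000 : ℝ)) (b := (70173 / 100000 : ℝ))
    (τ := (13196 / 78125 : ℝ)) (A5 := (252493 / 500000 : ℝ)) (A6 := (653061 / 1000000 : ℝ))
    (A9 := (815529 / 1000000 : ℝ)) (A10 := (282487 / 500000 : ℝ)) (s := (3079 / 50000 : ℝ)) (e := (1 / 10000000 : ℝ))
    (pb := (9154927 / 10000000 : ℝ)) (qb := (41821781 / 10000000 : ℝ)) (by norm_num)
    (by norm_num) (by norm_num) (by norm_num) (by norm_num) (by norm_num) (by norm_num) (by norm_num)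
    (by norm_num) (by norm_num)
    (by norm_num) (by norm_num) (by norm_num) (by norm_num) (by norm_num)
    rfl rfl rfl rfl rfl rfl (by norm_num) (by norm_num) (by norm_num) hp hpb hq hqb hpq

theorem rowL7_45 {p q : ℝ} (hp : 0 < p) (hpb : p ≤ (4601257 / 5000000 : ℝ)) (hq : 0 < q) (hqb : q ≤ (41479219 / 10000000 : ℝ))
    (hpq : 1 < p * q) : NoSol 7 p q :=
  noSol_rect (n := 7) (by norm_num) (N := 7) (a := (161061 / 200000 : ℝ)) (b := (351467 / 500000 : ℝ))
    (τ := (429057 / 2500000 : ℝ)) (A5 := (125791 / 250000 : ℝ)) (A6 := (327229 / 500000 : ℝ))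
    (A9 := (815481 / 1000000 : ℝ)) (A10 := (562839 / 1000000 : ℝ)) (s := (3077 / 50000 : ℝ)) (e := (1 / 10000000 : ℝ))
    (pb := (4601257 / 5000000 : ℝ)) (qb := (41479219 / 10000000 : ℝ)) (by norm_num)
    (by norm_num) (by norm_num) (by norm_num) (by norm_num) (by norm_num) (by norm_num) (by norm_num)
    (by norm_num) (by norm_num)
    (by norm_num) (by norm_num) (by norm_num) (by norm_num) (by norm_num)
    rfl rfl rfl rfl rfl rfl (by norm_num) (by norm_num) (by norm_num) hp hpb hq hqb hpq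

theorem rowL7_46 {p q : ℝ} (hp : 0 < p) (hpb : p ≤ (9250419 / 10000000 : ℝ)) (hq : 0 < q) (hqb : q ≤ (4113863 / 1000000 : ℝ))
    (hpq : 1 < p * q) : NoSol 7 p q :=
  noSol_rect (n := 7) (by norm_num) (N := 7) (a := (781011 / 1000000 : ℝ)) (b := (716427 / 1000000 : ℝ))
    (τ := (859911 / 5000000 : ℝ)) (A5 := (254053 / 500000 : ℝ)) (A6 := (324437 / 500000 : ℝ))
    (A9 := (205301 / 250000 : ℝ)) (A10 := (558363 / 1000000 : ℝ)) (s := (241 / 4000 : ℝ)) (e := (1 / 10000000 : ℝ))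
    (pb := (9250419 / 10000000 : ℝ)) (qb := (4113863 / 1000000 : ℝ)) (by norm_num)
    (by norm_num) (by norm_num) (by norm_num) (by norm_num) (by norm_num) (by norm_num) (by norm_num)
    (by norm_num) (by norm_num)
    (by norm_num) (by norm_num) (by norm_num) (by norm_num) (by norm_num)
    rfl rfl rfl rfl rfl rfl (by norm_num) (by norm_num) (by norm_num) hp hpb hq hqb hpq

theorem rowL7_47 {p q : ℝ} (hp : 0 < p) (hpb : p ≤ (290583 / 312500 : ℝ)) (hq : 0 < q) (hqb : q ≤ (20400977 / 5000000 : ℝ))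
    (hpq : 1 < p * q) : NoSol 7 p q :=
  noSol_rect (n := 7) (by norm_num) (N := 7) (a := (782803 / 1000000 : ℝ)) (b := (358371 / 500000 : ℝ))
    (τ := (216859 / 1250000 : ℝ)) (A5 := (507323 / 1000000 : ℝ)) (A6 := (16241 / 25000 : ℝ))
    (A9 := (825881 / 1000000 : ℝ)) (A10 := (552311 / 1000000 : ℝ)) (s := (3009 / 50000 : ℝ)) (e := (1 / 10000000 : ℝ))
    (pb := (290583 / 312500 : ℝ)) (qb := (20400977 / 5000000 : ℝ)) (by norm_num)
    (by norm_num) (by norm_num) (by norm_num) (by norm_num) (by norm_num) (by norm_num) (by norm_num)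
    (by norm_num) (by norm_num)
    (by norm_num) (by norm_num) (by norm_num) (by norm_num) (by norm_num)
    rfl rfl rfl rfl rfl rfl (by norm_num) (by norm_num) (by norm_num) hp hpb hq hqb hpq

theorem rowL7_48 {p q : ℝ} (hp : 0 < p) (hpb : p ≤ (1869417 / 2000000 : ℝ)) (hq : 0 < q) (hqb : q ≤ (40469051 / 10000000 : ℝ))
    (hpq : 1 < p * q) : NoSol 7 p q :=
  noSol_rect (n := 7) (by norm_num) (N := 7) (a := (390771 / 500000 : ℝ)) (b := (178983 / 250000 : ℝ))
    (τ := (1758737 / 10000000 : ℝ)) (A5 := (508359 / 1000000 : ℝ)) (A6 := (649129 / 1000000 : ℝ))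
    (A9 := (412241 / 500000 : ℝ)) (A10 := (550723 / 1000000 : ℝ)) (s := (377 / 6250 : ℝ)) (e := (1 / 10000000 : ℝ))
    (pb := (1869417 / 2000000 : ℝ)) (qb := (40469051 / 10000000 : ℝ)) (by norm_num)
    (by norm_num) (by norm_num) (by norm_num) (by norm_num) (by norm_num) (by norm_num) (by norm_num)
    (by norm_num) (by norm_num)
    (by norm_num) (by norm_num) (by norm_num) (by norm_num) (by norm_num)
    rfl rfl rfl rfl rfl rfl (by norm_num) (by norm_num) (by norm_num) hp hpb hq hqb hpq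

theorem rowL7_49 {p q : ℝ} (hp : 0 < p) (hpb : p ≤ (1174487 / 1250000 : ℝ)) (hq : 0 < q) (hqb : q ≤ (2007041 / 500000 : ℝ))
    (hpq : 1 < p * q) : NoSol 7 p q :=
  noSol_rect (n := 7) (by norm_num) (N := 7) (a := (156609 / 200000 : ℝ)) (b := (8941 / 12500 : ℝ))
    (τ := (1790059 / 10000000 : ℝ)) (A5 := (508013 / 1000000 : ℝ)) (A6 := (324703 / 500000 : ℝ))
    (A9 := (821451 / 1000000 : ℝ)) (A10 := (550881 / 1000000 : ℝ)) (s := (6053 / 100000 : ℝ)) (e := (1 / 10000000 : ℝ))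
    (pb := (1174487 / 1250000 : ℝ)) (qb := (2007041 / 500000 : ℝ)) (by norm_num)
    (by norm_num) (by norm_num) (by norm_num) (by norm_num) (by norm_num) (by norm_num) (by norm_num)
    (by norm_num) (by norm_num)
    (by norm_num) (by norm_num) (by norm_num) (by norm_num) (by norm_num)
    rfl rfl rfl rfl rfl rfl (by norm_num) (by norm_num) (by norm_num) hp hpb hq hqb hpq

theorem rowL7_50 {p q : ℝ} (hp : 0 < p) (hpb : p ≤ (9445367 / 10000000 : ℝ)) (hq : 0 < q) (hqb : q ≤ (19907959 / 5000000 : ℝ))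
    (hpq : 1 < p * q) : NoSol 7 p q :=
  noSol_rect (n := 7) (by norm_num) (N := 7) (a := (31431 / 40000 : ℝ)) (b := (715281 / 1000000 : ℝ))
    (τ := (1832771 / 10000000 : ℝ)) (A5 := (252093 / 500000 : ℝ)) (A6 := (326447 / 500000 : ℝ))
    (A9 := (816881 / 1000000 : ℝ)) (A10 := (551761 / 1000000 : ℝ)) (s := (6089 / 100000 : ℝ)) (e := (1 / 10000000 : ℝ))
    (pb := (9445367 / 10000000 : ℝ)) (qb := (19907959 / 5000000 : ℝ)) (by norm_num)
    (by norm_num) (by norm_num) (by norm_num) (by norm_num) (by norm_num) (by norm_num) (by norm_num)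
    (by norm_num) (by norm_num)
    (by norm_num) (by norm_num) (by norm_num) (by norm_num) (by norm_num)
    rfl rfl rfl rfl rfl rfl (by norm_num) (by norm_num) (by norm_num) hp hpb hq hqb hpq

theorem rowL7_51 {p q : ℝ} (hp : 0 < p) (hpb : p ≤ (9495291 / 10000000 : ℝ)) (hq : 0 < q) (hqb : q ≤ (9873131 / 2500000 : ℝ))
    (hpq : 1 < p * q) : NoSol 7 p q :=
  noSol_rect (n := 7) (by norm_num) (N := 7) (a := (49187 / 62500 : ℝ)) (b := (357841 / 500000 : ℝ))
    (τ := (1873077 / 10000000 : ℝ)) (A5 := (501927 / 1000000 : ℝ)) (A6 := (327417 / 500000 : ℝ))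
    (A9 := (812529 / 1000000 : ℝ)) (A10 := (5529 / 10000 : ℝ)) (s := (1529 / 25000 : ℝ)) (e := (1 / 10000000 : ℝ))
    (pb := (9495291 / 10000000 : ℝ)) (qb := (9873131 / 2500000 : ℝ)) (by norm_num)
    (by norm_num) (by norm_num) (by norm_num) (by norm_num) (by norm_num) (by norm_num) (by norm_num)
    (by norm_num) (by norm_num)
    (by norm_num) (by norm_num) (by norm_num) (by norm_num) (by norm_num)
    rfl rfl rfl rfl rfl rfl (by norm_num) (by norm_num) (by norm_num) hp hpb hq hqb hpq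

theorem rowL7_52 {p q : ℝ} (hp : 0 < p) (hpb : p ≤ (2386391 / 2500000 : ℝ)) (hq : 0 < q) (hqb : q ≤ (39172029 / 10000000 : ℝ))
    (hpq : 1 < p * q) : NoSol 7 p q :=
  noSol_rect (n := 7) (by norm_num) (N := 7) (a := (796767 / 1000000 : ℝ)) (b := (709899 / 1000000 : ℝ))
    (τ := (955977 / 5000000 : ℝ)) (A5 := (502873 / 1000000 : ℝ)) (A6 := (326859 / 500000 : ℝ))
    (A9 := (403143 / 500000 : ℝ)) (A10 := (111233 / 200000 : ℝ)) (s := (6181 / 100000 : ℝ)) (e := (1 / 10000000 : ℝ))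
    (pb := (2386391 / 2500000 : ℝ)) (qb := (39172029 / 10000000 : ℝ)) (by norm_num)
    (by norm_num) (by norm_num) (by norm_num) (by norm_num) (by norm_num) (by norm_num) (by norm_num)
    (by norm_num) (by norm_num)
    (by norm_num) (by norm_num) (by norm_num) (by norm_num) (by norm_num)
    rfl rfl rfl rfl rfl rfl (by norm_num) (by norm_num) (by norm_num) hp hpb hq hqb hpq

theorem rowL7_53 {p q : ℝ} (hp : 0 < p) (hpb : p ≤ (959613 / 1000000 : ℝ)) (hq : 0 < q) (hqb : q ≤ (38855083 / 10000000 : ℝ))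
    (hpq : 1 < p * q) : NoSol 7 p q :=
  noSol_rect (n := 7) (by norm_num) (N := 7) (a := (406327 / 500000 : ℝ)) (b := (352151 / 500000 : ℝ))
    (τ := (977987 / 5000000 : ℝ)) (A5 := (250547 / 500000 : ℝ)) (A6 := (654623 / 1000000 : ℝ))
    (A9 := (400591 / 500000 : ℝ)) (A10 := (3493 / 6250 : ℝ)) (s := (6241 / 100000 : ℝ)) (e := (1 / 10000000 : ℝ))
    (pb := (959613 / 1000000 : ℝ)) (qb := (38855083 / 10000000 : ℝ)) (by norm_num)
    (by norm_num) (by norm_num) (by norm_num) (by norm_num) (by norm_num) (by norm_num) (by norm_num)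
    (by norm_num) (by norm_num)
    (by norm_num) (by norm_num) (by norm_num) (by norm_num) (by norm_num)
    rfl rfl rfl rfl rfl rfl (by norm_num) (by norm_num) (by norm_num) hp hpb hq hqb hpq

theorem rowL7_54 {p q : ℝ} (hp : 0 < p) (hpb : p ≤ (1205887 / 1250000 : ℝ)) (hq : 0 < q) (hqb : q ≤ (19270997 / 5000000 : ℝ))
    (hpq : 1 < p * q) : NoSol 7 p q :=
  noSol_rect (n := 7) (by norm_num) (N := 7) (a := (203257 / 250000 : ℝ)) (b := (140997 / 200000 : ℝ))
    (τ := (1990179 / 10000000 : ℝ)) (A5 := (7811 / 15625 : ℝ)) (A6 := (20489 / 31250 : ℝ))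
    (A9 := (799443 / 1000000 : ℝ)) (A10 := (279081 / 500000 : ℝ)) (s := (3127 / 50000 : ℝ)) (e := (1 / 10000000 : ℝ))
    (pb := (1205887 / 1250000 : ℝ)) (qb := (19270997 / 5000000 : ℝ)) (by norm_num)
    (by norm_num) (by norm_num) (by norm_num) (by norm_num) (by norm_num) (by norm_num) (by norm_num)
    (by norm_num) (by norm_num)
    (by norm_num) (by norm_num) (by norm_num) (by norm_num) (by norm_num)
    rfl rfl rfl rfl rfl rfl (by norm_num) (by norm_num) (by norm_num) hp hpb hq hqb hpq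

theorem rowL7_55 {p q : ℝ} (hp : 0 < p) (hpb : p ≤ (2424593 / 2500000 : ℝ)) (hq : 0 < q) (hqb : q ≤ (38232063 / 10000000 : ℝ))
    (hpq : 1 < p * q) : NoSol 7 p q :=
  noSol_rect (n := 7) (by norm_num) (N := 7) (a := (820917 / 1000000 : ℝ)) (b := (707739 / 1000000 : ℝ))
    (τ := (252709 / 1250000 : ℝ)) (A5 := (24867 / 50000 : ℝ)) (A6 := (82043 / 125000 : ℝ))
    (A9 := (801461 / 1000000 : ℝ)) (A10 := (556439 / 1000000 : ℝ)) (s := (1247 / 20000 : ℝ)) (e := (1 / 10000000 : ℝ))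
    (pb := (2424593 / 2500000 : ℝ)) (qb := (38232063 / 10000000 : ℝ)) (by norm_num)
    (by norm_num) (by norm_num) (by norm_num) (by norm_num) (by norm_num) (by norm_num) (by norm_num)
    (by norm_num) (by norm_num)
    (by norm_num) (by norm_num) (by norm_num) (by norm_num) (by norm_num)
    rfl rfl rfl rfl rfl rfl (by norm_num) (by norm_num) (by norm_num) hp hpb hq hqb hpq

theorem rowL7_56 {p q : ℝ} (hp : 0 < p) (hpb : p ≤ (975019 / 1000000 : ℝ)) (hq : 0 < q) (hqb : q ≤ (37925803 / 10000000 : ℝ))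
    (hpq : 1 < p * q) : NoSol 7 p q :=
  noSol_rect (n := 7) (by norm_num) (N := 7) (a := (826323 / 1000000 : ℝ)) (b := (88031 / 125000 : ℝ))
    (τ := (1025473 / 5000000 : ℝ)) (A5 := (498437 / 1000000 : ℝ)) (A6 := (655391 / 1000000 : ℝ))
    (A9 := (799869 / 1000000 : ℝ)) (A10 := (555789 / 1000000 : ℝ)) (s := (6267 / 100000 : ℝ)) (e := (1 / 10000000 : ℝ))
    (pb := (975019 / 1000000 : ℝ)) (qb := (37925803 / 10000000 : ℝ)) (by norm_num)
    (by norm_num) (by norm_num) (by norm_num) (by norm_num) (by norm_num) (by norm_num) (by norm_num)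
    (by norm_num) (by norm_num)
    (by norm_num) (by norm_num) (by norm_num) (by norm_num) (by norm_num)
    rfl rfl rfl rfl rfl rfl (by norm_num) (by norm_num) (by norm_num) hp hpb hq hqb hpq

theorem rowL7_57 {p q : ℝ} (hp : 0 < p) (hpb : p ≤ (4901003 / 5000000 : ℝ)) (hq : 0 < q) (hqb : q ≤ (4702727 / 1250000 : ℝ))
    (hpq : 1 < p * q) : NoSol 7 p q :=
  noSol_rect (n := 7) (by norm_num) (N := 7) (a := (413043 / 500000 : ℝ)) (b := (698427 / 1000000 : ℝ))
    (τ := (2102227 / 10000000 : ℝ)) (A5 := (99147 / 200000 : ℝ)) (A6 := (8253 / 12500 : ℝ))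
    (A9 := (792023 / 1000000 : ℝ)) (A10 := (4453 / 8000 : ℝ)) (s := (159 / 2500 : ℝ)) (e := (1 / 10000000 : ℝ))
    (pb := (4901003 / 5000000 : ℝ)) (qb := (4702727 / 1250000 : ℝ)) (by norm_num)
    (by norm_num) (by norm_num) (by norm_num) (by norm_num) (by norm_num) (by norm_num) (by norm_num)
    (by norm_num) (by norm_num)
    (by norm_num) (by norm_num) (by norm_num) (by norm_num) (by norm_num)
    rfl rfl rfl rfl rfl rfl (by norm_num) (by norm_num) (by norm_num) hp hpb hq hqb hpq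

theorem rowL7_58 {p q : ℝ} (hp : 0 < p) (hpb : p ≤ (1231561 / 1250000 : ℝ)) (hq : 0 < q) (hqb : q ≤ (18661617 / 5000000 : ℝ))
    (hpq : 1 < p * q) : NoSol 7 p q :=
  noSol_rect (n := 7) (by norm_num) (N := 7) (a := (40277 / 50000 : ℝ)) (b := (709649 / 1000000 : ℝ))
    (τ := (40933 / 200000 : ℝ)) (A5 := (101981 / 200000 : ℝ)) (A6 := (40337 / 62500 : ℝ))
    (A9 := (162373 / 200000 : ℝ)) (A10 := (542877 / 1000000 : ℝ)) (s := (6173 / 100000 : ℝ)) (e := (1 / 10000000 : ℝ))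
    (pb := (1231561 / 1250000 : ℝ)) (qb := (18661617 / 5000000 : ℝ)) (by norm_num)
    (by norm_num) (by norm_num) (by norm_num) (by norm_num) (by norm_num) (by norm_num) (by norm_num)
    (by norm_num) (by norm_num)
    (by norm_num) (by norm_num) (by norm_num) (by norm_num) (by norm_num)
    rfl rfl rfl rfl rfl rfl (by norm_num) (by norm_num) (by norm_num) hp hpb hq hqb hpq

theorem rowL7_59 {p q : ℝ} (hp : 0 < p) (hpb : p ≤ (1238189 / 1250000 : ℝ)) (hq : 0 < q) (hqb : q ≤ (3703739 / 1000000 : ℝ))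
    (hpq : 1 < p * q) : NoSol 7 p q :=
  noSol_rect (n := 7) (by norm_num) (N := 7) (a := (808347 / 1000000 : ℝ)) (b := (715777 / 1000000 : ℝ))
    (τ := (1064407 / 5000000 : ℝ)) (A5 := (250963 / 500000 : ℝ)) (A6 := (651227 / 1000000 : ℝ))
    (A9 := (799867 / 1000000 : ℝ)) (A10 := (551691 / 1000000 : ℝ)) (s := (3107 / 50000 : ℝ)) (e := (1 / 10000000 : ℝ))
    (pb := (1238189 / 1250000 : ℝ)) (qb := (3703739 / 1000000 : ℝ)) (by norm_num)
    (by norm_num) (by norm_num) (by norm_num) (by norm_num) (by norm_num) (by norm_num) (by norm_num)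
    (by norm_num) (by norm_num)
    (by norm_num) (by norm_num) (by norm_num) (by norm_num) (by norm_num)
    rfl rfl rfl rfl rfl rfl (by norm_num) (by norm_num) (by norm_num) hp hpb hq hqb hpq

theorem rowL7_60 {p q : ℝ} (hp : 0 < p) (hpb : p ≤ (2489717 / 2500000 : ℝ)) (hq : 0 < q) (hqb : q ≤ (36742379 / 10000000 : ℝ))
    (hpq : 1 < p * q) : NoSol 7 p q :=
  noSol_rect (n := 7) (by norm_num) (N := 7) (a := (167403 / 200000 : ℝ)) (b := (693689 / 1000000 : ℝ))
    (τ := (2171591 / 10000000 : ℝ)) (A5 := (125671 / 250000 : ℝ)) (A6 := (20389 / 31250 : ℝ))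
    (A9 := (396469 / 500000 : ℝ)) (A10 := (552871 / 1000000 : ℝ)) (s := (319 / 5000 : ℝ)) (e := (1 / 10000000 : ℝ))
    (pb := (2489717 / 2500000 : ℝ)) (qb := (36742379 / 10000000 : ℝ)) (by norm_num)
    (by norm_num) (by norm_num) (by norm_num) (by norm_num) (by norm_num) (by norm_num) (by norm_num)
    (by norm_num) (by norm_num)
    (by norm_num) (by norm_num) (by norm_num) (by norm_num) (by norm_num)
    rfl rfl rfl rfl rfl rfl (by norm_num) (by norm_num) (by norm_num) hp hpb hq hqb hpq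

theorem rowL7_61 {p q : ℝ} (hp : 0 < p) (hpb : p ≤ (10012471 / 10000000 : ℝ)) (hq : 0 < q) (hqb : q ≤ (7290157 / 2000000 : ℝ))
    (hpq : 1 < p * q) : NoSol 7 p q :=
  noSol_rect (n := 7) (by norm_num) (N := 7) (a := (170271 / 200000 : ℝ)) (b := (172197 / 250000 : ℝ))
    (τ := (1101479 / 5000000 : ℝ)) (A5 := (505303 / 1000000 : ℝ)) (A6 := (648487 / 1000000 : ℝ))
    (A9 := (791001 / 1000000 : ℝ)) (A10 := (110977 / 200000 : ℝ)) (s := (6407 / 100000 : ℝ)) (e := (1 / 10000000 : ℝ))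
    (pb := (10012471 / 10000000 : ℝ)) (qb := (7290157 / 2000000 : ℝ)) (by norm_num)
    (by norm_num) (by norm_num) (by norm_num) (by norm_num) (by norm_num) (by norm_num) (by norm_num)
    (by norm_num) (by norm_num)
    (by norm_num) (by norm_num) (by norm_num) (by norm_num) (by norm_num)
    rfl rfl rfl rfl rfl rfl (by norm_num) (by norm_num) (by norm_num) hp hpb hq hqb hpq

theorem rowL7_62 {p q : ℝ} (hp : 0 < p) (hpb : p ≤ (5033417 / 5000000 : ℝ)) (hq : 0 < q) (hqb : q ≤ (36163019 / 10000000 : ℝ))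
    (hpq : 1 < p * q) : NoSol 7 p q :=
  noSol_rect (n := 7) (by norm_num) (N := 7) (a := (13334 / 15625 : ℝ)) (b := (171673 / 250000 : ℝ))
    (τ := (225569 / 1000000 : ℝ)) (A5 := (499789 / 1000000 : ℝ)) (A6 := (327523 / 500000 : ℝ))
    (A9 := (98439 / 125000 : ℝ)) (A10 := (553329 / 1000000 : ℝ)) (s := (6463 / 100000 : ℝ)) (e := (1 / 10000000 : ℝ))
    (pb := (5033417 / 5000000 : ℝ)) (qb := (36163019 / 10000000 : ℝ)) (by norm_num)
    (by norm_num) (by norm_num) (by norm_num) (by norm_num) (by norm_num) (by norm_num) (by norm_num)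
    (by norm_num) (by norm_num)
    (by norm_num) (by norm_num) (by norm_num) (by norm_num) (by norm_num)
    rfl rfl rfl rfl rfl rfl (by norm_num) (by norm_num) (by norm_num) hp hpb hq hqb hpq

theorem rowL7_63 {p q : ℝ} (hp : 0 < p) (hpb : p ≤ (10121447 / 10000000 : ℝ)) (hq : 0 < q) (hqb : q ≤ (35876333 / 10000000 : ℝ))
    (hpq : 1 < p * q) : NoSol 7 p q :=
  noSol_rect (n := 7) (by norm_num) (N := 7) (a := (856249 / 1000000 : ℝ)) (b := (5533 / 8000 : ℝ))
    (τ := (1150757 / 5000000 : ℝ)) (A5 := (493673 / 1000000 : ℝ)) (A6 := (659933 / 1000000 : ℝ))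
    (A9 := (78901 / 100000 : ℝ)) (A10 := (137671 / 250000 : ℝ)) (s := (403 / 6250 : ℝ)) (e := (1 / 10000000 : ℝ))
    (pb := (10121447 / 10000000 : ℝ)) (qb := (35876333 / 10000000 : ℝ)) (by norm_num)
    (by norm_num) (by norm_num) (by norm_num) (by norm_num) (by norm_num) (by norm_num) (by norm_num)
    (by norm_num) (by norm_num)
    (by norm_num) (by norm_num) (by norm_num) (by norm_num) (by norm_num)
    rfl rfl rfl rfl rfl rfl (by norm_num) (by norm_num) (by norm_num) hp hpb hq hqb hpq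

theorem rowL7_64 {p q : ℝ} (hp : 0 < p) (hpb : p ≤ (5088389 / 5000000 : ℝ)) (hq : 0 < q) (hqb : q ≤ (35593423 / 10000000 : ℝ))
    (hpq : 1 < p * q) : NoSol 7 p q :=
  noSol_rect (n := 7) (by norm_num) (N := 7) (a := (429187 / 500000 : ℝ)) (b := (172577 / 250000 : ℝ))
    (τ := (2337253 / 10000000 : ℝ)) (A5 := (247549 / 500000 : ℝ)) (A6 := (10289 / 15625 : ℝ))
    (A9 := (786513 / 1000000 : ℝ)) (A10 := (137809 / 250000 : ℝ)) (s := (6471 / 100000 : ℝ)) (e := (1 / 10000000 : ℝ))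
    (pb := (5088389 / 5000000 : ℝ)) (qb := (35593423 / 10000000 : ℝ)) (by norm_num)
    (by norm_num) (by norm_num) (by norm_num) (by norm_num) (by norm_num) (by norm_num) (by norm_num)
    (by norm_num) (by norm_num)
    (by norm_num) (by norm_num) (by norm_num) (by norm_num) (by norm_num)
    rfl rfl rfl rfl rfl rfl (by norm_num) (by norm_num) (by norm_num) hp hpb hq hqb hpq

theorem rowL7_65 {p q : ℝ} (hp : 0 < p) (hpb : p ≤ (2558087 / 2500000 : ℝ)) (hq : 0 < q) (hqb : q ≤ (17655931 / 5000000 : ℝ))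
    (hpq : 1 < p * q) : NoSol 7 p q :=
  noSol_rect (n := 7) (by norm_num) (N := 7) (a := (428619 / 500000 : ℝ)) (b := (692903 / 1000000 : ℝ))
    (τ := (1194331 / 5000000 : ℝ)) (A5 := (123087 / 250000 : ℝ)) (A6 := (330481 / 500000 : ℝ))
    (A9 := (783093 / 1000000 : ℝ)) (A10 := (552099 / 1000000 : ℝ)) (s := (649 / 10000 : ℝ)) (e := (1 / 10000000 : ℝ))
    (pb := (2558087 / 2500000 : ℝ)) (qb := (17655931 / 5000000 : ℝ)) (by norm_num)
    (by norm_num) (by norm_num) (by norm_num) (by norm_num) (by norm_num) (by norm_num) (by norm_num)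
    (by norm_num) (by norm_num)
    (by norm_num) (by norm_num) (by norm_num) (by norm_num) (by norm_num)
    rfl rfl rfl rfl rfl rfl (by norm_num) (by norm_num) (by norm_num) hp hpb hq hqb hpq

theorem rowL7_66 {p q : ℝ} (hp : 0 < p) (hpb : p ≤ (10287463 / 10000000 : ℝ)) (hq : 0 < q) (hqb : q ≤ (17517043 / 5000000 : ℝ))
    (hpq : 1 < p * q) : NoSol 7 p q :=
  noSol_rect (n := 7) (by norm_num) (N := 7) (a := (869057 / 1000000 : ℝ)) (b := (700233 / 1000000 : ℝ))
    (τ := (1208997 / 5000000 : ℝ)) (A5 := (122751 / 250000 : ℝ)) (A6 := (65853 / 100000 : ℝ))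
    (A9 := (31519 / 40000 : ℝ)) (A10 := (5509 / 10000 : ℝ)) (s := (803 / 12500 : ℝ)) (e := (1 / 10000000 : ℝ))
    (pb := (10287463 / 10000000 : ℝ)) (qb := (17517043 / 5000000 : ℝ)) (by norm_num)
    (by norm_num) (by norm_num) (by norm_num) (by norm_num) (by norm_num) (by norm_num) (by norm_num)
    (by norm_num) (by norm_num)
    (by norm_num) (by norm_num) (by norm_num) (by norm_num) (by norm_num)
    rfl rfl rfl rfl rfl rfl (by norm_num) (by norm_num) (by norm_num) hp hpb hq hqb hpq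

theorem rowL7_67 {p q : ℝ} (hp : 0 < p) (hpb : p ≤ (10343783 / 10000000 : ℝ)) (hq : 0 < q) (hqb : q ≤ (34763403 / 10000000 : ℝ))
    (hpq : 1 < p * q) : NoSol 7 p q :=
  noSol_rect (n := 7) (by norm_num) (N := 7) (a := (880629 / 1000000 : ℝ)) (b := (8547 / 12500 : ℝ))
    (τ := (488617 / 2000000 : ℝ)) (A5 := (30801 / 62500 : ℝ)) (A6 := (131913 / 200000 : ℝ))
    (A9 := (787201 / 1000000 : ℝ)) (A10 := (273293 / 500000 : ℝ)) (s := (6519 / 100000 : ℝ)) (e := (1 / 10000000 : ℝ))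
    (pb := (10343783 / 10000000 : ℝ)) (qb := (34763403 / 10000000 : ℝ)) (by norm_num)
    (by norm_num) (by norm_num) (by norm_num) (by norm_num) (by norm_num) (by norm_num) (by norm_num)
    (by norm_num) (by norm_num)
    (by norm_num) (by norm_num) (by norm_num) (by norm_num) (by norm_num)
    rfl rfl rfl rfl rfl rfl (by norm_num) (by norm_num) (by norm_num) hp hpb hq hqb hpq

theorem rowL7_68 {p q : ℝ} (hp : 0 < p) (hpb : p ≤ (10400747 / 10000000 : ℝ)) (hq : 0 < q) (hqb : q ≤ (34491631 / 10000000 : ℝ))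
    (hpq : 1 < p * q) : NoSol 7 p q :=
  noSol_rect (n := 7) (by norm_num) (N := 7) (a := (110429 / 125000 : ℝ)) (b := (675089 / 1000000 : ℝ))
    (τ := (2525253 / 10000000 : ℝ)) (A5 := (123361 / 250000 : ℝ)) (A6 := (165177 / 250000 : ℝ))
    (A9 := (770577 / 1000000 : ℝ)) (A10 := (69553 / 125000 : ℝ)) (s := (1333 / 20000 : ℝ)) (e := (1 / 10000000 : ℝ))
    (pb := (10400747 / 10000000 : ℝ)) (qb := (34491631 / 10000000 : ℝ)) (by norm_num)
    (by norm_num) (by norm_num) (by norm_num) (by norm_num) (by norm_num) (by norm_num) (by norm_num)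
    (by norm_num) (by norm_num)
    (by norm_num) (by norm_num) (by norm_num) (by norm_num) (by norm_num)
    rfl rfl rfl rfl rfl rfl (by norm_num) (by norm_num) (by norm_num) hp hpb hq hqb hpq

theorem rowL7_69 {p q : ℝ} (hp : 0 < p) (hpb : p ≤ (653671 / 625000 : ℝ)) (hq : 0 < q) (hqb : q ≤ (34221587 / 10000000 : ℝ))
    (hpq : 1 < p * q) : NoSol 7 p q :=
  noSol_rect (n := 7) (by norm_num) (N := 7) (a := (891883 / 1000000 : ℝ)) (b := (17013 / 25000 : ℝ))
    (τ := (2549773 / 10000000 : ℝ)) (A5 := (494181 / 1000000 : ℝ)) (A6 := (164261 / 250000 : ℝ))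
    (A9 := (155027 / 200000 : ℝ)) (A10 := (554909 / 1000000 : ℝ)) (s := (661 / 10000 : ℝ)) (e := (1 / 10000000 : ℝ))
    (pb := (653671 / 625000 : ℝ)) (qb := (34221587 / 10000000 : ℝ)) (by norm_num)
    (by norm_num) (by norm_num) (by norm_num) (by norm_num) (by norm_num) (by norm_num) (by norm_num)
    (by norm_num) (by norm_num)
    (by norm_num) (by norm_num) (by norm_num) (by norm_num) (by norm_num)
    rfl rfl rfl rfl rfl rfl (by norm_num) (by norm_num) (by norm_num) hp hpb hq hqb hpq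

theorem rowL7_70 {p q : ℝ} (hp : 0 < p) (hpb : p ≤ (10517271 / 10000000 : ℝ)) (hq : 0 < q) (hqb : q ≤ (16975773 / 5000000 : ℝ))
    (hpq : 1 < p * q) : NoSol 7 p q :=
  noSol_rect (n := 7) (by norm_num) (N := 7) (a := (111117 / 125000 : ℝ)) (b := (676441 / 1000000 : ℝ))
    (τ := (519413 / 2000000 : ℝ)) (A5 := (247193 / 500000 : ℝ)) (A6 := (131789 / 200000 : ℝ))
    (A9 := (770339 / 1000000 : ℝ)) (A10 := (138639 / 250000 : ℝ)) (s := (3339 / 50000 : ℝ)) (e := (1 / 10000000 : ℝ))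
    (pb := (10517271 / 10000000 : ℝ)) (qb := (16975773 / 5000000 : ℝ)) (by norm_num)
    (by norm_num) (by norm_num) (by norm_num) (by norm_num) (by norm_num) (by norm_num) (by norm_num)
    (by norm_num) (by norm_num)
    (by norm_num) (by norm_num) (by norm_num) (by norm_num) (by norm_num)
    rfl rfl rfl rfl rfl rfl (by norm_num) (by norm_num) (by norm_num) hp hpb hq hqb hpq

theorem rowL7_71 {p q : ℝ} (hp : 0 < p) (hpb : p ≤ (1057671 / 1000000 : ℝ)) (hq : 0 < q) (hqb : q ≤ (33683807 / 10000000 : ℝ))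
    (hpq : 1 < p * q) : NoSol 7 p q :=
  noSol_rect (n := 7) (by norm_num) (N := 7) (a := (443829 / 500000 : ℝ)) (b := (677413 / 1000000 : ℝ))
    (τ := (2619319 / 10000000 : ℝ)) (A5 := (498441 / 1000000 : ℝ)) (A6 := (654479 / 1000000 : ℝ))
    (A9 := (30847 / 40000 : ℝ)) (A10 := (276729 / 500000 : ℝ)) (s := (6661 / 100000 : ℝ)) (e := (1 / 10000000 : ℝ))
    (pb := (1057671 / 1000000 : ℝ)) (qb := (33683807 / 10000000 : ℝ)) (by norm_num)
    (by norm_num) (by norm_num) (by norm_num) (by norm_num) (by norm_num) (by norm_num) (by norm_num)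
    (by norm_num) (by norm_num)
    (by norm_num) (by norm_num) (by norm_num) (by norm_num) (by norm_num)
    rfl rfl rfl rfl rfl rfl (by norm_num) (by norm_num) (by norm_num) hp hpb hq hqb hpq

theorem rowL7_72 {p q : ℝ} (hp : 0 < p) (hpb : p ≤ (10636699 / 10000000 : ℝ)) (hq : 0 < q) (hqb : q ≤ (33416781 / 10000000 : ℝ))
    (hpq : 1 < p * q) : NoSol 7 p q :=
  noSol_rect (n := 7) (by norm_num) (N := 7) (a := (27673 / 31250 : ℝ)) (b := (680901 / 1000000 : ℝ))
    (τ := (105831 / 400000 : ℝ)) (A5 := (250691 / 500000 : ℝ)) (A6 := (65069 / 100000 : ℝ))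
    (A9 := (772173 / 1000000 : ℝ)) (A10 := (276287 / 500000 : ℝ)) (s := (6633 / 100000 : ℝ)) (e := (1 / 10000000 : ℝ))
    (pb := (10636699 / 10000000 : ℝ)) (qb := (33416781 / 10000000 : ℝ)) (by norm_num)
    (by norm_num) (by norm_num) (by norm_num) (by norm_num) (by norm_num) (by norm_num) (by norm_num)
    (by norm_num) (by norm_num)
    (by norm_num) (by norm_num) (by norm_num) (by norm_num) (by norm_num)
    rfl rfl rfl rfl rfl rfl (by norm_num) (by norm_num) (by norm_num) hp hpb hq hqb hpq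

theorem rowL7_73 {p q : ℝ} (hp : 0 < p) (hpb : p ≤ (5348623 / 5000000 : ℝ)) (hq : 0 < q) (hqb : q ≤ (4144013 / 1250000 : ℝ))
    (hpq : 1 < p * q) : NoSol 7 p q :=
  noSol_rect (n := 7) (by norm_num) (N := 7) (a := (879149 / 1000000 : ℝ)) (b := (85757 / 125000 : ℝ))
    (τ := (2700053 / 10000000 : ℝ)) (A5 := (501093 / 1000000 : ℝ)) (A6 := (162713 / 250000 : ℝ))
    (A9 := (153571 / 200000 : ℝ)) (A10 := (554657 / 1000000 : ℝ)) (s := (3323 / 50000 : ℝ)) (e := (1 / 10000000 : ℝ))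
    (pb := (5348623 / 5000000 : ℝ)) (qb := (4144013 / 1250000 : ℝ)) (by norm_num)
    (by norm_num) (by norm_num) (by norm_num) (by norm_num) (by norm_num) (by norm_num) (by norm_num)
    (by norm_num) (by norm_num)
    (by norm_num) (by norm_num) (by norm_num) (by norm_num) (by norm_num)
    rfl rfl rfl rfl rfl rfl (by norm_num) (by norm_num) (by norm_num) hp hpb hq hqb hpq

theorem rowL7_74 {p q : ℝ} (hp : 0 < p) (hpb : p ≤ (10757697 / 10000000 : ℝ)) (hq : 0 < q) (hqb : q ≤ (16444873 / 5000000 : ℝ))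
    (hpq : 1 < p * q) : NoSol 7 p q :=
  noSol_rect (n := 7) (by norm_num) (N := 7) (a := (17789 / 20000 : ℝ)) (b := (675533 / 1000000 : ℝ))
    (τ := (2728501 / 10000000 : ℝ)) (A5 := (63209 / 125000 : ℝ)) (A6 := (25881 / 40000 : ℝ))
    (A9 := (11968 / 15625 : ℝ)) (A10 := (554419 / 1000000 : ℝ)) (s := (837 / 12500 : ℝ)) (e := (1 / 10000000 : ℝ))
    (pb := (10757697 / 10000000 : ℝ)) (qb := (16444873 / 5000000 : ℝ)) (by norm_num)
    (by norm_num) (by norm_num) (by norm_num) (by norm_num) (by norm_num) (by norm_num) (by norm_num)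
    (by norm_num) (by norm_num)
    (by norm_num) (by norm_num) (by norm_num) (by norm_num) (by norm_num)
    rfl rfl rfl rfl rfl rfl (by norm_num) (by norm_num) (by norm_num) hp hpb hq hqb hpq

theorem rowL7_75 {p q : ℝ} (hp : 0 < p) (hpb : p ≤ (10819411 / 10000000 : ℝ)) (hq : 0 < q) (hqb : q ≤ (16316233 / 5000000 : ℝ))
    (hpq : 1 < p * q) : NoSol 7 p q :=
  noSol_rect (n := 7) (by norm_num) (N := 7) (a := (431037 / 500000 : ℝ)) (b := (703343 / 1000000 : ℝ))
    (τ := (2779613 / 10000000 : ℝ)) (A5 := (495543 / 1000000 : ℝ)) (A6 := (655853 / 1000000 : ℝ))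
    (A9 := (773007 / 1000000 : ℝ)) (A10 := (109387 / 200000 : ℝ)) (s := (6571 / 100000 : ℝ)) (e := (1 / 10000000 : ℝ))
    (pb := (10819411 / 10000000 : ℝ)) (qb := (16316233 / 5000000 : ℝ)) (by norm_num)
    (by norm_num) (by norm_num) (by norm_num) (by norm_num) (by norm_num) (by norm_num) (by norm_num)
    (by norm_num) (by norm_num)
    (by norm_num) (by norm_num) (by norm_num) (by norm_num) (by norm_num)
    rfl rfl rfl rfl rfl rfl (by norm_num) (by norm_num) (by norm_num) hp hpb hq hqb hpq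

theorem rowL7_76 {p q : ℝ} (hp : 0 < p) (hpb : p ≤ (5440913 / 5000000 : ℝ)) (hq : 0 < q) (hqb : q ≤ (32374489 / 10000000 : ℝ))
    (hpq : 1 < p * q) : NoSol 7 p q :=
  noSol_rect (n := 7) (by norm_num) (N := 7) (a := (431357 / 500000 : ℝ)) (b := (352391 / 500000 : ℝ))
    (τ := (2819279 / 10000000 : ℝ)) (A5 := (248433 / 500000 : ℝ)) (A6 := (327207 / 500000 : ℝ))
    (A9 := (771983 / 1000000 : ℝ)) (A10 := (273291 / 500000 : ℝ)) (s := (6577 / 100000 : ℝ)) (e := (1 / 10000000 : ℝ))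
    (pb := (5440913 / 5000000 : ℝ)) (qb := (32374489 / 10000000 : ℝ)) (by norm_num)
    (by norm_num) (by norm_num) (by norm_num) (by norm_num) (by norm_num) (by norm_num) (by norm_num)
    (by norm_num) (by norm_num)
    (by norm_num) (by norm_num) (by norm_num) (by norm_num) (by norm_num)
    rfl rfl rfl rfl rfl rfl (by norm_num) (by norm_num) (by norm_num) hp hpb hq hqb hpq

theorem rowL7_77 {p q : ℝ} (hp : 0 < p) (hpb : p ≤ (1368117 / 1250000 : ℝ)) (hq : 0 < q) (hqb : q ≤ (32118261 / 10000000 : ℝ))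
    (hpq : 1 < p * q) : NoSol 7 p q :=
  noSol_rect (n := 7) (by norm_num) (N := 7) (a := (172901 / 200000 : ℝ)) (b := (353679 / 500000 : ℝ))
    (τ := (179969 / 625000 : ℝ)) (A5 := (497837 / 1000000 : ℝ)) (A6 := (652723 / 1000000 : ℝ))
    (A9 := (766331 / 1000000 : ℝ)) (A10 := (550823 / 1000000 : ℝ)) (s := (3301 / 50000 : ℝ)) (e := (1 / 10000000 : ℝ))
    (pb := (1368117 / 1250000 : ℝ)) (qb := (32118261 / 10000000 : ℝ)) (by norm_num)
    (by norm_num) (by norm_num) (by norm_num) (by norm_num) (by norm_num) (by norm_num) (by norm_num)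
    (by norm_num) (by norm_num)
    (by norm_num) (by norm_num) (by norm_num) (by norm_num) (by norm_num)
    rfl rfl rfl rfl rfl rfl (by norm_num) (by norm_num) (by norm_num) hp hpb hq hqb hpq

theorem rowL7_78 {p q : ℝ} (hp : 0 < p) (hpb : p ≤ (5504177 / 5000000 : ℝ)) (hq : 0 < q) (hqb : q ≤ (7965959 / 2500000 : ℝ))
    (hpq : 1 < p * q) : NoSol 7 p q :=
  noSol_rect (n := 7) (by norm_num) (N := 7) (a := (436247 / 500000 : ℝ)) (b := (70671 / 100000 : ℝ))
    (τ := (2935513 / 10000000 : ℝ)) (A5 := (247783 / 500000 : ℝ)) (A6 := (65477 / 100000 : ℝ))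
    (A9 := (764933 / 1000000 : ℝ)) (A10 := (550363 / 1000000 : ℝ)) (s := (6629 / 100000 : ℝ)) (e := (1 / 10000000 : ℝ))
    (pb := (5504177 / 5000000 : ℝ)) (qb := (7965959 / 2500000 : ℝ)) (by norm_num)
    (by norm_num) (by norm_num) (by norm_num) (by norm_num) (by norm_num) (by norm_num) (by norm_num)
    (by norm_num) (by norm_num)
    (by norm_num) (by norm_num) (by norm_num) (by norm_num) (by norm_num)
    rfl rfl rfl rfl rfl rfl (by norm_num) (by norm_num) (by norm_num) hp hpb hq hqb hpq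

theorem rowL7_79 {p q : ℝ} (hp : 0 < p) (hpb : p ≤ (1107301 / 1000000 : ℝ)) (hq : 0 < q) (hqb : q ≤ (31612759 / 10000000 : ℝ))
    (hpq : 1 < p * q) : NoSol 7 p q :=
  noSol_rect (n := 7) (by norm_num) (N := 7) (a := (43577 / 50000 : ℝ)) (b := (700997 / 1000000 : ℝ))
    (τ := (2952483 / 10000000 : ℝ)) (A5 := (250153 / 500000 : ℝ)) (A6 := (32553 / 50000 : ℝ))
    (A9 := (766537 / 1000000 : ℝ)) (A10 := (273501 / 500000 : ℝ)) (s := (1663 / 25000 : ℝ)) (e := (1 / 10000000 : ℝ))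
    (pb := (1107301 / 1000000 : ℝ)) (qb := (31612759 / 10000000 : ℝ)) (by norm_num)
    (by norm_num) (by norm_num) (by norm_num) (by norm_num) (by norm_num) (by norm_num) (by norm_num)
    (by norm_num) (by norm_num)
    (by norm_num) (by norm_num) (by norm_num) (by norm_num) (by norm_num)
    rfl rfl rfl rfl rfl rfl (by norm_num) (by norm_num) (by norm_num) hp hpb hq hqb hpq

end Vale.Agent.Lib.P100
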