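import Vale.Agent.Lib.P100.Cover

/-!
Rational certificates, dimension 7.
-/

namespace Vale.Agent.Lib.P100

theorem rowL7_80 {p q : ℝ} (hp : 0 < p) (hpb : p ≤ (2784659 / 2500000 : ℝ)) (hq : 0 < q) (hqb : q ≤ (3136139 / 1000000 : ℝ))
    (hpq : 1 < p * q) : NoSol 7 p q :=
  noSol_rect (n := 7) (by norm_num) (N := 7) (a := (438103 / 500000 : ℝ)) (b := (347401 / 500000 : ℝ))
    (τ := (1512297 / 5000000 : ℝ)) (A5 := (62123 / 125000 : ℝ)) (A6 := (655351 / 1000000 : ℝ))
    (A9 := (761973 / 1000000 : ℝ)) (A10 := (547681 / 1000000 : ℝ)) (s := (6729 / 100000 : ℝ)) (e := (1 / 10000000 : ℝ))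
    (pb := (2784659 / 2500000 : ℝ)) (qb := (3136139 / 1000000 : ℝ)) (by norm_num)
    (by norm_num) (by norm_num) (by norm_num) (by norm_num) (by norm_num) (by norm_num) (by norm_num)
    (by norm_num) (by norm_num)
    (by norm_num) (by norm_num) (by norm_num) (by norm_num) (by norm_num)
    rfl rfl rfl rfl rfl rfl (by norm_num) (by norm_num) (by norm_num) hp hpb hq hqb hpq

theorem rowL7_81 {p q : ℝ} (hp : 0 < p) (hpb : p ≤ (5602517 / 5000000 : ℝ)) (hq : 0 < q) (hqb : q ≤ (194443 / 62500 : ℝ))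
    (hpq : 1 < p * q) : NoSol 7 p q :=
  noSol_rect (n := 7) (by norm_num) (N := 7) (a := (175691 / 200000 : ℝ)) (b := (345479 / 500000 : ℝ))
    (τ := (19153 / 62500 : ℝ)) (A5 := (250163 / 500000 : ℝ)) (A6 := (652957 / 1000000 : ℝ))
    (A9 := (379747 / 500000 : ℝ)) (A10 := (109523 / 200000 : ℝ)) (s := (677 / 10000 : ℝ)) (e := (1 / 10000000 : ℝ))
    (pb := (5602517 / 5000000 : ℝ)) (qb := (194443 / 62500 : ℝ)) (by norm_num)
    (by norm_num) (by norm_num) (by norm_num) (by norm_num) (by norm_num) (by norm_num) (by norm_num)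
    (by norm_num) (by norm_num)
    (by norm_num) (by norm_num) (by norm_num) (by norm_num) (by norm_num)
    rfl rfl rfl rfl rfl rfl (by norm_num) (by norm_num) (by norm_num) hp hpb hq hqb hpq

theorem rowL7_82 {p q : ℝ} (hp : 0 < p) (hpb : p ≤ (2254463 / 2000000 : ℝ)) (hq : 0 < q) (hqb : q ≤ (30862043 / 10000000 : ℝ))
    (hpq : 1 < p * q) : NoSol 7 p q :=
  noSol_rect (n := 7) (by norm_num) (N := 7) (a := (882447 / 1000000 : ℝ)) (b := (693913 / 1000000 : ℝ))
    (τ := (1561267 / 5000000 : ℝ)) (A5 := (31197 / 62500 : ℝ)) (A6 := (653287 / 1000000 : ℝ))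
    (A9 := (18953 / 25000 : ℝ)) (A10 := (109643 / 200000 : ℝ)) (s := (6777 / 100000 : ℝ)) (e := (1 / 10000000 : ℝ))
    (pb := (2254463 / 2000000 : ℝ)) (qb := (30862043 / 10000000 : ℝ)) (by norm_num)
    (by norm_num) (by norm_num) (by norm_num) (by norm_num) (by norm_num) (by norm_num) (by norm_num)
    (by norm_num) (by norm_num)
    (by norm_num) (by norm_num) (by norm_num) (by norm_num) (by norm_num)
    rfl rfl rfl rfl rfl rfl (by norm_num) (by norm_num) (by norm_num) hp hpb hq hqb hpq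

theorem rowL7_83 {p q : ℝ} (hp : 0 < p) (hpb : p ≤ (11340469 / 10000000 : ℝ)) (hq : 0 < q) (hqb : q ≤ (15307253 / 5000000 : ℝ))
    (hpq : 1 < p * q) : NoSol 7 p q :=
  noSol_rect (n := 7) (by norm_num) (N := 7) (a := (881987 / 1000000 : ℝ)) (b := (695459 / 1000000 : ℝ))
    (τ := (635713 / 2000000 : ℝ)) (A5 := (249549 / 500000 : ℝ)) (A6 := (653063 / 1000000 : ℝ))
    (A9 := (151233 / 200000 : ℝ)) (A10 := (548787 / 1000000 : ℝ)) (s := (6791 / 100000 : ℝ)) (e := (1 / 10000000 : ℝ))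
    (pb := (11340469 / 10000000 : ℝ)) (qb := (15307253 / 5000000 : ℝ)) (by norm_num)
    (by norm_num) (by norm_num) (by norm_num) (by norm_num) (by norm_num) (by norm_num) (by norm_num)
    (by norm_num) (by norm_num)
    (by norm_num) (by norm_num) (by norm_num) (by norm_num) (by norm_num)
    rfl rfl rfl rfl rfl rfl (by norm_num) (by norm_num) (by norm_num) hp hpb hq hqb hpq

theorem rowL7_84 {p q : ℝ} (hp : 0 < p) (hpb : p ≤ (11409397 / 10000000 : ℝ)) (hq : 0 < q) (hqb : q ≤ (15184179 / 5000000 : ℝ))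
    (hpq : 1 < p * q) : NoSol 7 p q :=
  noSol_rect (n := 7) (by norm_num) (N := 7) (a := (879977 / 1000000 : ℝ)) (b := (174041 / 250000 : ℝ))
    (τ := (3221307 / 10000000 : ℝ)) (A5 := (500591 / 1000000 : ℝ)) (A6 := (16297 / 25000 : ℝ))
    (A9 := (151157 / 200000 : ℝ)) (A10 := (109501 / 200000 : ℝ)) (s := (6801 / 100000 : ℝ)) (e := (1 / 10000000 : ℝ))
    (pb := (11409397 / 10000000 : ℝ)) (qb := (15184179 / 5000000 : ℝ)) (by norm_num)
    (by norm_num) (by norm_num) (by norm_num) (by norm_num) (by norm_num) (by norm_num) (by norm_num)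
    (by norm_num) (by norm_num)
    (by norm_num) (by norm_num) (by norm_num) (by norm_num) (by norm_num)
    rfl rfl rfl rfl rfl rfl (by norm_num) (by norm_num) (by norm_num) hp hpb hq hqb hpq

theorem rowL7_85 {p q : ℝ} (hp : 0 < p) (hpb : p ≤ (2295843 / 2000000 : ℝ)) (hq : 0 < q) (hqb : q ≤ (30123997 / 10000000 : ℝ))
    (hpq : 1 < p * q) : NoSol 7 p q :=
  noSol_rect (n := 7) (by norm_num) (N := 7) (a := (879507 / 1000000 : ℝ)) (b := (695199 / 1000000 : ℝ))
    (τ := (657321 / 2000000 : ℝ)) (A5 := (499673 / 1000000 : ℝ)) (A6 := (653993 / 1000000 : ℝ))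
    (A9 := (188063 / 250000 : ℝ)) (A10 := (547537 / 1000000 : ℝ)) (s := (1713 / 25000 : ℝ)) (e := (1 / 10000000 : ℝ))
    (pb := (2295843 / 2000000 : ℝ)) (qb := (30123997 / 10000000 : ℝ)) (by norm_num)
    (by norm_num) (by norm_num) (by norm_num) (by norm_num) (by norm_num) (by norm_num) (by norm_num)
    (by norm_num) (by norm_num)
    (by norm_num) (by norm_num) (by norm_num) (by norm_num) (by norm_num)
    rfl rfl rfl rfl rfl rfl (by norm_num) (by norm_num) (by norm_num) hp hpb hq hqb hpq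

theorem rowL7_86 {p q : ℝ} (hp : 0 < p) (hpb : p ≤ (461997 / 400000 : ℝ)) (hq : 0 < q) (hqb : q ≤ (3735131 / 1250000 : ℝ))
    (hpq : 1 < p * q) : NoSol 7 p q :=
  noSol_rect (n := 7) (by norm_num) (N := 7) (a := (221187 / 250000 : ℝ)) (b := (346571 / 500000 : ℝ))
    (τ := (3342933 / 10000000 : ℝ)) (A5 := (249669 / 500000 : ℝ)) (A6 := (40869 / 62500 : ℝ))
    (A9 := (375709 / 500000 : ℝ)) (A10 := (547351 / 1000000 : ℝ)) (s := (6873 / 100000 : ℝ)) (e := (1 / 10000000 : ℝ))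
    (pb := (461997 / 400000 : ℝ)) (qb := (3735131 / 1250000 : ℝ)) (by norm_num)
    (by norm_num) (by norm_num) (by norm_num) (by norm_num) (by norm_num) (by norm_num) (by norm_num)
    (by norm_num) (by norm_num)
    (by norm_num) (by norm_num) (by norm_num) (by norm_num) (by norm_num)
    rfl rfl rfl rfl rfl rfl (by norm_num) (by norm_num) (by norm_num) hp hpb hq hqb hpq

theorem rowL7_87 {p q : ℝ} (hp : 0 < p) (hpb : p ≤ (1162133 / 1000000 : ℝ)) (hq : 0 < q) (hqb : q ≤ (29639551 / 10000000 : ℝ))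
    (hpq : 1 < p * q) : NoSol 7 p q :=
  noSol_rect (n := 7) (by norm_num) (N := 7) (a := (882349 / 1000000 : ℝ)) (b := (173959 / 250000 : ℝ))
    (τ := (338619 / 1000000 : ℝ)) (A5 := (124783 / 250000 : ℝ)) (A6 := (654413 / 1000000 : ℝ))
    (A9 := (94151 / 125000 : ℝ)) (A10 := (17001 / 31250 : ℝ)) (s := (6869 / 100000 : ℝ)) (e := (1 / 10000000 : ℝ))
    (pb := (1162133 / 1000000 : ℝ)) (qb := (29639551 / 10000000 : ℝ)) (by norm_num)
    (by norm_num) (by norm_num) (by norm_num) (by norm_num) (by norm_num) (by norm_num) (by norm_num)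
    (by norm_num) (by norm_num)
    (by norm_num) (by norm_num) (by norm_num) (by norm_num) (by norm_num)
    rfl rfl rfl rfl rfl rfl (by norm_num) (by norm_num) (by norm_num) hp hpb hq hqb hpq

theorem rowL7_88 {p q : ℝ} (hp : 0 < p) (hpb : p ≤ (5846803 / 5000000 : ℝ)) (hq : 0 < q) (hqb : q ≤ (7350051 / 2500000 : ℝ))
    (hpq : 1 < p * q) : NoSol 7 p q :=
  noSol_rect (n := 7) (by norm_num) (N := 7) (a := (175537 / 200000 : ℝ)) (b := (174939 / 250000 : ℝ))
    (τ := (3432361 / 10000000 : ℝ)) (A5 := (503731 / 1000000 : ℝ)) (A6 := (649689 / 1000000 : ℝ))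
    (A9 := (750087 / 1000000 : ℝ)) (A10 := (136531 / 250000 : ℝ)) (s := (6877 / 100000 : ℝ)) (e := (1 / 10000000 : ℝ))
    (pb := (5846803 / 5000000 : ℝ)) (qb := (7350051 / 2500000 : ℝ)) (by norm_num)
    (by norm_num) (by norm_num) (by norm_num) (by norm_num) (by norm_num) (by norm_num) (by norm_num)
    (by norm_num) (by norm_num)
    (by norm_num) (by norm_num) (by norm_num) (by norm_num) (by norm_num)
    rfl rfl rfl rfl rfl rfl (by norm_num) (by norm_num) (by norm_num) hp hpb hq hqb hpq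

theorem rowL7_89 {p q : ℝ} (hp : 0 < p) (hpb : p ≤ (11767063 / 10000000 : ℝ)) (hq : 0 < q) (hqb : q ≤ (29162439 / 10000000 : ℝ))
    (hpq : 1 < p * q) : NoSol 7 p q :=
  noSol_rect (n := 7) (by norm_num) (N := 7) (a := (426601 / 500000 : ℝ)) (b := (722219 / 1000000 : ℝ))
    (τ := (1771161 / 5000000 : ℝ)) (A5 := (99649 / 200000 : ℝ)) (A6 := (655387 / 1000000 : ℝ))
    (A9 := (74323 / 100000 : ℝ)) (A10 := (137457 / 250000 : ℝ)) (s := (857 / 12500 : ℝ)) (e := (1 / 10000000 : ℝ))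
    (pb := (11767063 / 10000000 : ℝ)) (qb := (29162439 / 10000000 : ℝ)) (by norm_num)
    (by norm_num) (by norm_num) (by norm_num) (by norm_num) (by norm_num) (by norm_num) (by norm_num)
    (by norm_num) (by norm_num)
    (by norm_num) (by norm_num) (by norm_num) (by norm_num) (by norm_num)
    rfl rfl rfl rfl rfl rfl (by norm_num) (by norm_num) (by norm_num) hp hpb hq hqb hpq

theorem rowL7_90 {p q : ℝ} (hp : 0 < p) (hpb : p ≤ (2960377 / 2500000 : ℝ)) (hq : 0 < q) (hqb : q ≤ (289253 / 100000 : ℝ))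
    (hpq : 1 < p * q) : NoSol 7 p q :=
  noSol_rect (n := 7) (by norm_num) (N := 7) (a := (107689 / 125000 : ℝ)) (b := (356663 / 500000 : ℝ))
    (τ := (902863 / 2500000 : ℝ)) (A5 := (249169 / 500000 : ℝ)) (A6 := (164021 / 250000 : ℝ))
    (A9 := (18497 / 25000 : ℝ)) (A10 := (550519 / 1000000 : ℝ)) (s := (3469 / 50000 : ℝ)) (e := (1 / 10000000 : ℝ))
    (pb := (2960377 / 2500000 : ℝ)) (qb := (289253 / 100000 : ℝ)) (by norm_num)
    (by norm_num) (by norm_num) (by norm_num) (by norm_num) (by norm_num) (by norm_num) (by norm_num)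
    (by norm_num) (by norm_num)
    (by norm_num) (by norm_num) (by norm_num) (by norm_num) (by norm_num)
    rfl rfl rfl rfl rfl rfl (by norm_num) (by norm_num) (by norm_num) hp hpb hq hqb hpq

theorem rowL7_91 {p q : ℝ} (hp : 0 < p) (hpb : p ≤ (5958493 / 5000000 : ℝ)) (hq : 0 < q) (hqb : q ≤ (28689481 / 10000000 : ℝ))
    (hpq : 1 < p * q) : NoSol 7 p q :=
  noSol_rect (n := 7) (by norm_num) (N := 7) (a := (215513 / 250000 : ℝ)) (b := (178153 / 250000 : ℝ))
    (τ := (732447 / 2000000 : ℝ)) (A5 := (100027 / 200000 : ℝ)) (A6 := (327731 / 500000 : ℝ))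
    (A9 := (29549 / 40000 : ℝ)) (A10 := (109807 / 200000 : ℝ)) (s := (871 / 12500 : ℝ)) (e := (1 / 10000000 : ℝ))
    (pb := (5958493 / 5000000 : ℝ)) (qb := (28689481 / 10000000 : ℝ)) (by norm_num)
    (by norm_num) (by norm_num) (by norm_num) (by norm_num) (by norm_num) (by norm_num) (by norm_num)
    (by norm_num) (by norm_num)
    (by norm_num) (by norm_num) (by norm_num) (by norm_num) (by norm_num)
    rfl rfl rfl rfl rfl rfl (by norm_num) (by norm_num) (by norm_num) hp hpb hq hqb hpq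

theorem rowL7_92 {p q : ℝ} (hp : 0 < p) (hpb : p ≤ (11993251 / 10000000 : ℝ)) (hq : 0 < q) (hqb : q ≤ (1778431 / 625000 : ℝ))
    (hpq : 1 < p * q) : NoSol 7 p q :=
  noSol_rect (n := 7) (by norm_num) (N := 7) (a := (174663 / 200000 : ℝ)) (b := (350541 / 500000 : ℝ))
    (τ := (74417 / 200000 : ℝ)) (A5 := (501101 / 1000000 : ℝ)) (A6 := (32739 / 50000 : ℝ))
    (A9 := (368723 / 500000 : ℝ)) (A10 := (548639 / 1000000 : ℝ)) (s := (7039 / 100000 : ℝ)) (e := (1 / 10000000 : ℝ))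
    (pb := (11993251 / 10000000 : ℝ)) (qb := (1778431 / 625000 : ℝ)) (by norm_num)
    (by norm_num) (by norm_num) (by norm_num) (by norm_num) (by norm_num) (by norm_num) (by norm_num)
    (by norm_num) (by norm_num)
    (by norm_num) (by norm_num) (by norm_num) (by norm_num) (by norm_num)
    rfl rfl rfl rfl rfl rfl (by norm_num) (by norm_num) (by norm_num) hp hpb hq hqb hpq

theorem rowL7_93 {p q : ℝ} (hp : 0 < p) (hpb : p ≤ (6035383 / 5000000 : ℝ)) (hq : 0 < q) (hqb : q ≤ (14111171 / 5000000 : ℝ))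
    (hpq : 1 < p * q) : NoSol 7 p q :=
  noSol_rect (n := 7) (by norm_num) (N := 7) (a := (878709 / 1000000 : ℝ)) (b := (706649 / 1000000 : ℝ))
    (τ := (237143 / 625000 : ℝ)) (A5 := (498989 / 1000000 : ℝ)) (A6 := (327919 / 500000 : ℝ))
    (A9 := (737229 / 1000000 : ℝ)) (A10 := (548647 / 1000000 : ℝ)) (s := (703 / 10000 : ℝ)) (e := (1 / 10000000 : ℝ))
    (pb := (6035383 / 5000000 : ℝ)) (qb := (14111171 / 5000000 : ℝ)) (by norm_num)
    (by norm_num) (by norm_num) (by norm_num) (by norm_num) (by norm_num) (by norm_num) (by norm_num)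
    (by norm_num) (by norm_num)
    (by norm_num) (by norm_num) (by norm_num) (by norm_num) (by norm_num)
    rfl rfl rfl rfl rfl rfl (by norm_num) (by norm_num) (by norm_num) hp hpb hq hqb hpq

theorem rowL7_94 {p q : ℝ} (hp : 0 < p) (hpb : p ≤ (12149271 / 10000000 : ℝ)) (hq : 0 < q) (hqb : q ≤ (13995229 / 5000000 : ℝ))
    (hpq : 1 < p * q) : NoSol 7 p q :=
  noSol_rect (n := 7) (by norm_num) (N := 7) (a := (436979 / 500000 : ℝ)) (b := (178231 / 250000 : ℝ))
    (τ := (1930227 / 5000000 : ℝ)) (A5 := (62407 / 125000 : ℝ)) (A6 := (656039 / 1000000 : ℝ))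
    (A9 := (91957 / 125000 : ℝ)) (A10 := (548269 / 1000000 : ℝ)) (s := (1759 / 25000 : ℝ)) (e := (1 / 10000000 : ℝ))
    (pb := (12149271 / 10000000 : ℝ)) (qb := (13995229 / 5000000 : ℝ)) (by norm_num)
    (by norm_num) (by norm_num) (by norm_num) (by norm_num) (by norm_num) (by norm_num) (by norm_num)
    (by norm_num) (by norm_num)
    (by norm_num) (by norm_num) (by norm_num) (by norm_num) (by norm_num)
    rfl rfl rfl rfl rfl rfl (by norm_num) (by norm_num) (by norm_num) hp hpb hq hqb hpq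

theorem rowL7_95 {p q : ℝ} (hp : 0 < p) (hpb : p ≤ (2445771 / 2000000 : ℝ)) (hq : 0 < q) (hqb : q ≤ (27760087 / 10000000 : ℝ))
    (hpq : 1 < p * q) : NoSol 7 p q :=
  noSol_rect (n := 7) (by norm_num) (N := 7) (a := (874763 / 1000000 : ℝ)) (b := (713079 / 1000000 : ℝ))
    (τ := (156653 / 400000 : ℝ)) (A5 := (15663 / 31250 : ℝ)) (A6 := (653841 / 1000000 : ℝ))
    (A9 := (734983 / 1000000 : ℝ)) (A10 := (137037 / 250000 : ℝ)) (s := (1763 / 25000 : ℝ)) (e := (1 / 10000000 : ℝ))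
    (pb := (2445771 / 2000000 : ℝ)) (qb := (27760087 / 10000000 : ℝ)) (by norm_num)
    (by norm_num) (by norm_num) (by norm_num) (by norm_num) (by norm_num) (by norm_num) (by norm_num)
    (by norm_num) (by norm_num)
    (by norm_num) (by norm_num) (by norm_num) (by norm_num) (by norm_num)
    rfl rfl rfl rfl rfl rfl (by norm_num) (by norm_num) (by norm_num) hp hpb hq hqb hpq

theorem rowL7_96 {p q : ℝ} (hp : 0 < p) (hpb : p ≤ (6154623 / 5000000 : ℝ)) (hq : 0 < q) (hqb : q ≤ (13765507 / 5000000 : ℝ))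
    (hpq : 1 < p * q) : NoSol 7 p q :=
  noSol_rect (n := 7) (by norm_num) (N := 7) (a := (108707 / 125000 : ℝ)) (b := (707557 / 1000000 : ℝ))
    (τ := (3947363 / 10000000 : ℝ)) (A5 := (503581 / 1000000 : ℝ)) (A6 := (652769 / 1000000 : ℝ))
    (A9 := (368979 / 500000 : ℝ)) (A10 := (271499 / 500000 : ℝ)) (s := (7079 / 100000 : ℝ)) (e := (1 / 10000000 : ℝ))
    (pb := (6154623 / 5000000 : ℝ)) (qb := (13765507 / 5000000 : ℝ)) (by norm_num)
    (by norm_num) (by norm_num) (by norm_num) (by norm_num) (by norm_num) (by norm_num) (by norm_num)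
    (by norm_num) (by norm_num)
    (by norm_num) (by norm_num) (by norm_num) (by norm_num) (by norm_num)
    rfl rfl rfl rfl rfl rfl (by norm_num) (by norm_num) (by norm_num) hp hpb hq hqb hpq

theorem rowL7_97 {p q : ℝ} (hp : 0 < p) (hpb : p ≤ (193599 / 156250 : ℝ)) (hq : 0 < q) (hqb : q ≤ (27304053 / 10000000 : ℝ))
    (hpq : 1 < p * q) : NoSol 7 p q :=
  noSol_rect (n := 7) (by norm_num) (N := 7) (a := (868291 / 1000000 : ℝ)) (b := (704537 / 1000000 : ℝ))
    (τ := (2024287 / 5000000 : ℝ)) (A5 := (10107 / 20000 : ℝ)) (A6 := (653259 / 1000000 : ℝ))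
    (A9 := (728279 / 1000000 : ℝ)) (A10 := (547893 / 1000000 : ℝ)) (s := (1797 / 25000 : ℝ)) (e := (1 / 10000000 : ℝ))
    (pb := (193599 / 156250 : ℝ)) (qb := (27304053 / 10000000 : ℝ)) (by norm_num)
    (by norm_num) (by norm_num) (by norm_num) (by norm_num) (by norm_num) (by norm_num) (by norm_num)
    (by norm_num) (by norm_num)
    (by norm_num) (by norm_num) (by norm_num) (by norm_num) (by norm_num)
    rfl rfl rfl rfl rfl rfl (by norm_num) (by norm_num) (by norm_num) hp hpb hq hqb hpq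

theorem rowL7_98 {p q : ℝ} (hp : 0 < p) (hpb : p ≤ (12473007 / 10000000 : ℝ)) (hq : 0 < q) (hqb : q ≤ (1692469 / 625000 : ℝ))
    (hpq : 1 < p * q) : NoSol 7 p q :=
  noSol_rect (n := 7) (by norm_num) (N := 7) (a := (54607 / 62500 : ℝ)) (b := (141003 / 200000 : ℝ))
    (τ := (4105351 / 10000000 : ℝ)) (A5 := (505019 / 1000000 : ℝ)) (A6 := (163237 / 250000 : ℝ))
    (A9 := (730507 / 1000000 : ℝ)) (A10 := (545523 / 1000000 : ℝ)) (s := (449 / 6250 : ℝ)) (e := (1 / 10000000 : ℝ))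
    (pb := (12473007 / 10000000 : ℝ)) (qb := (1692469 / 625000 : ℝ)) (by norm_num)
    (by norm_num) (by norm_num) (by norm_num) (by norm_num) (by norm_num) (by norm_num) (by norm_num)
    (by norm_num) (by norm_num)
    (by norm_num) (by norm_num) (by norm_num) (by norm_num) (by norm_num)
    rfl rfl rfl rfl rfl rfl (by norm_num) (by norm_num) (by norm_num) hp hpb hq hqb hpq

theorem rowL7_99 {p q : ℝ} (hp : 0 < p) (hpb : p ≤ (12556227 / 10000000 : ℝ)) (hq : 0 < q) (hqb : q ≤ (1342749 / 500000 : ℝ))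
    (hpq : 1 < p * q) : NoSol 7 p q :=
  noSol_rect (n := 7) (by norm_num) (N := 7) (a := (112849 / 125000 : ℝ)) (b := (689373 / 1000000 : ℝ))
    (τ := (2130507 / 5000000 : ℝ)) (A5 := (50141 / 100000 : ℝ)) (A6 := (657389 / 1000000 : ℝ))
    (A9 := (359169 / 500000 : ℝ)) (A10 := (277009 / 500000 : ℝ)) (s := (3673 / 50000 : ℝ)) (e := (1 / 10000000 : ℝ))
    (pb := (12556227 / 10000000 : ℝ)) (qb := (1342749 / 500000 : ℝ)) (by norm_num)
    (by norm_num) (by norm_num) (by norm_num) (by norm_num) (by norm_num) (by norm_num) (by norm_num)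
    (by norm_num) (by norm_num)
    (by norm_num) (by norm_num) (by norm_num) (by norm_num) (by norm_num)
    rfl rfl rfl rfl rfl rfl (by norm_num) (by norm_num) (by norm_num) hp hpb hq hqb hpq

theorem rowL7_100 {p q : ℝ} (hp : 0 < p) (hpb : p ≤ (3160371 / 2500000 : ℝ)) (hq : 0 < q) (hqb : q ≤ (1664583 / 625000 : ℝ))
    (hpq : 1 < p * q) : NoSol 7 p q :=
  noSol_rect (n := 7) (by norm_num) (N := 7) (a := (45429 / 50000 : ℝ)) (b := (688557 / 1000000 : ℝ))
    (τ := (4290281 / 10000000 : ℝ)) (A5 := (125747 / 250000 : ℝ)) (A6 := (655799 / 1000000 : ℝ))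
    (A9 := (723681 / 1000000 : ℝ)) (A10 := (548281 / 1000000 : ℝ)) (s := (229 / 3125 : ℝ)) (e := (1 / 10000000 : ℝ))
    (pb := (3160371 / 2500000 : ℝ)) (qb := (1664583 / 625000 : ℝ)) (by norm_num)
    (by norm_num) (by norm_num) (by norm_num) (by norm_num) (by norm_num) (by norm_num) (by norm_num)
    (by norm_num) (by norm_num)
    (by norm_num) (by norm_num) (by norm_num) (by norm_num) (by norm_num)
    rfl rfl rfl rfl rfl rfl (by norm_num) (by norm_num) (by norm_num) hp hpb hq hqb hpq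

theorem rowL7_101 {p q : ℝ} (hp : 0 < p) (hpb : p ≤ (127279 / 100000 : ℝ)) (hq : 0 < q) (hqb : q ≤ (26410657 / 10000000 : ℝ))
    (hpq : 1 < p * q) : NoSol 7 p q :=
  noSol_rect (n := 7) (by norm_num) (N := 7) (a := (908293 / 1000000 : ℝ)) (b := (172607 / 250000 : ℝ))
    (τ := (2192171 / 5000000 : ℝ)) (A5 := (250829 / 500000 : ℝ)) (A6 := (328773 / 500000 : ℝ))
    (A9 := (721021 / 1000000 : ℝ)) (A10 := (548991 / 1000000 : ℝ)) (s := (1841 / 25000 : ℝ)) (e := (1 / 10000000 : ℝ))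
    (pb := (127279 / 100000 : ℝ)) (qb := (26410657 / 10000000 : ℝ)) (by norm_num)
    (by norm_num) (by norm_num) (by norm_num) (by norm_num) (by norm_num) (by norm_num) (by norm_num)
    (by norm_num) (by norm_num)
    (by norm_num) (by norm_num) (by norm_num) (by norm_num) (by norm_num)
    rfl rfl rfl rfl rfl rfl (by norm_num) (by norm_num) (by norm_num) hp hpb hq hqb hpq

theorem rowL7_102 {p q : ℝ} (hp : 0 < p) (hpb : p ≤ (12815559 / 10000000 : ℝ)) (hq : 0 < q) (hqb : q ≤ (13094689 / 5000000 : ℝ))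
    (hpq : 1 < p * q) : NoSol 7 p q :=
  noSol_rect (n := 7) (by norm_num) (N := 7) (a := (463499 / 500000 : ℝ)) (b := (338489 / 500000 : ℝ))
    (τ := (4411203 / 10000000 : ℝ)) (A5 := (100251 / 200000 : ℝ)) (A6 := (13153 / 20000 : ℝ))
    (A9 := (729143 / 1000000 : ℝ)) (A10 := (5409 / 10000 : ℝ)) (s := (7351 / 100000 : ℝ)) (e := (1 / 10000000 : ℝ))
    (pb := (12815559 / 10000000 : ℝ)) (qb := (13094689 / 5000000 : ℝ)) (by norm_num)
    (by norm_num) (by norm_num) (by norm_num) (by norm_num) (by norm_num) (by norm_num) (by norm_num)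
    (by norm_num) (by norm_num)
    (by norm_num) (by norm_num) (by norm_num) (by norm_num) (by norm_num)
    rfl rfl rfl rfl rfl rfl (by norm_num) (by norm_num) (by norm_num) hp hpb hq hqb hpq

theorem rowL7_103 {p q : ℝ} (hp : 0 < p) (hpb : p ≤ (1290473 / 1000000 : ℝ)) (hq : 0 < q) (hqb : q ≤ (25969329 / 10000000 : ℝ))
    (hpq : 1 < p * q) : NoSol 7 p q :=
  noSol_rect (n := 7) (by norm_num) (N := 7) (a := (185497 / 200000 : ℝ)) (b := (673949 / 1000000 : ℝ))
    (τ := (7037 / 15625 : ℝ)) (A5 := (503319 / 1000000 : ℝ)) (A6 := (164199 / 250000 : ℝ))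
    (A9 := (723617 / 1000000 : ℝ)) (A10 := (135903 / 250000 : ℝ)) (s := (3713 / 50000 : ℝ)) (e := (1 / 10000000 : ℝ))
    (pb := (1290473 / 1000000 : ℝ)) (qb := (25969329 / 10000000 : ℝ)) (by norm_num)
    (by norm_num) (by norm_num) (by norm_num) (by norm_num) (by norm_num) (by norm_num) (by norm_num)
    (by norm_num) (by norm_num)
    (by norm_num) (by norm_num) (by norm_num) (by norm_num) (by norm_num)
    rfl rfl rfl rfl rfl rfl (by norm_num) (by norm_num) (by norm_num) hp hpb hq hqb hpq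

theorem rowL7_104 {p q : ℝ} (hp : 0 < p) (hpb : p ≤ (1299501 / 1000000 : ℝ)) (hq : 0 < q) (hqb : q ≤ (2574991 / 1000000 : ℝ))
    (hpq : 1 < p * q) : NoSol 7 p q :=
  noSol_rect (n := 7) (by norm_num) (N := 7) (a := (46321 / 50000 : ℝ)) (b := (672661 / 1000000 : ℝ))
    (τ := (916289 / 2000000 : ℝ)) (A5 := (31447 / 62500 : ℝ)) (A6 := (658049 / 1000000 : ℝ))
    (A9 := (180763 / 250000 : ℝ)) (A10 := (541799 / 1000000 : ℝ)) (s := (933 / 12500 : ℝ)) (e := (1 / 10000000 : ℝ))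
    (pb := (1299501 / 1000000 : ℝ)) (qb := (2574991 / 1000000 : ℝ)) (by norm_num)
    (by norm_num) (by norm_num) (by norm_num) (by norm_num) (by norm_num) (by norm_num) (by norm_num)
    (by norm_num) (by norm_num)
    (by norm_num) (by norm_num) (by norm_num) (by norm_num) (by norm_num)
    rfl rfl rfl rfl rfl rfl (by norm_num) (by norm_num) (by norm_num) hp hpb hq hqb hpq

theorem rowL7_105 {p q : ℝ} (hp : 0 < p) (hpb : p ≤ (1635751 / 1250000 : ℝ)) (hq : 0 < q) (hqb : q ≤ (12766087 / 5000000 : ℝ))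
    (hpq : 1 < p * q) : NoSol 7 p q :=
  noSol_rect (n := 7) (by norm_num) (N := 7) (a := (115361 / 125000 : ℝ)) (b := (681849 / 1000000 : ℝ))
    (τ := (28789 / 62500 : ℝ)) (A5 := (510283 / 1000000 : ℝ)) (A6 := (162331 / 250000 : ℝ))
    (A9 := (181241 / 250000 : ℝ)) (A10 := (1083 / 2000 : ℝ)) (s := (3703 / 50000 : ℝ)) (e := (1 / 10000000 : ℝ))
    (pb := (1635751 / 1250000 : ℝ)) (qb := (12766087 / 5000000 : ℝ)) (by norm_num)
    (by norm_num) (by norm_num) (by norm_num) (by norm_num) (by norm_num) (by norm_num) (by norm_num)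
    (by norm_num) (by norm_num)
    (by norm_num) (by norm_num) (by norm_num) (by norm_num) (by norm_num)
    rfl rfl rfl rfl rfl rfl (by norm_num) (by norm_num) (by norm_num) hp hpb hq hqb hpq

theorem rowL7_106 {p q : ℝ} (hp : 0 < p) (hpb : p ≤ (13178797 / 10000000 : ℝ)) (hq : 0 < q) (hqb : q ≤ (25317067 / 10000000 : ℝ))
    (hpq : 1 < p * q) : NoSol 7 p q :=
  noSol_rect (n := 7) (by norm_num) (N := 7) (a := (45951 / 50000 : ℝ)) (b := (682787 / 1000000 : ℝ))
    (τ := (588459 / 1250000 : ℝ)) (A5 := (127009 / 250000 : ℝ)) (A6 := (65383 / 100000 : ℝ))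
    (A9 := (90333 / 125000 : ℝ)) (A10 := (53979 / 100000 : ℝ)) (s := (187 / 2500 : ℝ)) (e := (1 / 10000000 : ℝ))
    (pb := (13178797 / 10000000 : ℝ)) (qb := (25317067 / 10000000 : ℝ)) (by norm_num)
    (by norm_num) (by norm_num) (by norm_num) (by norm_num) (by norm_num) (by norm_num) (by norm_num)
    (by norm_num) (by norm_num)
    (by norm_num) (by norm_num) (by norm_num) (by norm_num) (by norm_num)
    rfl rfl rfl rfl rfl rfl (by norm_num) (by norm_num) (by norm_num) hp hpb hq hqb hpq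

theorem rowL7_107 {p q : ℝ} (hp : 0 < p) (hpb : p ≤ (3318291 / 2500000 : ℝ)) (hq : 0 < q) (hqb : q ≤ (25102099 / 10000000 : ℝ))
    (hpq : 1 < p * q) : NoSol 7 p q :=
  noSol_rect (n := 7) (by norm_num) (N := 7) (a := (916383 / 1000000 : ℝ)) (b := (343547 / 500000 : ℝ))
    (τ := (962277 / 2000000 : ℝ)) (A5 := (126887 / 250000 : ℝ)) (A6 := (653991 / 1000000 : ℝ))
    (A9 := (719893 / 1000000 : ℝ)) (A10 := (135421 / 250000 : ℝ)) (s := (7499 / 100000 : ℝ)) (e := (1 / 10000000 : ℝ))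
    (pb := (3318291 / 2500000 : ℝ)) (qb := (25102099 / 10000000 : ℝ)) (by norm_num)
    (by norm_num) (by norm_num) (by norm_num) (by norm_num) (by norm_num) (by norm_num) (by norm_num)
    (by norm_num) (by norm_num)
    (by norm_num) (by norm_num) (by norm_num) (by norm_num) (by norm_num)
    rfl rfl rfl rfl rfl rfl (by norm_num) (by norm_num) (by norm_num) hp hpb hq hqb hpq

theorem rowL7_108 {p q : ℝ} (hp : 0 < p) (hpb : p ≤ (6684189 / 5000000 : ℝ)) (hq : 0 < q) (hqb : q ≤ (6221967 / 2500000 : ℝ))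
    (hpq : 1 < p * q) : NoSol 7 p q :=
  noSol_rect (n := 7) (by norm_num) (N := 7) (a := (914789 / 1000000 : ℝ)) (b := (345613 / 500000 : ℝ))
    (τ := (4872051 / 10000000 : ℝ)) (A5 := (127727 / 250000 : ℝ)) (A6 := (130083 / 200000 : ℝ))
    (A9 := (719961 / 1000000 : ℝ)) (A10 := (541159 / 1000000 : ℝ)) (s := (7497 / 100000 : ℝ)) (e := (1 / 10000000 : ℝ))
    (pb := (6684189 / 5000000 : ℝ)) (qb := (6221967 / 2500000 : ℝ)) (by norm_num)
    (by norm_num) (by norm_num) (by norm_num) (by norm_num) (by norm_num) (by norm_num) (by norm_num)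
    (by norm_num) (by norm_num)
    (by norm_num) (by norm_num) (by norm_num) (by norm_num) (by norm_num)
    rfl rfl rfl rfl rfl rfl (by norm_num) (by norm_num) (by norm_num) hp hpb hq hqb hpq

theorem rowL7_109 {p q : ℝ} (hp : 0 < p) (hpb : p ≤ (67327 / 50000 : ℝ)) (hq : 0 < q) (hqb : q ≤ (2467607 / 1000000 : ℝ))
    (hpq : 1 < p * q) : NoSol 7 p q :=
  noSol_rect (n := 7) (by norm_num) (N := 7) (a := (462291 / 500000 : ℝ)) (b := (169761 / 250000 : ℝ))
    (τ := (5058399 / 10000000 : ℝ)) (A5 := (4021 / 8000 : ℝ)) (A6 := (66163 / 100000 : ℝ))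
    (A9 := (89049 / 125000 : ℝ)) (A10 := (543207 / 1000000 : ℝ)) (s := (957 / 12500 : ℝ)) (e := (1 / 10000000 : ℝ))
    (pb := (67327 / 50000 : ℝ)) (qb := (2467607 / 1000000 : ℝ)) (by norm_num)
    (by norm_num) (by norm_num) (by norm_num) (by norm_num) (by norm_num) (by norm_num) (by norm_num)
    (by norm_num) (by norm_num)
    (by norm_num) (by norm_num) (by norm_num) (by norm_num) (by norm_num)
    rfl rfl rfl rfl rfl rfl (by norm_num) (by norm_num) (by norm_num) hp hpb hq hqb hpq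

theorem rowL7_110 {p q : ℝ} (hp : 0 < p) (hpb : p ≤ (6781989 / 5000000 : ℝ)) (hq : 0 < q) (hqb : q ≤ (3058077 / 1250000 : ℝ))
    (hpq : 1 < p * q) : NoSol 7 p q :=
  noSol_rect (n := 7) (by norm_num) (N := 7) (a := (922083 / 1000000 : ℝ)) (b := (681937 / 1000000 : ℝ))
    (τ := (5144709 / 10000000 : ℝ)) (A5 := (505441 / 1000000 : ℝ)) (A6 := (329667 / 500000 : ℝ))
    (A9 := (709743 / 1000000 : ℝ)) (A10 := (544371 / 1000000 : ℝ)) (s := (769 / 10000 : ℝ)) (e := (1 / 10000000 : ℝ))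
    (pb := (6781989 / 5000000 : ℝ)) (qb := (3058077 / 1250000 : ℝ)) (by norm_num)
    (by norm_num) (by norm_num) (by norm_num) (by norm_num) (by norm_num) (by norm_num) (by norm_num)
    (by norm_num) (by norm_num)
    (by norm_num) (by norm_num) (by norm_num) (by norm_num) (by norm_num)
    rfl rfl rfl rfl rfl rfl (by norm_num) (by norm_num) (by norm_num) hp hpb hq hqb hpq

theorem rowL7_111 {p q : ℝ} (hp : 0 < p) (hpb : p ≤ (109303 / 80000 : ℝ)) (hq : 0 < q) (hqb : q ≤ (12127073 / 5000000 : ℝ))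
    (hpq : 1 < p * q) : NoSol 7 p q :=
  noSol_rect (n := 7) (by norm_num) (N := 7) (a := (921113 / 1000000 : ℝ)) (b := (69697 / 100000 : ℝ))
    (τ := (208301 / 400000 : ℝ)) (A5 := (503677 / 1000000 : ℝ)) (A6 := (659909 / 1000000 : ℝ))
    (A9 := (44731 / 62500 : ℝ)) (A10 := (269561 / 500000 : ℝ)) (s := (7611 / 100000 : ℝ)) (e := (1 / 10000000 : ℝ))
    (pb := (109303 / 80000 : ℝ)) (qb := (12127073 / 5000000 : ℝ)) (by norm_num)
    (by norm_num) (by norm_num) (by norm_num) (by norm_num) (by norm_num) (by norm_num) (by norm_num)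
    (by norm_num) (by norm_num)
    (by norm_num) (by norm_num) (by norm_num) (by norm_num) (by norm_num)
    rfl rfl rfl rfl rfl rfl (by norm_num) (by norm_num) (by norm_num) hp hpb hq hqb hpq

theorem rowL7_112 {p q : ℝ} (hp : 0 < p) (hpb : p ≤ (13764059 / 10000000 : ℝ)) (hq : 0 < q) (hqb : q ≤ (24047293 / 10000000 : ℝ))
    (hpq : 1 < p * q) : NoSol 7 p q :=
  noSol_rect (n := 7) (by norm_num) (N := 7) (a := (913723 / 1000000 : ℝ)) (b := (69761 / 100000 : ℝ))
    (τ := (1324541 / 2500000 : ℝ)) (A5 := (505233 / 1000000 : ℝ)) (A6 := (82381 / 125000 : ℝ))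
    (A9 := (28563 / 40000 : ℝ)) (A10 := (10783 / 20000 : ℝ)) (s := (7653 / 100000 : ℝ)) (e := (1 / 10000000 : ℝ))
    (pb := (13764059 / 10000000 : ℝ)) (qb := (24047293 / 10000000 : ℝ)) (by norm_num)
    (by norm_num) (by norm_num) (by norm_num) (by norm_num) (by norm_num) (by norm_num) (by norm_num)
    (by norm_num) (by norm_num)
    (by norm_num) (by norm_num) (by norm_num) (by norm_num) (by norm_num)
    rfl rfl rfl rfl rfl rfl (by norm_num) (by norm_num) (by norm_num) hp hpb hq hqb hpq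

theorem rowL7_113 {p q : ℝ} (hp : 0 < p) (hpb : p ≤ (13865873 / 10000000 : ℝ)) (hq : 0 < q) (hqb : q ≤ (953599 / 400000 : ℝ))
    (hpq : 1 < p * q) : NoSol 7 p q :=
  noSol_rect (n := 7) (by norm_num) (N := 7) (a := (912799 / 1000000 : ℝ)) (b := (88019 / 125000 : ℝ))
    (τ := (1089759 / 2000000 : ℝ)) (A5 := (251917 / 500000 : ℝ)) (A6 := (330849 / 500000 : ℝ))
    (A9 := (707501 / 1000000 : ℝ)) (A10 := (542847 / 1000000 : ℝ)) (s := (7723 / 100000 : ℝ)) (e := (1 / 10000000 : ℝ))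
    (pb := (13865873 / 10000000 : ℝ)) (qb := (953599 / 400000 : ℝ)) (by norm_num)
    (by norm_num) (by norm_num) (by norm_num) (by norm_num) (by norm_num) (by norm_num) (by norm_num)
    (by norm_num) (by norm_num)
    (by norm_num) (by norm_num) (by norm_num) (by norm_num) (by norm_num)
    rfl rfl rfl rfl rfl rfl (by norm_num) (by norm_num) (by norm_num) hp hpb hq hqb hpq

theorem rowL7_114 {p q : ℝ} (hp : 0 < p) (hpb : p ≤ (1396963 / 1000000 : ℝ)) (hq : 0 < q) (hqb : q ≤ (11817821 / 5000000 : ℝ))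
    (hpq : 1 < p * q) : NoSol 7 p q :=
  noSol_rect (n := 7) (by norm_num) (N := 7) (a := (914043 / 1000000 : ℝ)) (b := (344531 / 500000 : ℝ))
    (τ := (2743921 / 5000000 : ℝ)) (A5 := (504257 / 1000000 : ℝ)) (A6 := (165623 / 250000 : ℝ))
    (A9 := (714103 / 1000000 : ℝ)) (A10 := (106927 / 200000 : ℝ)) (s := (7751 / 100000 : ℝ)) (e := (1 / 10000000 : ℝ))
    (pb := (1396963 / 1000000 : ℝ)) (qb := (11817821 / 5000000 : ℝ)) (by norm_num)
    (by norm_num) (by norm_num) (by norm_num) (by norm_num) (by norm_num) (by norm_num) (by norm_num)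
    (by norm_num) (by norm_num)
    (by norm_num) (by norm_num) (by norm_num) (by norm_num) (by norm_num)
    rfl rfl rfl rfl rfl rfl (by norm_num) (by norm_num) (by norm_num) hp hpb hq hqb hpq

theorem rowL7_115 {p q : ℝ} (hp : 0 < p) (hpb : p ≤ (14075451 / 10000000 : ℝ)) (hq : 0 < q) (hqb : q ≤ (4686337 / 2000000 : ℝ))
    (hpq : 1 < p * q) : NoSol 7 p q :=
  noSol_rect (n := 7) (by norm_num) (N := 7) (a := (230881 / 250000 : ℝ)) (b := (680883 / 1000000 : ℝ))
    (τ := (5581979 / 10000000 : ℝ)) (A5 := (101589 / 200000 : ℝ)) (A6 := (659487 / 1000000 : ℝ))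
    (A9 := (710759 / 1000000 : ℝ)) (A10 := (268209 / 500000 : ℝ)) (s := (7811 / 100000 : ℝ)) (e := (1 / 10000000 : ℝ))
    (pb := (14075451 / 10000000 : ℝ)) (qb := (4686337 / 2000000 : ℝ)) (by norm_num)
    (by norm_num) (by norm_num) (by norm_num) (by norm_num) (by norm_num) (by norm_num) (by norm_num)
    (by norm_num) (by norm_num)
    (by norm_num) (by norm_num) (by norm_num) (by norm_num) (by norm_num)
    rfl rfl rfl rfl rfl rfl (by norm_num) (by norm_num) (by norm_num) hp hpb hq hqb hpq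

theorem rowL7_116 {p q : ℝ} (hp : 0 < p) (hpb : p ≤ (14182691 / 10000000 : ℝ)) (hq : 0 < q) (hqb : q ≤ (11613991 / 5000000 : ℝ))
    (hpq : 1 < p * q) : NoSol 7 p q :=
  noSol_rect (n := 7) (by norm_num) (N := 7) (a := (36571 / 40000 : ℝ)) (b := (694673 / 1000000 : ℝ))
    (τ := (5738923 / 10000000 : ℝ)) (A5 := (31927 / 62500 : ℝ)) (A6 := (657523 / 1000000 : ℝ))
    (A9 := (700649 / 1000000 : ℝ)) (A10 := (272127 / 500000 : ℝ)) (s := (987 / 12500 : ℝ)) (e := (1 / 10000000 : ℝ))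
    (pb := (14182691 / 10000000 : ℝ)) (qb := (11613991 / 5000000 : ℝ)) (by norm_num)
    (by norm_num) (by norm_num) (by norm_num) (by norm_num) (by norm_num) (by norm_num) (by norm_num)
    (by norm_num) (by norm_num)
    (by norm_num) (by norm_num) (by norm_num) (by norm_num) (by norm_num)
    rfl rfl rfl rfl rfl rfl (by norm_num) (by norm_num) (by norm_num) hp hpb hq hqb hpq

theorem rowL7_117 {p q : ℝ} (hp : 0 < p) (hpb : p ≤ (14291901 / 10000000 : ℝ)) (hq : 0 < q) (hqb : q ≤ (460517 / 200000 : ℝ))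
    (hpq : 1 < p * q) : NoSol 7 p q :=
  noSol_rect (n := 7) (by norm_num) (N := 7) (a := (56981 / 62500 : ℝ)) (b := (173139 / 250000 : ℝ))
    (τ := (5818487 / 10000000 : ℝ)) (A5 := (255491 / 500000 : ℝ)) (A6 := (658413 / 1000000 : ℝ))
    (A9 := (351581 / 500000 : ℝ)) (A10 := (108001 / 200000 : ℝ)) (s := (1981 / 25000 : ℝ)) (e := (1 / 10000000 : ℝ))
    (pb := (14291901 / 10000000 : ℝ)) (qb := (460517 / 200000 : ℝ)) (by norm_num)
    (by norm_num) (by norm_num) (by norm_num) (by norm_num) (by norm_num) (by norm_num) (by norm_num)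
    (by norm_num) (by norm_num)
    (by norm_num) (by norm_num) (by norm_num) (by norm_num) (by norm_num)
    rfl rfl rfl rfl rfl rfl (by norm_num) (by norm_num) (by norm_num) hp hpb hq hqb hpq

theorem rowL7_118 {p q : ℝ} (hp : 0 < p) (hpb : p ≤ (7201167 / 5000000 : ℝ)) (hq : 0 < q) (hqb : q ≤ (22824317 / 10000000 : ℝ))
    (hpq : 1 < p * q) : NoSol 7 p q :=
  noSol_rect (n := 7) (by norm_num) (N := 7) (a := (451107 / 500000 : ℝ)) (b := (702089 / 1000000 : ℝ))
    (τ := (599267 / 1000000 : ℝ)) (A5 := (505529 / 1000000 : ℝ)) (A6 := (166219 / 250000 : ℝ))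
    (A9 := (700267 / 1000000 : ℝ)) (A10 := (33787 / 62500 : ℝ)) (s := (7981 / 100000 : ℝ)) (e := (1 / 10000000 : ℝ))
    (pb := (7201167 / 5000000 : ℝ)) (qb := (22824317 / 10000000 : ℝ)) (by norm_num)
    (by norm_num) (by norm_num) (by norm_num) (by norm_num) (by norm_num) (by norm_num) (by norm_num)
    (by norm_num) (by norm_num)
    (by norm_num) (by norm_num) (by norm_num) (by norm_num) (by norm_num)
    rfl rfl rfl rfl rfl rfl (by norm_num) (by norm_num) (by norm_num) hp hpb hq hqb hpq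

theorem rowL7_119 {p q : ℝ} (hp : 0 < p) (hpb : p ≤ (7256917 / 5000000 : ℝ)) (hq : 0 < q) (hqb : q ≤ (11312407 / 5000000 : ℝ))
    (hpq : 1 < p * q) : NoSol 7 p q :=
  noSol_rect (n := 7) (by norm_num) (N := 7) (a := (220807 / 250000 : ℝ)) (b := (178857 / 250000 : ℝ))
    (τ := (152121 / 250000 : ℝ)) (A5 := (252111 / 500000 : ℝ)) (A6 := (667773 / 1000000 : ℝ))
    (A9 := (703053 / 1000000 : ℝ)) (A10 := (133861 / 250000 : ℝ)) (s := (1599 / 20000 : ℝ)) (e := (1 / 10000000 : ℝ))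
    (pb := (7256917 / 5000000 : ℝ)) (qb := (11312407 / 5000000 : ℝ)) (by norm_num)
    (by norm_num) (by norm_num) (by norm_num) (by norm_num) (by norm_num) (by norm_num) (by norm_num)
    (by norm_num) (by norm_num)
    (by norm_num) (by norm_num) (by norm_num) (by norm_num) (by norm_num)
    rfl rfl rfl rfl rfl rfl (by norm_num) (by norm_num) (by norm_num) hp hpb hq hqb hpq

end Vale.Agent.Lib.P100
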