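import Vale.Agent.Lib.P100.Cover

/-!
Rational certificates, dimension 7.
-/

namespace Vale.Agent.Lib.P100

theorem rowL7_120 {p q : ℝ} (hp : 0 < p) (hpb : p ≤ (7313551 / 5000000 : ℝ)) (hq : 0 < q) (hqb : q ≤ (22427619 / 10000000 : ℝ))
    (hpq : 1 < p * q) : NoSol 7 p q :=
  noSol_rect (n := 7) (by norm_num) (N := 7) (a := (883911 / 1000000 : ℝ)) (b := (712087 / 1000000 : ℝ))
    (τ := (1540143 / 2500000 : ℝ)) (A5 := (507249 / 1000000 : ℝ)) (A6 := (665151 / 1000000 : ℝ))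
    (A9 := (352021 / 500000 : ℝ)) (A10 := (266769 / 500000 : ℝ)) (s := (2007 / 25000 : ℝ)) (e := (1 / 10000000 : ℝ))
    (pb := (7313551 / 5000000 : ℝ)) (qb := (22427619 / 10000000 : ℝ)) (by norm_num)
    (by norm_num) (by norm_num) (by norm_num) (by norm_num) (by norm_num) (by norm_num) (by norm_num)
    (by norm_num) (by norm_num)
    (by norm_num) (by norm_num) (by norm_num) (by norm_num) (by norm_num)
    rfl rfl rfl rfl rfl rfl (by norm_num) (by norm_num) (by norm_num) hp hpb hq hqb hpq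

theorem rowL7_121 {p q : ℝ} (hp : 0 < p) (hpb : p ≤ (14742501 / 10000000 : ℝ)) (hq : 0 < q) (hqb : q ≤ (22231519 / 10000000 : ℝ))
    (hpq : 1 < p * q) : NoSol 7 p q :=
  noSol_rect (n := 7) (by norm_num) (N := 7) (a := (451287 / 500000 : ℝ)) (b := (70769 / 100000 : ℝ))
    (τ := (6291757 / 10000000 : ℝ)) (A5 := (256493 / 500000 : ℝ)) (A6 := (660271 / 1000000 : ℝ))
    (A9 := (348097 / 500000 : ℝ)) (A10 := (21587 / 40000 : ℝ)) (s := (4051 / 50000 : ℝ)) (e := (1 / 10000000 : ℝ))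
    (pb := (14742501 / 10000000 : ℝ)) (qb := (22231519 / 10000000 : ℝ)) (by norm_num)
    (by norm_num) (by norm_num) (by norm_num) (by norm_num) (by norm_num) (by norm_num) (by norm_num)
    (by norm_num) (by norm_num)
    (by norm_num) (by norm_num) (by norm_num) (by norm_num) (by norm_num)
    rfl rfl rfl rfl rfl rfl (by norm_num) (by norm_num) (by norm_num) hp hpb hq hqb hpq

theorem rowL7_122 {p q : ℝ} (hp : 0 < p) (hpb : p ≤ (7429863 / 5000000 : ℝ)) (hq : 0 < q) (hqb : q ≤ (11017983 / 5000000 : ℝ))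
    (hpq : 1 < p * q) : NoSol 7 p q :=
  noSol_rect (n := 7) (by norm_num) (N := 7) (a := (900797 / 1000000 : ℝ)) (b := (350869 / 500000 : ℝ))
    (τ := (6395319 / 10000000 : ℝ)) (A5 := (102869 / 200000 : ℝ)) (A6 := (659251 / 1000000 : ℝ))
    (A9 := (348157 / 500000 : ℝ)) (A10 := (269323 / 500000 : ℝ)) (s := (8153 / 100000 : ℝ)) (e := (1 / 10000000 : ℝ))
    (pb := (7429863 / 5000000 : ℝ)) (qb := (11017983 / 5000000 : ℝ)) (by norm_num)
    (by norm_num) (by norm_num) (by norm_num) (by norm_num) (by norm_num) (by norm_num) (by norm_num)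
    (by norm_num) (by norm_num)
    (by norm_num) (by norm_num) (by norm_num) (by norm_num) (by norm_num)
    rfl rfl rfl rfl rfl rfl (by norm_num) (by norm_num) (by norm_num) hp hpb hq hqb hpq

theorem rowL7_123 {p q : ℝ} (hp : 0 < p) (hpb : p ≤ (14978629 / 10000000 : ℝ)) (hq : 0 < q) (hqb : q ≤ (21841559 / 10000000 : ℝ))
    (hpq : 1 < p * q) : NoSol 7 p q :=
  noSol_rect (n := 7) (by norm_num) (N := 7) (a := (900921 / 1000000 : ℝ)) (b := (702713 / 1000000 : ℝ))
    (τ := (1630449 / 2500000 : ℝ)) (A5 := (515071 / 1000000 : ℝ)) (A6 := (659471 / 1000000 : ℝ))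
    (A9 := (347317 / 500000 : ℝ)) (A10 := (67331 / 125000 : ℝ)) (s := (1641 / 20000 : ℝ)) (e := (1 / 10000000 : ℝ))
    (pb := (14978629 / 10000000 : ℝ)) (qb := (21841559 / 10000000 : ℝ)) (by norm_num)
    (by norm_num) (by norm_num) (by norm_num) (by norm_num) (by norm_num) (by norm_num) (by norm_num)
    (by norm_num) (by norm_num)
    (by norm_num) (by norm_num) (by norm_num) (by norm_num) (by norm_num)
    rfl rfl rfl rfl rfl rfl (by norm_num) (by norm_num) (by norm_num) hp hpb hq hqb hpq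

theorem rowL7_124 {p q : ℝ} (hp : 0 < p) (hpb : p ≤ (15099237 / 10000000 : ℝ)) (hq : 0 < q) (hqb : q ≤ (4329719 / 2000000 : ℝ))
    (hpq : 1 < p * q) : NoSol 7 p q :=
  noSol_rect (n := 7) (by norm_num) (N := 7) (a := (901007 / 1000000 : ℝ)) (b := (175803 / 250000 : ℝ))
    (τ := (1665399 / 2500000 : ℝ)) (A5 := (102939 / 200000 : ℝ)) (A6 := (66079 / 100000 : ℝ))
    (A9 := (346493 / 500000 : ℝ)) (A10 := (538603 / 1000000 : ℝ)) (s := (8261 / 100000 : ℝ)) (e := (1 / 10000000 : ℝ))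
    (pb := (15099237 / 10000000 : ℝ)) (qb := (4329719 / 2000000 : ℝ)) (by norm_num)
    (by norm_num) (by norm_num) (by norm_num) (by norm_num) (by norm_num) (by norm_num) (by norm_num)
    (by norm_num) (by norm_num)
    (by norm_num) (by norm_num) (by norm_num) (by norm_num) (by norm_num)
    rfl rfl rfl rfl rfl rfl (by norm_num) (by norm_num) (by norm_num) hp hpb hq hqb hpq

theorem rowL7_125 {p q : ℝ} (hp : 0 < p) (hpb : p ≤ (608863 / 400000 : ℝ)) (hq : 0 < q) (hqb : q ≤ (1341067 / 625000 : ℝ))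
    (hpq : 1 < p * q) : NoSol 7 p q :=
  noSol_rect (n := 7) (by norm_num) (N := 7) (a := (898339 / 1000000 : ℝ)) (b := (142227 / 200000 : ℝ))
    (τ := (422991 / 625000 : ℝ)) (A5 := (64199 / 125000 : ℝ)) (A6 := (8287 / 12500 : ℝ))
    (A9 := (695827 / 1000000 : ℝ)) (A10 := (4273 / 8000 : ℝ)) (s := (2067 / 25000 : ℝ)) (e := (1 / 10000000 : ℝ))
    (pb := (608863 / 400000 : ℝ)) (qb := (1341067 / 625000 : ℝ)) (by norm_num)
    (by norm_num) (by norm_num) (by norm_num) (by norm_num) (by norm_num) (by norm_num) (by norm_num)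
    (by norm_num) (by norm_num)
    (by norm_num) (by norm_num) (by norm_num) (by norm_num) (by norm_num)
    rfl rfl rfl rfl rfl rfl (by norm_num) (by norm_num) (by norm_num) hp hpb hq hqb hpq

theorem rowL7_126 {p q : ℝ} (hp : 0 < p) (hpb : p ≤ (15344473 / 10000000 : ℝ)) (hq : 0 < q) (hqb : q ≤ (10633497 / 5000000 : ℝ))
    (hpq : 1 < p * q) : NoSol 7 p q :=
  noSol_rect (n := 7) (by norm_num) (N := 7) (a := (883099 / 1000000 : ℝ)) (b := (36049 / 50000 : ℝ))
    (τ := (7002809 / 10000000 : ℝ)) (A5 := (514607 / 1000000 : ℝ)) (A6 := (664343 / 1000000 : ℝ))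
    (A9 := (683413 / 1000000 : ℝ)) (A10 := (27149 / 50000 : ℝ)) (s := (8431 / 100000 : ℝ)) (e := (1 / 10000000 : ℝ))
    (pb := (15344473 / 10000000 : ℝ)) (qb := (10633497 / 5000000 : ℝ)) (by norm_num)
    (by norm_num) (by norm_num) (by norm_num) (by norm_num) (by norm_num) (by norm_num) (by norm_num)
    (by norm_num) (by norm_num)
    (by norm_num) (by norm_num) (by norm_num) (by norm_num) (by norm_num)
    rfl rfl rfl rfl rfl rfl (by norm_num) (by norm_num) (by norm_num) hp hpb hq hqb hpq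

theorem rowL7_127 {p q : ℝ} (hp : 0 < p) (hpb : p ≤ (7735089 / 5000000 : ℝ)) (hq : 0 < q) (hqb : q ≤ (10540079 / 5000000 : ℝ))
    (hpq : 1 < p * q) : NoSol 7 p q :=
  noSol_rect (n := 7) (by norm_num) (N := 7) (a := (27589 / 31250 : ℝ)) (b := (144143 / 200000 : ℝ))
    (τ := (886007 / 1250000 : ℝ)) (A5 := (514691 / 1000000 : ℝ)) (A6 := (6639 / 10000 : ℝ))
    (A9 := (27529 / 40000 : ℝ)) (A10 := (134567 / 250000 : ℝ)) (s := (8429 / 100000 : ℝ)) (e := (1 / 10000000 : ℝ))
    (pb := (7735089 / 5000000 : ℝ)) (qb := (10540079 / 5000000 : ℝ)) (by norm_num)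
    (by norm_num) (by norm_num) (by norm_num) (by norm_num) (by norm_num) (by norm_num) (by norm_num)
    (by norm_num) (by norm_num)
    (by norm_num) (by norm_num) (by norm_num) (by norm_num) (by norm_num)
    rfl rfl rfl rfl rfl rfl (by norm_num) (by norm_num) (by norm_num) hp hpb hq hqb hpq

theorem rowL7_128 {p q : ℝ} (hp : 0 < p) (hpb : p ≤ (7798819 / 5000000 : ℝ)) (hq : 0 < q) (hqb : q ≤ (163228 / 78125 : ℝ))
    (hpq : 1 < p * q) : NoSol 7 p q :=
  noSol_rect (n := 7) (by norm_num) (N := 7) (a := (441893 / 500000 : ℝ)) (b := (144201 / 200000 : ℝ))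
    (τ := (1803173 / 2500000 : ℝ)) (A5 := (515323 / 1000000 : ℝ)) (A6 := (663543 / 1000000 : ℝ))
    (A9 := (688677 / 1000000 : ℝ)) (A10 := (268543 / 500000 : ℝ)) (s := (8463 / 100000 : ℝ)) (e := (1 / 10000000 : ℝ))
    (pb := (7798819 / 5000000 : ℝ)) (qb := (163228 / 78125 : ℝ)) (by norm_num)
    (by norm_num) (by norm_num) (by norm_num) (by norm_num) (by norm_num) (by norm_num) (by norm_num)
    (by norm_num) (by norm_num)
    (by norm_num) (by norm_num) (by norm_num) (by norm_num) (by norm_num)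
    rfl rfl rfl rfl rfl rfl (by norm_num) (by norm_num) (by norm_num) hp hpb hq hqb hpq

theorem rowL7_129 {p q : ℝ} (hp : 0 < p) (hpb : p ≤ (7863353 / 5000000 : ℝ)) (hq : 0 < q) (hqb : q ≤ (20707723 / 10000000 : ℝ))
    (hpq : 1 < p * q) : NoSol 7 p q :=
  noSol_rect (n := 7) (by norm_num) (N := 7) (a := (850731 / 1000000 : ℝ)) (b := (754313 / 1000000 : ℝ))
    (τ := (7357197 / 10000000 : ℝ)) (A5 := (513111 / 1000000 : ℝ)) (A6 := (667833 / 1000000 : ℝ))
    (A9 := (344869 / 500000 : ℝ)) (A10 := (13333 / 25000 : ℝ)) (s := (8481 / 100000 : ℝ)) (e := (1 / 10000000 : ℝ))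
    (pb := (7863353 / 5000000 : ℝ)) (qb := (20707723 / 10000000 : ℝ)) (by norm_num)
    (by norm_num) (by norm_num) (by norm_num) (by norm_num) (by norm_num) (by norm_num) (by norm_num)
    (by norm_num) (by norm_num)
    (by norm_num) (by norm_num) (by norm_num) (by norm_num) (by norm_num)
    rfl rfl rfl rfl rfl rfl (by norm_num) (by norm_num) (by norm_num) hp hpb hq hqb hpq

theorem rowL7_130 {p q : ℝ} (hp : 0 < p) (hpb : p ≤ (15857893 / 10000000 : ℝ)) (hq : 0 < q) (hqb : q ≤ (20524017 / 10000000 : ℝ))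
    (hpq : 1 < p * q) : NoSol 7 p q :=
  noSol_rect (n := 7) (by norm_num) (N := 7) (a := (849149 / 1000000 : ℝ)) (b := (752943 / 1000000 : ℝ))
    (τ := (745751 / 1000000 : ℝ)) (A5 := (103311 / 200000 : ℝ)) (A6 := (664657 / 1000000 : ℝ))
    (A9 := (345097 / 500000 : ℝ)) (A10 := (532299 / 1000000 : ℝ)) (s := (1707 / 20000 : ℝ)) (e := (1 / 10000000 : ℝ))
    (pb := (15857893 / 10000000 : ℝ)) (qb := (20524017 / 10000000 : ℝ)) (by norm_num)
    (by norm_num) (by norm_num) (by norm_num) (by norm_num) (by norm_num) (by norm_num) (by norm_num)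
    (by norm_num) (by norm_num)
    (by norm_num) (by norm_num) (by norm_num) (by norm_num) (by norm_num)
    rfl rfl rfl rfl rfl rfl (by norm_num) (by norm_num) (by norm_num) hp hpb hq hqb hpq

theorem rowL7_131 {p q : ℝ} (hp : 0 < p) (hpb : p ≤ (15990779 / 10000000 : ℝ)) (hq : 0 < q) (hqb : q ≤ (20341379 / 10000000 : ℝ))
    (hpq : 1 < p * q) : NoSol 7 p q :=
  noSol_rect (n := 7) (by norm_num) (N := 7) (a := (849953 / 1000000 : ℝ)) (b := (150943 / 200000 : ℝ))
    (τ := (7616069 / 10000000 : ℝ)) (A5 := (518161 / 1000000 : ℝ)) (A6 := (66427 / 100000 : ℝ))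
    (A9 := (85881 / 125000 : ℝ)) (A10 := (106741 / 200000 : ℝ)) (s := (269 / 3125 : ℝ)) (e := (1 / 10000000 : ℝ))
    (pb := (15990779 / 10000000 : ℝ)) (qb := (20341379 / 10000000 : ℝ)) (by norm_num)
    (by norm_num) (by norm_num) (by norm_num) (by norm_num) (by norm_num) (by norm_num) (by norm_num)
    (by norm_num) (by norm_num)
    (by norm_num) (by norm_num) (by norm_num) (by norm_num) (by norm_num)
    rfl rfl rfl rfl rfl rfl (by norm_num) (by norm_num) (by norm_num) hp hpb hq hqb hpq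

theorem rowL7_132 {p q : ℝ} (hp : 0 < p) (hpb : p ≤ (4031369 / 2500000 : ℝ)) (hq : 0 < q) (hqb : q ≤ (20160437 / 10000000 : ℝ))
    (hpq : 1 < p * q) : NoSol 7 p q :=
  noSol_rect (n := 7) (by norm_num) (N := 7) (a := (424671 / 500000 : ℝ)) (b := (94327 / 125000 : ℝ))
    (τ := (7766103 / 10000000 : ℝ)) (A5 := (518121 / 1000000 : ℝ)) (A6 := (665013 / 1000000 : ℝ))
    (A9 := (686823 / 1000000 : ℝ)) (A10 := (133203 / 250000 : ℝ)) (s := (271 / 3125 : ℝ)) (e := (1 / 10000000 : ℝ))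
    (pb := (4031369 / 2500000 : ℝ)) (qb := (20160437 / 10000000 : ℝ)) (by norm_num)
    (by norm_num) (by norm_num) (by norm_num) (by norm_num) (by norm_num) (by norm_num) (by norm_num)
    (by norm_num) (by norm_num)
    (by norm_num) (by norm_num) (by norm_num) (by norm_num) (by norm_num)
    rfl rfl rfl rfl rfl rfl (by norm_num) (by norm_num) (by norm_num) hp hpb hq hqb hpq

theorem rowL7_133 {p q : ℝ} (hp : 0 < p) (hpb : p ≤ (16261811 / 10000000 : ℝ)) (hq : 0 < q) (hqb : q ≤ (19981063 / 10000000 : ℝ))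
    (hpq : 1 < p * q) : NoSol 7 p q :=
  noSol_rect (n := 7) (by norm_num) (N := 7) (a := (847871 / 1000000 : ℝ)) (b := (188371 / 250000 : ℝ))
    (τ := (996873 / 1250000 : ℝ)) (A5 := (129219 / 250000 : ℝ)) (A6 := (66799 / 100000 : ℝ))
    (A9 := (682687 / 1000000 : ℝ)) (A10 := (534657 / 1000000 : ℝ)) (s := (2197 / 25000 : ℝ)) (e := (1 / 10000000 : ℝ))
    (pb := (16261811 / 10000000 : ℝ)) (qb := (19981063 / 10000000 : ℝ)) (by norm_num)
    (by norm_num) (by norm_num) (by norm_num) (by norm_num) (by norm_num) (by norm_num) (by norm_num)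
    (by norm_num) (by norm_num)
    (by norm_num) (by norm_num) (by norm_num) (by norm_num) (by norm_num)
    rfl rfl rfl rfl rfl rfl (by norm_num) (by norm_num) (by norm_num) hp hpb hq hqb hpq

theorem rowL7_134 {p q : ℝ} (hp : 0 < p) (hpb : p ≤ (820001 / 500000 : ℝ)) (hq : 0 < q) (hqb : q ≤ (4950877 / 2500000 : ℝ))
    (hpq : 1 < p * q) : NoSol 7 p q :=
  noSol_rect (n := 7) (by norm_num) (N := 7) (a := (162139 / 200000 : ℝ)) (b := (157207 / 200000 : ℝ))
    (τ := (8043639 / 10000000 : ℝ)) (A5 := (519799 / 1000000 : ℝ)) (A6 := (665289 / 1000000 : ℝ))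
    (A9 := (687247 / 1000000 : ℝ)) (A10 := (132431 / 250000 : ℝ)) (s := (8787 / 100000 : ℝ)) (e := (1 / 10000000 : ℝ))
    (pb := (820001 / 500000 : ℝ)) (qb := (4950877 / 2500000 : ℝ)) (by norm_num)
    (by norm_num) (by norm_num) (by norm_num) (by norm_num) (by norm_num) (by norm_num) (by norm_num)
    (by norm_num) (by norm_num)
    (by norm_num) (by norm_num) (by norm_num) (by norm_num) (by norm_num)
    rfl rfl rfl rfl rfl rfl (by norm_num) (by norm_num) (by norm_num) hp hpb hq hqb hpq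

theorem rowL7_135 {p q : ℝ} (hp : 0 < p) (hpb : p ≤ (16540047 / 10000000 : ℝ)) (hq : 0 < q) (hqb : q ≤ (3925497 / 2000000 : ℝ))
    (hpq : 1 < p * q) : NoSol 7 p q :=
  noSol_rect (n := 7) (by norm_num) (N := 7) (a := (20081 / 25000 : ℝ)) (b := (792573 / 1000000 : ℝ))
    (τ := (8243213 / 10000000 : ℝ)) (A5 := (520967 / 1000000 : ℝ)) (A6 := (41633 / 62500 : ℝ))
    (A9 := (170529 / 250000 : ℝ)) (A10 := (133097 / 250000 : ℝ)) (s := (4447 / 50000 : ℝ)) (e := (1 / 10000000 : ℝ))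
    (pb := (16540047 / 10000000 : ℝ)) (qb := (3925497 / 2000000 : ℝ)) (by norm_num)
    (by norm_num) (by norm_num) (by norm_num) (by norm_num) (by norm_num) (by norm_num) (by norm_num)
    (by norm_num) (by norm_num)
    (by norm_num) (by norm_num) (by norm_num) (by norm_num) (by norm_num)
    rfl rfl rfl rfl rfl rfl (by norm_num) (by norm_num) (by norm_num) hp hpb hq hqb hpq

theorem rowL7_136 {p q : ℝ} (hp : 0 < p) (hpb : p ≤ (8340961 / 5000000 : ℝ)) (hq : 0 < q) (hqb : q ≤ (19453091 / 10000000 : ℝ))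
    (hpq : 1 < p * q) : NoSol 7 p q :=
  noSol_rect (n := 7) (by norm_num) (N := 7) (a := (802131 / 1000000 : ℝ)) (b := (397041 / 500000 : ℝ))
    (τ := (4190393 / 5000000 : ℝ)) (A5 := (260877 / 500000 : ℝ)) (A6 := (666243 / 1000000 : ℝ))
    (A9 := (683211 / 1000000 : ℝ)) (A10 := (132533 / 250000 : ℝ)) (s := (1119 / 12500 : ℝ)) (e := (1 / 10000000 : ℝ))
    (pb := (8340961 / 5000000 : ℝ)) (qb := (19453091 / 10000000 : ℝ)) (by norm_num)
    (by norm_num) (by norm_num) (by norm_num) (by norm_num) (by norm_num) (by norm_num) (by norm_num)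
    (by norm_num) (by norm_num)
    (by norm_num) (by norm_num) (by norm_num) (by norm_num) (by norm_num)
    rfl rfl rfl rfl rfl rfl (by norm_num) (by norm_num) (by norm_num) hp hpb hq hqb hpq

theorem rowL7_137 {p q : ℝ} (hp : 0 < p) (hpb : p ≤ (16825399 / 10000000 : ℝ)) (hq : 0 < q) (hqb : q ≤ (19280311 / 10000000 : ℝ))
    (hpq : 1 < p * q) : NoSol 7 p q :=
  noSol_rect (n := 7) (by norm_num) (N := 7) (a := (202483 / 250000 : ℝ)) (b := (796097 / 1000000 : ℝ))
    (τ := (8548083 / 10000000 : ℝ)) (A5 := (520843 / 1000000 : ℝ)) (A6 := (167283 / 250000 : ℝ))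
    (A9 := (68349 / 100000 : ℝ)) (A10 := (105509 / 200000 : ℝ)) (s := (8981 / 100000 : ℝ)) (e := (1 / 10000000 : ℝ))
    (pb := (16825399 / 10000000 : ℝ)) (qb := (19280311 / 10000000 : ℝ)) (by norm_num)
    (by norm_num) (by norm_num) (by norm_num) (by norm_num) (by norm_num) (by norm_num) (by norm_num)
    (by norm_num) (by norm_num)
    (by norm_num) (by norm_num) (by norm_num) (by norm_num) (by norm_num)
    rfl rfl rfl rfl rfl rfl (by norm_num) (by norm_num) (by norm_num) hp hpb hq hqb hpq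

theorem rowL7_138 {p q : ℝ} (hp : 0 < p) (hpb : p ≤ (16970821 / 10000000 : ℝ)) (hq : 0 < q) (hqb : q ≤ (3821891 / 2000000 : ℝ))
    (hpq : 1 < p * q) : NoSol 7 p q :=
  noSol_rect (n := 7) (by norm_num) (N := 7) (a := (814403 / 1000000 : ℝ)) (b := (157527 / 200000 : ℝ))
    (τ := (8793791 / 10000000 : ℝ)) (A5 := (518431 / 1000000 : ℝ)) (A6 := (168271 / 250000 : ℝ))
    (A9 := (135927 / 200000 : ℝ)) (A10 := (529541 / 1000000 : ℝ)) (s := (9127 / 100000 : ℝ)) (e := (1 / 10000000 : ℝ))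
    (pb := (16970821 / 10000000 : ℝ)) (qb := (3821891 / 2000000 : ℝ)) (by norm_num)
    (by norm_num) (by norm_num) (by norm_num) (by norm_num) (by norm_num) (by norm_num) (by norm_num)
    (by norm_num) (by norm_num)
    (by norm_num) (by norm_num) (by norm_num) (by norm_num) (by norm_num)
    rfl rfl rfl rfl rfl rfl (by norm_num) (by norm_num) (by norm_num) hp hpb hq hqb hpq

theorem rowL7_139 {p q : ℝ} (hp : 0 < p) (hpb : p ≤ (427951 / 250000 : ℝ)) (hq : 0 < q) (hqb : q ≤ (18940129 / 10000000 : ℝ))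
    (hpq : 1 < p * q) : NoSol 7 p q :=
  noSol_rect (n := 7) (by norm_num) (N := 7) (a := (808139 / 1000000 : ℝ)) (b := (393391 / 500000 : ℝ))
    (τ := (8938921 / 10000000 : ℝ)) (A5 := (520477 / 1000000 : ℝ)) (A6 := (168163 / 250000 : ℝ))
    (A9 := (135897 / 200000 : ℝ)) (A10 := (527883 / 1000000 : ℝ)) (s := (9229 / 100000 : ℝ)) (e := (1 / 10000000 : ℝ))
    (pb := (427951 / 250000 : ℝ)) (qb := (18940129 / 10000000 : ℝ)) (by norm_num)
    (by norm_num) (by norm_num) (by norm_num) (by norm_num) (by norm_num) (by norm_num) (by norm_num)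
    (by norm_num) (by norm_num)
    (by norm_num) (by norm_num) (by norm_num) (by norm_num) (by norm_num)
    rfl rfl rfl rfl rfl rfl (by norm_num) (by norm_num) (by norm_num) hp hpb hq hqb hpq

theorem rowL7_140 {p q : ℝ} (hp : 0 < p) (hpb : p ≤ (4316779 / 2500000 : ℝ)) (hq : 0 < q) (hqb : q ≤ (18772523 / 10000000 : ℝ))
    (hpq : 1 < p * q) : NoSol 7 p q :=
  noSol_rect (n := 7) (by norm_num) (N := 7) (a := (813587 / 1000000 : ℝ)) (b := (784013 / 1000000 : ℝ))
    (τ := (1823309 / 2000000 : ℝ)) (A5 := (260311 / 500000 : ℝ)) (A6 := (673943 / 1000000 : ℝ))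
    (A9 := (42443 / 62500 : ℝ)) (A10 := (263339 / 500000 : ℝ)) (s := (9301 / 100000 : ℝ)) (e := (1 / 10000000 : ℝ))
    (pb := (4316779 / 2500000 : ℝ)) (qb := (18772523 / 10000000 : ℝ)) (by norm_num)
    (by norm_num) (by norm_num) (by norm_num) (by norm_num) (by norm_num) (by norm_num) (by norm_num)
    (by norm_num) (by norm_num)
    (by norm_num) (by norm_num) (by norm_num) (by norm_num) (by norm_num)
    rfl rfl rfl rfl rfl rfl (by norm_num) (by norm_num) (by norm_num) hp hpb hq hqb hpq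

theorem rowL7_141 {p q : ℝ} (hp : 0 < p) (hpb : p ≤ (17417653 / 10000000 : ℝ)) (hq : 0 < q) (hqb : q ≤ (9303291 / 5000000 : ℝ))
    (hpq : 1 < p * q) : NoSol 7 p q :=
  noSol_rect (n := 7) (by norm_num) (N := 7) (a := (401879 / 500000 : ℝ)) (b := (158781 / 200000 : ℝ))
    (τ := (1172479 / 1250000 : ℝ)) (A5 := (519559 / 1000000 : ℝ)) (A6 := (676459 / 1000000 : ℝ))
    (A9 := (336977 / 500000 : ℝ)) (A10 := (530183 / 1000000 : ℝ)) (s := (943 / 10000 : ℝ)) (e := (1 / 10000000 : ℝ))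
    (pb := (17417653 / 10000000 : ℝ)) (qb := (9303291 / 5000000 : ℝ)) (by norm_num)
    (by norm_num) (by norm_num) (by norm_num) (by norm_num) (by norm_num) (by norm_num) (by norm_num)
    (by norm_num) (by norm_num)
    (by norm_num) (by norm_num) (by norm_num) (by norm_num) (by norm_num)
    rfl rfl rfl rfl rfl rfl (by norm_num) (by norm_num) (by norm_num) hp hpb hq hqb hpq

theorem rowL7_142 {p q : ℝ} (hp : 0 < p) (hpb : p ≤ (17570451 / 10000000 : ℝ)) (hq : 0 < q) (hqb : q ≤ (3688549 / 2000000 : ℝ))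
    (hpq : 1 < p * q) : NoSol 7 p q :=
  noSol_rect (n := 7) (by norm_num) (N := 7) (a := (80829 / 100000 : ℝ)) (b := (395961 / 500000 : ℝ))
    (τ := (9494333 / 10000000 : ℝ)) (A5 := (16361 / 31250 : ℝ)) (A6 := (336649 / 500000 : ℝ))
    (A9 := (33753 / 50000 : ℝ)) (A10 := (528189 / 1000000 : ℝ)) (s := (4741 / 50000 : ℝ)) (e := (1 / 10000000 : ℝ))
    (pb := (17570451 / 10000000 : ℝ)) (qb := (3688549 / 2000000 : ℝ)) (by norm_num)
    (by norm_num) (by norm_num) (by norm_num) (by norm_num) (by norm_num) (by norm_num) (by norm_num)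
    (by norm_num) (by norm_num)
    (by norm_num) (by norm_num) (by norm_num) (by norm_num) (by norm_num)
    rfl rfl rfl rfl rfl rfl (by norm_num) (by norm_num) (by norm_num) hp hpb hq hqb hpq

theorem rowL7_143 {p q : ℝ} (hp : 0 < p) (hpb : p ≤ (4431261 / 2500000 : ℝ)) (hq : 0 < q) (hqb : q ≤ (9140077 / 5000000 : ℝ))
    (hpq : 1 < p * q) : NoSol 7 p q :=
  noSol_rect (n := 7) (by norm_num) (N := 7) (a := (404183 / 500000 : ℝ)) (b := (791867 / 1000000 : ℝ))
    (τ := (387503 / 400000 : ℝ)) (A5 := (261873 / 500000 : ℝ)) (A6 := (134779 / 200000 : ℝ))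
    (A9 := (134917 / 200000 : ℝ)) (A10 := (527807 / 1000000 : ℝ)) (s := (9573 / 100000 : ℝ)) (e := (1 / 10000000 : ℝ))
    (pb := (4431261 / 2500000 : ℝ)) (qb := (9140077 / 5000000 : ℝ)) (by norm_num)
    (by norm_num) (by norm_num) (by norm_num) (by norm_num) (by norm_num) (by norm_num) (by norm_num)
    (by norm_num) (by norm_num)
    (by norm_num) (by norm_num) (by norm_num) (by norm_num) (by norm_num)
    rfl rfl rfl rfl rfl rfl (by norm_num) (by norm_num) (by norm_num) hp hpb hq hqb hpq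

theorem rowL7_144 {p q : ℝ} (hp : 0 < p) (hpb : p ≤ (1788137 / 1000000 : ℝ)) (hq : 0 < q) (hqb : q ≤ (18119327 / 10000000 : ℝ))
    (hpq : 1 < p * q) : NoSol 7 p q :=
  noSol_rect (n := 7) (by norm_num) (N := 7) (a := (202013 / 250000 : ℝ)) (b := (158453 / 200000 : ℝ))
    (τ := (9898127 / 10000000 : ℝ)) (A5 := (65461 / 125000 : ℝ)) (A6 := (675191 / 1000000 : ℝ))
    (A9 := (673341 / 1000000 : ℝ)) (A10 := (263887 / 500000 : ℝ)) (s := (9673 / 100000 : ℝ)) (e := (1 / 10000000 : ℝ))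
    (pb := (1788137 / 1000000 : ℝ)) (qb := (18119327 / 10000000 : ℝ)) (by norm_num)
    (by norm_num) (by norm_num) (by norm_num) (by norm_num) (by norm_num) (by norm_num) (by norm_num)
    (by norm_num) (by norm_num)
    (by norm_num) (by norm_num) (by norm_num) (by norm_num) (by norm_num)
    rfl rfl rfl rfl rfl rfl (by norm_num) (by norm_num) (by norm_num) hp hpb hq hqb hpq

theorem rowL7_145 {p q : ℝ} (hp : 0 < p) (hpb : p ≤ (2254929 / 1250000 : ℝ)) (hq : 0 < q) (hqb : q ≤ (2245041 / 1250000 : ℝ))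
    (hpq : 1 < p * q) : NoSol 7 p q :=
  noSol_rect (n := 7) (by norm_num) (N := 7) (a := (808013 / 1000000 : ℝ)) (b := (792269 / 1000000 : ℝ))
    (τ := (2521037 / 2500000 : ℝ)) (A5 := (524213 / 1000000 : ℝ)) (A6 := (675553 / 1000000 : ℝ))
    (A9 := (84197 / 125000 : ℝ)) (A10 := (526641 / 1000000 : ℝ)) (s := (9759 / 100000 : ℝ)) (e := (1 / 10000000 : ℝ))
    (pb := (2254929 / 1250000 : ℝ)) (qb := (2245041 / 1250000 : ℝ)) (by norm_num)
    (by norm_num) (by norm_num) (by norm_num) (by norm_num) (by norm_num) (by norm_num) (by norm_num)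
    (by norm_num) (by norm_num)
    (by norm_num) (by norm_num) (by norm_num) (by norm_num) (by norm_num)
    rfl rfl rfl rfl rfl rfl (by norm_num) (by norm_num) (by norm_num) hp hpb hq hqb hpq

end Vale.Agent.Lib.P100
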