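import Vale.Agent.Lib.P100.Cover

/-!
Rational certificates, dimension 8.
-/

namespace Vale.Agent.Lib.P100

theorem rowL8_0 {p q : ℝ} (hp : 0 < p) (hpb : p ≤ (387133 / 625000 : ℝ)) (hq : 0 < q) (hqb : q ≤ (6422019 / 1000000 : ℝ))
    (hpq : 1 < p * q) : NoSol 8 p q :=
  noSol_rect (n := 8) (by norm_num) (N := 8) (a := (781477 / 1000000 : ℝ)) (b := (195443 / 250000 : ℝ))
    (τ := (331477 / 5000000 : ℝ)) (A5 := (481089 / 1000000 : ℝ)) (A6 := (130829 / 200000 : ℝ))
    (A9 := (56133 / 62500 : ℝ)) (A10 := (294951 / 500000 : ℝ)) (s := (4679 / 100000 : ℝ)) (e := (1 / 10000000 : ℝ))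
    (pb := (387133 / 625000 : ℝ)) (qb := (6422019 / 1000000 : ℝ)) (by norm_num)
    (by norm_num) (by norm_num) (by norm_num) (by norm_num) (by norm_num) (by norm_num) (by norm_num)
    (by norm_num) (by norm_num)
    (by norm_num) (by norm_num) (by norm_num) (by norm_num) (by norm_num)
    rfl rfl rfl rfl rfl rfl (by norm_num) (by norm_num) (by norm_num) hp hpb hq hqb hpq

theorem rowL8_1 {p q : ℝ} (hp : 0 < p) (hpb : p ≤ (776571 / 1250000 : ℝ)) (hq : 0 < q) (hqb : q ≤ (12784871 / 2000000 : ℝ))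
    (hpq : 1 < p * q) : NoSol 8 p q :=
  noSol_rect (n := 8) (by norm_num) (N := 8) (a := (792033 / 1000000 : ℝ)) (b := (38949 / 50000 : ℝ))
    (τ := (164923 / 2500000 : ℝ)) (A5 := (240727 / 500000 : ℝ)) (A6 := (654763 / 1000000 : ℝ))
    (A9 := (227213 / 250000 : ℝ)) (A10 := (580251 / 1000000 : ℝ)) (s := (233 / 5000 : ℝ)) (e := (1 / 10000000 : ℝ))
    (pb := (776571 / 1250000 : ℝ)) (qb := (12784871 / 2000000 : ℝ)) (by norm_num)
    (by norm_num) (by norm_num) (by norm_num) (by norm_num) (by norm_num) (by norm_num) (by norm_num)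
    (by norm_num) (by norm_num)
    (by norm_num) (by norm_num) (by norm_num) (by norm_num) (by norm_num)
    rfl rfl rfl rfl rfl rfl (by norm_num) (by norm_num) (by norm_num) hp hpb hq hqb hpq

theorem rowL8_2 {p q : ℝ} (hp : 0 < p) (hpb : p ≤ (155881 / 250000 : ℝ)) (hq : 0 < q) (hqb : q ≤ (31771259 / 5000000 : ℝ))
    (hpq : 1 < p * q) : NoSol 8 p q :=
  noSol_rect (n := 8) (by norm_num) (N := 8) (a := (792633 / 1000000 : ℝ)) (b := (777753 / 1000000 : ℝ))
    (τ := (163741 / 2500000 : ℝ)) (A5 := (30421 / 62500 : ℝ)) (A6 := (649041 / 1000000 : ℝ))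
    (A9 := (921827 / 1000000 : ℝ)) (A10 := (573259 / 1000000 : ℝ)) (s := (117 / 2500 : ℝ)) (e := (1 / 10000000 : ℝ))
    (pb := (155881 / 250000 : ℝ)) (qb := (31771259 / 5000000 : ℝ)) (by norm_num)
    (by norm_num) (by norm_num) (by norm_num) (by norm_num) (by norm_num) (by norm_num) (by norm_num)
    (by norm_num) (by norm_num)
    (by norm_num) (by norm_num) (by norm_num) (by norm_num) (by norm_num)
    rfl rfl rfl rfl rfl rfl (by norm_num) (by norm_num) (by norm_num) hp hpb hq hqb hpq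

theorem rowL8_3 {p q : ℝ} (hp : 0 < p) (hpb : p ≤ (3129983 / 5000000 : ℝ)) (hq : 0 < q) (hqb : q ≤ (6307959 / 1000000 : ℝ))
    (hpq : 1 < p * q) : NoSol 8 p q :=
  noSol_rect (n := 8) (by norm_num) (N := 8) (a := (396577 / 500000 : ℝ)) (b := (776333 / 1000000 : ℝ))
    (τ := (26421 / 400000 : ℝ)) (A5 := (244739 / 500000 : ℝ)) (A6 := (12921 / 20000 : ℝ))
    (A9 := (184561 / 200000 : ℝ)) (A10 := (114391 / 200000 : ℝ)) (s := (4711 / 100000 : ℝ)) (e := (1 / 10000000 : ℝ))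
    (pb := (3129983 / 5000000 : ℝ)) (qb := (6307959 / 1000000 : ℝ)) (by norm_num)
    (by norm_num) (by norm_num) (by norm_num) (by norm_num) (by norm_num) (by norm_num) (by norm_num)
    (by norm_num) (by norm_num)
    (by norm_num) (by norm_num) (by norm_num) (by norm_num) (by norm_num)
    rfl rfl rfl rfl rfl rfl (by norm_num) (by norm_num) (by norm_num) hp hpb hq hqb hpq

theorem rowL8_4 {p q : ℝ} (hp : 0 < p) (hpb : p ≤ (1571783 / 2500000 : ℝ)) (hq : 0 < q) (hqb : q ≤ (62582763 / 10000000 : ℝ))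
    (hpq : 1 < p * q) : NoSol 8 p q :=
  noSol_rect (n := 8) (by norm_num) (N := 8) (a := (100019 / 125000 : ℝ)) (b := (193971 / 250000 : ℝ))
    (τ := (666829 / 10000000 : ℝ)) (A5 := (494453 / 1000000 : ℝ)) (A6 := (320609 / 500000 : ℝ))
    (A9 := (5761 / 6250 : ℝ)) (A10 := (572297 / 1000000 : ℝ)) (s := (581 / 12500 : ℝ)) (e := (1 / 10000000 : ℝ))
    (pb := (1571783 / 2500000 : ℝ)) (qb := (62582763 / 10000000 : ℝ)) (by norm_num)
    (by norm_num) (by norm_num) (by norm_num) (by norm_num) (by norm_num) (by norm_num) (by norm_num)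
    (by norm_num) (by norm_num)
    (by norm_num) (by norm_num) (by norm_num) (by norm_num) (by norm_num)
    rfl rfl rfl rfl rfl rfl (by norm_num) (by norm_num) (by norm_num) hp hpb hq hqb hpq

theorem rowL8_5 {p q : ℝ} (hp : 0 < p) (hpb : p ≤ (1263181 / 2000000 : ℝ)) (hq : 0 < q) (hqb : q ≤ (62046341 / 10000000 : ℝ))
    (hpq : 1 < p * q) : NoSol 8 p q :=
  noSol_rect (n := 8) (by norm_num) (N := 8) (a := (401251 / 500000 : ℝ)) (b := (77549 / 100000 : ℝ))
    (τ := (675713 / 10000000 : ℝ)) (A5 := (24817 / 50000 : ℝ)) (A6 := (319611 / 500000 : ℝ))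
    (A9 := (460131 / 500000 : ℝ)) (A10 := (571451 / 1000000 : ℝ)) (s := (2317 / 50000 : ℝ)) (e := (1 / 10000000 : ℝ))
    (pb := (1263181 / 2000000 : ℝ)) (qb := (62046341 / 10000000 : ℝ)) (by norm_num)
    (by norm_num) (by norm_num) (by norm_num) (by norm_num) (by norm_num) (by norm_num) (by norm_num)
    (by norm_num) (by norm_num)
    (by norm_num) (by norm_num) (by norm_num) (by norm_num) (by norm_num)
    rfl rfl rfl rfl rfl rfl (by norm_num) (by norm_num) (by norm_num) hp hpb hq hqb hpq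

theorem rowL8_6 {p q : ℝ} (hp : 0 < p) (hpb : p ≤ (6346641 / 10000000 : ℝ)) (hq : 0 < q) (hqb : q ≤ (61488669 / 10000000 : ℝ))
    (hpq : 1 < p * q) : NoSol 8 p q :=
  noSol_rect (n := 8) (by norm_num) (N := 8) (a := (805963 / 1000000 : ℝ)) (b := (154677 / 200000 : ℝ))
    (τ := (682561 / 10000000 : ℝ)) (A5 := (125119 / 250000 : ℝ)) (A6 := (317387 / 500000 : ℝ))
    (A9 := (921071 / 1000000 : ℝ)) (A10 := (285191 / 500000 : ℝ)) (s := (4659 / 100000 : ℝ)) (e := (1 / 10000000 : ℝ))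
    (pb := (6346641 / 10000000 : ℝ)) (qb := (61488669 / 10000000 : ℝ)) (by norm_num)
    (by norm_num) (by norm_num) (by norm_num) (by norm_num) (by norm_num) (by norm_num) (by norm_num)
    (by norm_num) (by norm_num)
    (by norm_num) (by norm_num) (by norm_num) (by norm_num) (by norm_num)
    rfl rfl rfl rfl rfl rfl (by norm_num) (by norm_num) (by norm_num) hp hpb hq hqb hpq

theorem rowL8_7 {p q : ℝ} (hp : 0 < p) (hpb : p ≤ (3188601 / 5000000 : ℝ)) (hq : 0 < q) (hqb : q ≤ (60904527 / 10000000 : ℝ))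
    (hpq : 1 < p * q) : NoSol 8 p q :=
  noSol_rect (n := 8) (by norm_num) (N := 8) (a := (818397 / 1000000 : ℝ)) (b := (153711 / 200000 : ℝ))
    (τ := (168351 / 2500000 : ℝ)) (A5 := (102983 / 200000 : ℝ)) (A6 := (619257 / 1000000 : ℝ))
    (A9 := (937649 / 1000000 : ℝ)) (A10 := (282259 / 500000 : ℝ)) (s := (4681 / 100000 : ℝ)) (e := (1 / 10000000 : ℝ))
    (pb := (3188601 / 5000000 : ℝ)) (qb := (60904527 / 10000000 : ℝ)) (by norm_num)
    (by norm_num) (by norm_num) (by norm_num) (by norm_num) (by norm_num) (by norm_num) (by norm_num)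
    (by norm_num) (by norm_num)
    (by norm_num) (by norm_num) (by norm_num) (by norm_num) (by norm_num)
    rfl rfl rfl rfl rfl rfl (by norm_num) (by norm_num) (by norm_num) hp hpb hq hqb hpq

theorem rowL8_8 {p q : ℝ} (hp : 0 < p) (hpb : p ≤ (6408677 / 10000000 : ℝ)) (hq : 0 < q) (hqb : q ≤ (3016761 / 500000 : ℝ))
    (hpq : 1 < p * q) : NoSol 8 p q :=
  noSol_rect (n := 8) (by norm_num) (N := 8) (a := (408543 / 500000 : ℝ)) (b := (153397 / 200000 : ℝ))
    (τ := (4281 / 62500 : ℝ)) (A5 := (16101 / 31250 : ℝ)) (A6 := (30949 / 50000 : ℝ))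
    (A9 := (93421 / 100000 : ℝ)) (A10 := (140869 / 250000 : ℝ)) (s := (2369 / 50000 : ℝ)) (e := (1 / 10000000 : ℝ))
    (pb := (6408677 / 10000000 : ℝ)) (qb := (3016761 / 500000 : ℝ)) (by norm_num)
    (by norm_num) (by norm_num) (by norm_num) (by norm_num) (by norm_num) (by norm_num) (by norm_num)
    (by norm_num) (by norm_num)
    (by norm_num) (by norm_num) (by norm_num) (by norm_num) (by norm_num)
    rfl rfl rfl rfl rfl rfl (by norm_num) (by norm_num) (by norm_num) hp hpb hq hqb hpq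

theorem rowL8_9 {p q : ℝ} (hp : 0 < p) (hpb : p ≤ (6441957 / 10000000 : ℝ)) (hq : 0 < q) (hqb : q ≤ (3735033 / 625000 : ℝ))
    (hpq : 1 < p * q) : NoSol 8 p q :=
  noSol_rect (n := 8) (by norm_num) (N := 8) (a := (406031 / 500000 : ℝ)) (b := (770497 / 1000000 : ℝ))
    (τ := (708021 / 10000000 : ℝ)) (A5 := (514523 / 1000000 : ℝ)) (A6 := (12393 / 20000 : ℝ))
    (A9 := (114663 / 125000 : ℝ)) (A10 := (142811 / 250000 : ℝ)) (s := (1163 / 25000 : ℝ)) (e := (1 / 10000000 : ℝ))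
    (pb := (6441957 / 10000000 : ℝ)) (qb := (3735033 / 625000 : ℝ)) (by norm_num)
    (by norm_num) (by norm_num) (by norm_num) (by norm_num) (by norm_num) (by norm_num) (by norm_num)
    (by norm_num) (by norm_num)
    (by norm_num) (by norm_num) (by norm_num) (by norm_num) (by norm_num)
    rfl rfl rfl rfl rfl rfl (by norm_num) (by norm_num) (by norm_num) hp hpb hq hqb hpq

theorem rowL8_10 {p q : ℝ} (hp : 0 < p) (hpb : p ≤ (404729 / 625000 : ℝ)) (hq : 0 < q) (hqb : q ≤ (2958267 / 500000 : ℝ))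
    (hpq : 1 < p * q) : NoSol 8 p q :=
  noSol_rect (n := 8) (by norm_num) (N := 8) (a := (6307 / 8000 : ℝ)) (b := (97137 / 125000 : ℝ))
    (τ := (28157 / 400000 : ℝ)) (A5 := (516713 / 1000000 : ℝ)) (A6 := (616961 / 1000000 : ℝ))
    (A9 := (935083 / 1000000 : ℝ)) (A10 := (55759 / 100000 : ℝ)) (s := (2323 / 50000 : ℝ)) (e := (1 / 10000000 : ℝ))
    (pb := (404729 / 625000 : ℝ)) (qb := (2958267 / 500000 : ℝ)) (by norm_num)
    (by norm_num) (by norm_num) (by norm_num) (by norm_num) (by norm_num) (by norm_num) (by norm_num)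
    (by norm_num) (by norm_num)
    (by norm_num) (by norm_num) (by norm_num) (by norm_num) (by norm_num)
    rfl rfl rfl rfl rfl rfl (by norm_num) (by norm_num) (by norm_num) hp hpb hq hqb hpq

theorem rowL8_11 {p q : ℝ} (hp : 0 < p) (hpb : p ≤ (130229 / 200000 : ℝ)) (hq : 0 < q) (hqb : q ≤ (58575167 / 10000000 : ℝ))
    (hpq : 1 < p * q) : NoSol 8 p q :=
  noSol_rect (n := 8) (by norm_num) (N := 8) (a := (791039 / 1000000 : ℝ)) (b := (779103 / 1000000 : ℝ))
    (τ := (718033 / 10000000 : ℝ)) (A5 := (516681 / 1000000 : ℝ)) (A6 := (154291 / 250000 : ℝ))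
    (A9 := (186103 / 200000 : ℝ)) (A10 := (27851 / 50000 : ℝ)) (s := (4559 / 100000 : ℝ)) (e := (1 / 10000000 : ℝ))
    (pb := (130229 / 200000 : ℝ)) (qb := (58575167 / 10000000 : ℝ)) (by norm_num)
    (by norm_num) (by norm_num) (by norm_num) (by norm_num) (by norm_num) (by norm_num) (by norm_num)
    (by norm_num) (by norm_num)
    (by norm_num) (by norm_num) (by norm_num) (by norm_num) (by norm_num)
    rfl rfl rfl rfl rfl rfl (by norm_num) (by norm_num) (by norm_num) hp hpb hq hqb hpq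

theorem rowL8_12 {p q : ℝ} (hp : 0 < p) (hpb : p ≤ (163717 / 250000 : ℝ)) (hq : 0 < q) (hqb : q ≤ (11592417 / 2000000 : ℝ))
    (hpq : 1 < p * q) : NoSol 8 p q :=
  noSol_rect (n := 8) (by norm_num) (N := 8) (a := (795773 / 1000000 : ℝ)) (b := (779793 / 1000000 : ℝ))
    (τ := (91351 / 1250000 : ℝ)) (A5 := (255791 / 500000 : ℝ)) (A6 := (24903 / 40000 : ℝ))
    (A9 := (116481 / 125000 : ℝ)) (A10 := (549671 / 1000000 : ℝ)) (s := (4521 / 100000 : ℝ)) (e := (1 / 10000000 : ℝ))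
    (pb := (163717 / 250000 : ℝ)) (qb := (11592417 / 2000000 : ℝ)) (by norm_num)
    (by norm_num) (by norm_num) (by norm_num) (by norm_num) (by norm_num) (by norm_num) (by norm_num)
    (by norm_num) (by norm_num)
    (by norm_num) (by norm_num) (by norm_num) (by norm_num) (by norm_num)
    rfl rfl rfl rfl rfl rfl (by norm_num) (by norm_num) (by norm_num) hp hpb hq hqb hpq

theorem rowL8_13 {p q : ℝ} (hp : 0 < p) (hpb : p ≤ (3293433 / 5000000 : ℝ)) (hq : 0 < q) (hqb : q ≤ (5733853 / 1000000 : ℝ))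
    (hpq : 1 < p * q) : NoSol 8 p q :=
  noSol_rect (n := 8) (by norm_num) (N := 8) (a := (39619 / 50000 : ℝ)) (b := (779807 / 1000000 : ℝ))
    (τ := (371537 / 5000000 : ℝ)) (A5 := (515787 / 1000000 : ℝ)) (A6 := (309017 / 500000 : ℝ))
    (A9 := (464299 / 500000 : ℝ)) (A10 := (110113 / 200000 : ℝ)) (s := (4533 / 100000 : ℝ)) (e := (1 / 10000000 : ℝ))
    (pb := (3293433 / 5000000 : ℝ)) (qb := (5733853 / 1000000 : ℝ)) (by norm_num)
    (by norm_num) (by norm_num) (by norm_num) (by norm_num) (by norm_num) (by norm_num) (by norm_num)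
    (by norm_num) (by norm_num)
    (by norm_num) (by norm_num) (by norm_num) (by norm_num) (by norm_num)
    rfl rfl rfl rfl rfl rfl (by norm_num) (by norm_num) (by norm_num) hp hpb hq hqb hpq

theorem rowL8_14 {p q : ℝ} (hp : 0 < p) (hpb : p ≤ (828151 / 1250000 : ℝ)) (hq : 0 < q) (hqb : q ≤ (56713567 / 10000000 : ℝ))
    (hpq : 1 < p * q) : NoSol 8 p q :=
  noSol_rect (n := 8) (by norm_num) (N := 8) (a := (776267 / 1000000 : ℝ)) (b := (787351 / 1000000 : ℝ))
    (τ := (776287 / 10000000 : ℝ)) (A5 := (497129 / 1000000 : ℝ)) (A6 := (159207 / 250000 : ℝ))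
    (A9 := (229091 / 250000 : ℝ)) (A10 := (546219 / 1000000 : ℝ)) (s := (1131 / 25000 : ℝ)) (e := (1 / 10000000 : ℝ))
    (pb := (828151 / 1250000 : ℝ)) (qb := (56713567 / 10000000 : ℝ)) (by norm_num)
    (by norm_num) (by norm_num) (by norm_num) (by norm_num) (by norm_num) (by norm_num) (by norm_num)
    (by norm_num) (by norm_num)
    (by norm_num) (by norm_num) (by norm_num) (by norm_num) (by norm_num)
    rfl rfl rfl rfl rfl rfl (by norm_num) (by norm_num) (by norm_num) hp hpb hq hqb hpq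

theorem rowL8_15 {p q : ℝ} (hp : 0 < p) (hpb : p ≤ (1332961 / 2000000 : ℝ)) (hq : 0 < q) (hqb : q ≤ (2244017 / 400000 : ℝ))
    (hpq : 1 < p * q) : NoSol 8 p q :=
  noSol_rect (n := 8) (by norm_num) (N := 8) (a := (775989 / 1000000 : ℝ)) (b := (786067 / 1000000 : ℝ))
    (τ := (393561 / 5000000 : ℝ)) (A5 := (249847 / 500000 : ℝ)) (A6 := (316977 / 500000 : ℝ))
    (A9 := (917089 / 1000000 : ℝ)) (A10 := (543771 / 1000000 : ℝ)) (s := (4559 / 100000 : ℝ)) (e := (1 / 10000000 : ℝ))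
    (pb := (1332961 / 2000000 : ℝ)) (qb := (2244017 / 400000 : ℝ)) (by norm_num)
    (by norm_num) (by norm_num) (by norm_num) (by norm_num) (by norm_num) (by norm_num) (by norm_num)
    (by norm_num) (by norm_num)
    (by norm_num) (by norm_num) (by norm_num) (by norm_num) (by norm_num)
    rfl rfl rfl rfl rfl rfl (by norm_num) (by norm_num) (by norm_num) hp hpb hq hqb hpq

theorem rowL8_16 {p q : ℝ} (hp : 0 < p) (hpb : p ≤ (6706501 / 10000000 : ℝ)) (hq : 0 < q) (hqb : q ≤ (5548181 / 1000000 : ℝ))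
    (hpq : 1 < p * q) : NoSol 8 p q :=
  noSol_rect (n := 8) (by norm_num) (N := 8) (a := (781529 / 1000000 : ℝ)) (b := (98059 / 125000 : ℝ))
    (τ := (24841 / 312500 : ℝ)) (A5 := (507763 / 1000000 : ℝ)) (A6 := (125203 / 200000 : ℝ))
    (A9 := (28673 / 31250 : ℝ)) (A10 := (5433 / 10000 : ℝ)) (s := (2261 / 50000 : ℝ)) (e := (1 / 10000000 : ℝ))
    (pb := (6706501 / 10000000 : ℝ)) (qb := (5548181 / 1000000 : ℝ)) (by norm_num)
    (by norm_num) (by norm_num) (by norm_num) (by norm_num) (by norm_num) (by norm_num) (by norm_num)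
    (by norm_num) (by norm_num)
    (by norm_num) (by norm_num) (by norm_num) (by norm_num) (by norm_num)
    rfl rfl rfl rfl rfl rfl (by norm_num) (by norm_num) (by norm_num) hp hpb hq hqb hpq

theorem rowL8_17 {p q : ℝ} (hp : 0 < p) (hpb : p ≤ (6750549 / 10000000 : ℝ)) (hq : 0 < q) (hqb : q ≤ (54845877 / 10000000 : ℝ))
    (hpq : 1 < p * q) : NoSol 8 p q :=
  noSol_rect (n := 8) (by norm_num) (N := 8) (a := (1589 / 2000 : ℝ)) (b := (156023 / 200000 : ℝ))
    (τ := (50973 / 625000 : ℝ)) (A5 := (6363 / 12500 : ℝ)) (A6 := (312489 / 500000 : ℝ))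
    (A9 := (90919 / 100000 : ℝ)) (A10 := (545487 / 1000000 : ℝ)) (s := (2263 / 50000 : ℝ)) (e := (1 / 10000000 : ℝ))
    (pb := (6750549 / 10000000 : ℝ)) (qb := (54845877 / 10000000 : ℝ)) (by norm_num)
    (by norm_num) (by norm_num) (by norm_num) (by norm_num) (by norm_num) (by norm_num) (by norm_num)
    (by norm_num) (by norm_num)
    (by norm_num) (by norm_num) (by norm_num) (by norm_num) (by norm_num)
    rfl rfl rfl rfl rfl rfl (by norm_num) (by norm_num) (by norm_num) hp hpb hq hqb hpq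

theorem rowL8_18 {p q : ℝ} (hp : 0 < p) (hpb : p ≤ (6795739 / 10000000 : ℝ)) (hq : 0 < q) (hqb : q ≤ (54190689 / 10000000 : ℝ))
    (hpq : 1 < p * q) : NoSol 8 p q :=
  noSol_rect (n := 8) (by norm_num) (N := 8) (a := (395461 / 500000 : ℝ)) (b := (778047 / 1000000 : ℝ))
    (τ := (415553 / 5000000 : ℝ)) (A5 := (31983 / 62500 : ℝ)) (A6 := (124391 / 200000 : ℝ))
    (A9 := (453427 / 500000 : ℝ)) (A10 := (544801 / 1000000 : ℝ)) (s := (923 / 20000 : ℝ)) (e := (1 / 10000000 : ℝ))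
    (pb := (6795739 / 10000000 : ℝ)) (qb := (54190689 / 10000000 : ℝ)) (by norm_num)
    (by norm_num) (by norm_num) (by norm_num) (by norm_num) (by norm_num) (by norm_num) (by norm_num)
    (by norm_num) (by norm_num)
    (by norm_num) (by norm_num) (by norm_num) (by norm_num) (by norm_num)
    rfl rfl rfl rfl rfl rfl (by norm_num) (by norm_num) (by norm_num) hp hpb hq hqb hpq

theorem rowL8_19 {p q : ℝ} (hp : 0 < p) (hpb : p ≤ (21377 / 31250 : ℝ)) (hq : 0 < q) (hqb : q ≤ (10707119 / 2000000 : ℝ))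
    (hpq : 1 < p * q) : NoSol 8 p q :=
  noSol_rect (n := 8) (by norm_num) (N := 8) (a := (193259 / 250000 : ℝ)) (b := (786511 / 1000000 : ℝ))
    (τ := (423373 / 5000000 : ℝ)) (A5 := (521027 / 1000000 : ℝ)) (A6 := (305849 / 500000 : ℝ))
    (A9 := (900261 / 1000000 : ℝ)) (A10 := (8602 / 15625 : ℝ)) (s := (2243 / 50000 : ℝ)) (e := (1 / 10000000 : ℝ))
    (pb := (21377 / 31250 : ℝ)) (qb := (10707119 / 2000000 : ℝ)) (by norm_num)
    (by norm_num) (by norm_num) (by norm_num) (by norm_num) (by norm_num) (by norm_num) (by norm_num)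
    (by norm_num) (by norm_num)
    (by norm_num) (by norm_num) (by norm_num) (by norm_num) (by norm_num)
    rfl rfl rfl rfl rfl rfl (by norm_num) (by norm_num) (by norm_num) hp hpb hq hqb hpq

theorem rowL8_20 {p q : ℝ} (hp : 0 < p) (hpb : p ≤ (6889709 / 10000000 : ℝ)) (hq : 0 < q) (hqb : q ≤ (52901179 / 10000000 : ℝ))
    (hpq : 1 < p * q) : NoSol 8 p q :=
  noSol_rect (n := 8) (by norm_num) (N := 8) (a := (15927 / 20000 : ℝ)) (b := (776211 / 1000000 : ℝ))
    (τ := (883371 / 10000000 : ℝ)) (A5 := (516309 / 1000000 : ℝ)) (A6 := (308543 / 500000 : ℝ))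
    (A9 := (7059 / 8000 : ℝ)) (A10 := (34773 / 62500 : ℝ)) (s := (917 / 20000 : ℝ)) (e := (1 / 10000000 : ℝ))
    (pb := (6889709 / 10000000 : ℝ)) (qb := (52901179 / 10000000 : ℝ)) (by norm_num)
    (by norm_num) (by norm_num) (by norm_num) (by norm_num) (by norm_num) (by norm_num) (by norm_num)
    (by norm_num) (by norm_num)
    (by norm_num) (by norm_num) (by norm_num) (by norm_num) (by norm_num)
    rfl rfl rfl rfl rfl rfl (by norm_num) (by norm_num) (by norm_num) hp hpb hq hqb hpq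

theorem rowL8_21 {p q : ℝ} (hp : 0 < p) (hpb : p ≤ (6941209 / 10000000 : ℝ)) (hq : 0 < q) (hqb : q ≤ (26112971 / 5000000 : ℝ))
    (hpq : 1 < p * q) : NoSol 8 p q :=
  noSol_rect (n := 8) (by norm_num) (N := 8) (a := (796989 / 1000000 : ℝ)) (b := (385963 / 500000 : ℝ))
    (τ := (458163 / 5000000 : ℝ)) (A5 := (32041 / 62500 : ℝ)) (A6 := (620863 / 1000000 : ℝ))
    (A9 := (435181 / 500000 : ℝ)) (A10 := (559111 / 1000000 : ℝ)) (s := (4723 / 100000 : ℝ)) (e := (1 / 10000000 : ℝ))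
    (pb := (6941209 / 10000000 : ℝ)) (qb := (26112971 / 5000000 : ℝ)) (by norm_num)
    (by norm_num) (by norm_num) (by norm_num) (by norm_num) (by norm_num) (by norm_num) (by norm_num)
    (by norm_num) (by norm_num)
    (by norm_num) (by norm_num) (by norm_num) (by norm_num) (by norm_num)
    rfl rfl rfl rfl rfl rfl (by norm_num) (by norm_num) (by norm_num) hp hpb hq hqb hpq

theorem rowL8_22 {p q : ℝ} (hp : 0 < p) (hpb : p ≤ (6994041 / 10000000 : ℝ)) (hq : 0 < q) (hqb : q ≤ (2576837 / 500000 : ℝ))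
    (hpq : 1 < p * q) : NoSol 8 p q :=
  noSol_rect (n := 8) (by norm_num) (N := 8) (a := (159941 / 200000 : ℝ)) (b := (38671 / 50000 : ℝ))
    (τ := (9407 / 100000 : ℝ)) (A5 := (51303 / 100000 : ℝ)) (A6 := (124083 / 200000 : ℝ))
    (A9 := (865029 / 1000000 : ℝ)) (A10 := (558937 / 1000000 : ℝ)) (s := (2323 / 50000 : ℝ)) (e := (1 / 10000000 : ℝ))
    (pb := (6994041 / 10000000 : ℝ)) (qb := (2576837 / 500000 : ℝ)) (by norm_num)
    (by norm_num) (by norm_num) (by norm_num) (by norm_num) (by norm_num) (by norm_num) (by norm_num)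
    (by norm_num) (by norm_num)
    (by norm_num) (by norm_num) (by norm_num) (by norm_num) (by norm_num)
    rfl rfl rfl rfl rfl rfl (by norm_num) (by norm_num) (by norm_num) hp hpb hq hqb hpq

theorem rowL8_23 {p q : ℝ} (hp : 0 < p) (hpb : p ≤ (7049167 / 10000000 : ℝ)) (hq : 0 < q) (hqb : q ≤ (10169919 / 2000000 : ℝ))
    (hpq : 1 < p * q) : NoSol 8 p q :=
  noSol_rect (n := 8) (by norm_num) (N := 8) (a := (79289 / 100000 : ℝ)) (b := (774281 / 1000000 : ℝ))
    (τ := (983011 / 10000000 : ℝ)) (A5 := (251571 / 500000 : ℝ)) (A6 := (39423 / 62500 : ℝ))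
    (A9 := (106543 / 125000 : ℝ)) (A10 := (559349 / 1000000 : ℝ)) (s := (4721 / 100000 : ℝ)) (e := (1 / 10000000 : ℝ))
    (pb := (7049167 / 10000000 : ℝ)) (qb := (10169919 / 2000000 : ℝ)) (by norm_num)
    (by norm_num) (by norm_num) (by norm_num) (by norm_num) (by norm_num) (by norm_num) (by norm_num)
    (by norm_num) (by norm_num)
    (by norm_num) (by norm_num) (by norm_num) (by norm_num) (by norm_num)
    rfl rfl rfl rfl rfl rfl (by norm_num) (by norm_num) (by norm_num) hp hpb hq hqb hpq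

theorem rowL8_24 {p q : ℝ} (hp : 0 < p) (hpb : p ≤ (3552547 / 5000000 : ℝ)) (hq : 0 < q) (hqb : q ≤ (12538293 / 2500000 : ℝ))
    (hpq : 1 < p * q) : NoSol 8 p q :=
  noSol_rect (n := 8) (by norm_num) (N := 8) (a := (791703 / 1000000 : ℝ)) (b := (97063 / 125000 : ℝ))
    (τ := (252617 / 2500000 : ℝ)) (A5 := (249353 / 500000 : ℝ)) (A6 := (635449 / 1000000 : ℝ))
    (A9 := (850183 / 1000000 : ℝ)) (A10 := (554579 / 1000000 : ℝ)) (s := (2343 / 50000 : ℝ)) (e := (1 / 10000000 : ℝ))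
    (pb := (3552547 / 5000000 : ℝ)) (qb := (12538293 / 2500000 : ℝ)) (by norm_num)
    (by norm_num) (by norm_num) (by norm_num) (by norm_num) (by norm_num) (by norm_num) (by norm_num)
    (by norm_num) (by norm_num)
    (by norm_num) (by norm_num) (by norm_num) (by norm_num) (by norm_num)
    rfl rfl rfl rfl rfl rfl (by norm_num) (by norm_num) (by norm_num) hp hpb hq hqb hpq

theorem rowL8_25 {p q : ℝ} (hp : 0 < p) (hpb : p ≤ (7162479 / 10000000 : ℝ)) (hq : 0 < q) (hqb : q ≤ (9893433 / 2000000 : ℝ))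
    (hpq : 1 < p * q) : NoSol 8 p q :=
  noSol_rect (n := 8) (by norm_num) (N := 8) (a := (791563 / 1000000 : ℝ)) (b := (387959 / 500000 : ℝ))
    (τ := (1035197 / 10000000 : ℝ)) (A5 := (124827 / 250000 : ℝ)) (A6 := (634727 / 1000000 : ℝ))
    (A9 := (847609 / 1000000 : ℝ)) (A10 := (110547 / 200000 : ℝ)) (s := (4707 / 100000 : ℝ)) (e := (1 / 10000000 : ℝ))
    (pb := (7162479 / 10000000 : ℝ)) (qb := (9893433 / 2000000 : ℝ)) (by norm_num)
    (by norm_num) (by norm_num) (by norm_num) (by norm_num) (by norm_num) (by norm_num) (by norm_num)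
    (by norm_num) (by norm_num)
    (by norm_num) (by norm_num) (by norm_num) (by norm_num) (by norm_num)
    rfl rfl rfl rfl rfl rfl (by norm_num) (by norm_num) (by norm_num) hp hpb hq hqb hpq

theorem rowL8_26 {p q : ℝ} (hp : 0 < p) (hpb : p ≤ (7220027 / 10000000 : ℝ)) (hq : 0 < q) (hqb : q ≤ (48783839 / 10000000 : ℝ))
    (hpq : 1 < p * q) : NoSol 8 p q :=
  noSol_rect (n := 8) (by norm_num) (N := 8) (a := (196887 / 250000 : ℝ)) (b := (155263 / 200000 : ℝ))
    (τ := (213849 / 2000000 : ℝ)) (A5 := (98799 / 200000 : ℝ)) (A6 := (80013 / 125000 : ℝ))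
    (A9 := (842579 / 1000000 : ℝ)) (A10 := (275067 / 500000 : ℝ)) (s := (953 / 20000 : ℝ)) (e := (1 / 10000000 : ℝ))
    (pb := (7220027 / 10000000 : ℝ)) (qb := (48783839 / 10000000 : ℝ)) (by norm_num)
    (by norm_num) (by norm_num) (by norm_num) (by norm_num) (by norm_num) (by norm_num) (by norm_num)
    (by norm_num) (by norm_num)
    (by norm_num) (by norm_num) (by norm_num) (by norm_num) (by norm_num)
    rfl rfl rfl rfl rfl rfl (by norm_num) (by norm_num) (by norm_num) hp hpb hq hqb hpq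

theorem rowL8_27 {p q : ℝ} (hp : 0 < p) (hpb : p ≤ (3639891 / 5000000 : ℝ)) (hq : 0 < q) (hqb : q ≤ (24059291 / 5000000 : ℝ))
    (hpq : 1 < p * q) : NoSol 8 p q :=
  noSol_rect (n := 8) (by norm_num) (N := 8) (a := (78899 / 100000 : ℝ)) (b := (774069 / 1000000 : ℝ))
    (τ := (220067 / 2000000 : ℝ)) (A5 := (496859 / 1000000 : ℝ)) (A6 := (127411 / 200000 : ℝ))
    (A9 := (41743 / 50000 : ℝ)) (A10 := (55317 / 100000 : ℝ)) (s := (2403 / 50000 : ℝ)) (e := (1 / 10000000 : ℝ))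
    (pb := (3639891 / 5000000 : ℝ)) (qb := (24059291 / 5000000 : ℝ)) (by norm_num)
    (by norm_num) (by norm_num) (by norm_num) (by norm_num) (by norm_num) (by norm_num) (by norm_num)
    (by norm_num) (by norm_num)
    (by norm_num) (by norm_num) (by norm_num) (by norm_num) (by norm_num)
    rfl rfl rfl rfl rfl rfl (by norm_num) (by norm_num) (by norm_num) hp hpb hq hqb hpq

theorem rowL8_28 {p q : ℝ} (hp : 0 < p) (hpb : p ≤ (7340829 / 10000000 : ℝ)) (hq : 0 < q) (hqb : q ≤ (11862023 / 2500000 : ℝ))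
    (hpq : 1 < p * q) : NoSol 8 p q :=
  noSol_rect (n := 8) (by norm_num) (N := 8) (a := (812221 / 1000000 : ℝ)) (b := (191293 / 250000 : ℝ))
    (τ := (1139483 / 10000000 : ℝ)) (A5 := (495639 / 1000000 : ℝ)) (A6 := (638481 / 1000000 : ℝ))
    (A9 := (825117 / 1000000 : ℝ)) (A10 := (555621 / 1000000 : ℝ)) (s := (4849 / 100000 : ℝ)) (e := (1 / 10000000 : ℝ))
    (pb := (7340829 / 10000000 : ℝ)) (qb := (11862023 / 2500000 : ℝ)) (by norm_num)
    (by norm_num) (by norm_num) (by norm_num) (by norm_num) (by norm_num) (by norm_num) (by norm_num)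
    (by norm_num) (by norm_num)
    (by norm_num) (by norm_num) (by norm_num) (by norm_num) (by norm_num)
    rfl rfl rfl rfl rfl rfl (by norm_num) (by norm_num) (by norm_num) hp hpb hq hqb hpq

theorem rowL8_29 {p q : ℝ} (hp : 0 < p) (hpb : p ≤ (740197 / 1000000 : ℝ)) (hq : 0 < q) (hqb : q ≤ (46783501 / 10000000 : ℝ))
    (hpq : 1 < p * q) : NoSol 8 p q :=
  noSol_rect (n := 8) (by norm_num) (N := 8) (a := (400737 / 500000 : ℝ)) (b := (153661 / 200000 : ℝ))
    (τ := (1176859 / 10000000 : ℝ)) (A5 := (30697 / 62500 : ℝ)) (A6 := (643343 / 1000000 : ℝ))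
    (A9 := (10251 / 12500 : ℝ)) (A10 := (553203 / 1000000 : ℝ)) (s := (4879 / 100000 : ℝ)) (e := (1 / 10000000 : ℝ))
    (pb := (740197 / 1000000 : ℝ)) (qb := (46783501 / 10000000 : ℝ)) (by norm_num)
    (by norm_num) (by norm_num) (by norm_num) (by norm_num) (by norm_num) (by norm_num) (by norm_num)
    (by norm_num) (by norm_num)
    (by norm_num) (by norm_num) (by norm_num) (by norm_num) (by norm_num)
    rfl rfl rfl rfl rfl rfl (by norm_num) (by norm_num) (by norm_num) hp hpb hq hqb hpq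

theorem rowL8_30 {p q : ℝ} (hp : 0 < p) (hpb : p ≤ (7466079 / 10000000 : ℝ)) (hq : 0 < q) (hqb : q ≤ (23068819 / 5000000 : ℝ))
    (hpq : 1 < p * q) : NoSol 8 p q :=
  noSol_rect (n := 8) (by norm_num) (N := 8) (a := (802941 / 1000000 : ℝ)) (b := (767617 / 1000000 : ℝ))
    (τ := (75047 / 625000 : ℝ)) (A5 := (500107 / 1000000 : ℝ)) (A6 := (633749 / 1000000 : ℝ))
    (A9 := (12743 / 15625 : ℝ)) (A10 := (278387 / 500000 : ℝ)) (s := (969 / 20000 : ℝ)) (e := (1 / 10000000 : ℝ))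
    (pb := (7466079 / 10000000 : ℝ)) (qb := (23068819 / 5000000 : ℝ)) (by norm_num)
    (by norm_num) (by norm_num) (by norm_num) (by norm_num) (by norm_num) (by norm_num) (by norm_num)
    (by norm_num) (by norm_num)
    (by norm_num) (by norm_num) (by norm_num) (by norm_num) (by norm_num)
    rfl rfl rfl rfl rfl rfl (by norm_num) (by norm_num) (by norm_num) hp hpb hq hqb hpq

theorem rowL8_31 {p q : ℝ} (hp : 0 < p) (hpb : p ≤ (7528849 / 10000000 : ℝ)) (hq : 0 < q) (hqb : q ≤ (9096141 / 2000000 : ℝ))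
    (hpq : 1 < p * q) : NoSol 8 p q :=
  noSol_rect (n := 8) (by norm_num) (N := 8) (a := (196037 / 250000 : ℝ)) (b := (387057 / 500000 : ℝ))
    (τ := (1209057 / 10000000 : ℝ)) (A5 := (518293 / 1000000 : ℝ)) (A6 := (30719 / 50000 : ℝ))
    (A9 := (162903 / 200000 : ℝ)) (A10 := (280581 / 500000 : ℝ)) (s := (4761 / 100000 : ℝ)) (e := (1 / 10000000 : ℝ))
    (pb := (7528849 / 10000000 : ℝ)) (qb := (9096141 / 2000000 : ℝ)) (by norm_num)
    (by norm_num) (by norm_num) (by norm_num) (by norm_num) (by norm_num) (by norm_num) (by norm_num)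
    (by norm_num) (by norm_num)
    (by norm_num) (by norm_num) (by norm_num) (by norm_num) (by norm_num)
    rfl rfl rfl rfl rfl rfl (by norm_num) (by norm_num) (by norm_num) hp hpb hq hqb hpq

theorem rowL8_32 {p q : ℝ} (hp : 0 < p) (hpb : p ≤ (7594153 / 10000000 : ℝ)) (hq : 0 < q) (hqb : q ≤ (44856719 / 10000000 : ℝ))
    (hpq : 1 < p * q) : NoSol 8 p q :=
  noSol_rect (n := 8) (by norm_num) (N := 8) (a := (391217 / 500000 : ℝ)) (b := (387821 / 500000 : ℝ))
    (τ := (1281493 / 10000000 : ℝ)) (A5 := (251179 / 500000 : ℝ)) (A6 := (631097 / 1000000 : ℝ))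
    (A9 := (199419 / 250000 : ℝ)) (A10 := (140919 / 250000 : ℝ)) (s := (4809 / 100000 : ℝ)) (e := (1 / 10000000 : ℝ))
    (pb := (7594153 / 10000000 : ℝ)) (qb := (44856719 / 10000000 : ℝ)) (by norm_num)
    (by norm_num) (by norm_num) (by norm_num) (by norm_num) (by norm_num) (by norm_num) (by norm_num)
    (by norm_num) (by norm_num)
    (by norm_num) (by norm_num) (by norm_num) (by norm_num) (by norm_num)
    rfl rfl rfl rfl rfl rfl (by norm_num) (by norm_num) (by norm_num) hp hpb hq hqb hpq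

theorem rowL8_33 {p q : ℝ} (hp : 0 < p) (hpb : p ≤ (7659259 / 10000000 : ℝ)) (hq : 0 < q) (hqb : q ≤ (44226833 / 10000000 : ℝ))
    (hpq : 1 < p * q) : NoSol 8 p q :=
  noSol_rect (n := 8) (by norm_num) (N := 8) (a := (776087 / 1000000 : ℝ)) (b := (777573 / 1000000 : ℝ))
    (τ := (323911 / 2500000 : ℝ)) (A5 := (102749 / 200000 : ℝ)) (A6 := (618921 / 1000000 : ℝ))
    (A9 := (399161 / 500000 : ℝ)) (A10 := (140999 / 250000 : ℝ)) (s := (191 / 4000 : ℝ)) (e := (1 / 10000000 : ℝ))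
    (pb := (7659259 / 10000000 : ℝ)) (qb := (44226833 / 10000000 : ℝ)) (by norm_num)
    (by norm_num) (by norm_num) (by norm_num) (by norm_num) (by norm_num) (by norm_num) (by norm_num)
    (by norm_num) (by norm_num)
    (by norm_num) (by norm_num) (by norm_num) (by norm_num) (by norm_num)
    rfl rfl rfl rfl rfl rfl (by norm_num) (by norm_num) (by norm_num) hp hpb hq hqb hpq

theorem rowL8_34 {p q : ℝ} (hp : 0 < p) (hpb : p ≤ (965913 / 1250000 : ℝ)) (hq : 0 < q) (hqb : q ≤ (21808787 / 5000000 : ℝ))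
    (hpq : 1 < p * q) : NoSol 8 p q :=
  noSol_rect (n := 8) (by norm_num) (N := 8) (a := (779561 / 1000000 : ℝ)) (b := (97481 / 125000 : ℝ))
    (τ := (658581 / 5000000 : ℝ)) (A5 := (505557 / 1000000 : ℝ)) (A6 := (627607 / 1000000 : ℝ))
    (A9 := (809753 / 1000000 : ℝ)) (A10 := (274127 / 500000 : ℝ)) (s := (591 / 12500 : ℝ)) (e := (1 / 10000000 : ℝ))
    (pb := (965913 / 1250000 : ℝ)) (qb := (21808787 / 5000000 : ℝ)) (by norm_num)
    (by norm_num) (by norm_num) (by norm_num) (by norm_num) (by norm_num) (by norm_num) (by norm_num)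
    (by norm_num) (by norm_num)
    (by norm_num) (by norm_num) (by norm_num) (by norm_num) (by norm_num)
    rfl rfl rfl rfl rfl rfl (by norm_num) (by norm_num) (by norm_num) hp hpb hq hqb hpq

theorem rowL8_35 {p q : ℝ} (hp : 0 < p) (hpb : p ≤ (7796443 / 10000000 : ℝ)) (hq : 0 < q) (hqb : q ≤ (8599979 / 2000000 : ℝ))
    (hpq : 1 < p * q) : NoSol 8 p q :=
  noSol_rect (n := 8) (by norm_num) (N := 8) (a := (781209 / 1000000 : ℝ)) (b := (777833 / 1000000 : ℝ))
    (τ := (270033 / 2000000 : ℝ)) (A5 := (507017 / 1000000 : ℝ)) (A6 := (626193 / 1000000 : ℝ))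
    (A9 := (12613 / 15625 : ℝ)) (A10 := (546733 / 1000000 : ℝ)) (s := (2383 / 50000 : ℝ)) (e := (1 / 10000000 : ℝ))
    (pb := (7796443 / 10000000 : ℝ)) (qb := (8599979 / 2000000 : ℝ)) (by norm_num)
    (by norm_num) (by norm_num) (by norm_num) (by norm_num) (by norm_num) (by norm_num) (by norm_num)
    (by norm_num) (by norm_num)
    (by norm_num) (by norm_num) (by norm_num) (by norm_num) (by norm_num)
    rfl rfl rfl rfl rfl rfl (by norm_num) (by norm_num) (by norm_num) hp hpb hq hqb hpq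

theorem rowL8_36 {p q : ℝ} (hp : 0 < p) (hpb : p ≤ (7865501 / 10000000 : ℝ)) (hq : 0 < q) (hqb : q ≤ (8478273 / 2000000 : ℝ))
    (hpq : 1 < p * q) : NoSol 8 p q :=
  noSol_rect (n := 8) (by norm_num) (N := 8) (a := (385889 / 500000 : ℝ)) (b := (784037 / 1000000 : ℝ))
    (τ := (347681 / 2500000 : ℝ)) (A5 := (500931 / 1000000 : ℝ)) (A6 := (2529 / 4000 : ℝ))
    (A9 := (806937 / 1000000 : ℝ)) (A10 := (135307 / 250000 : ℝ)) (s := (2371 / 50000 : ℝ)) (e := (1 / 10000000 : ℝ))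
    (pb := (7865501 / 10000000 : ℝ)) (qb := (8478273 / 2000000 : ℝ)) (by norm_num)
    (by norm_num) (by norm_num) (by norm_num) (by norm_num) (by norm_num) (by norm_num) (by norm_num)
    (by norm_num) (by norm_num)
    (by norm_num) (by norm_num) (by norm_num) (by norm_num) (by norm_num)
    rfl rfl rfl rfl rfl rfl (by norm_num) (by norm_num) (by norm_num) hp hpb hq hqb hpq

theorem rowL8_37 {p q : ℝ} (hp : 0 < p) (hpb : p ≤ (7936139 / 10000000 : ℝ)) (hq : 0 < q) (hqb : q ≤ (20900941 / 5000000 : ℝ))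
    (hpq : 1 < p * q) : NoSol 8 p q :=
  noSol_rect (n := 8) (by norm_num) (N := 8) (a := (392077 / 500000 : ℝ)) (b := (776679 / 1000000 : ℝ))
    (τ := (360087 / 2500000 : ℝ)) (A5 := (500373 / 1000000 : ℝ)) (A6 := (316573 / 500000 : ℝ))
    (A9 := (797631 / 1000000 : ℝ)) (A10 := (544137 / 1000000 : ℝ)) (s := (241 / 5000 : ℝ)) (e := (1 / 10000000 : ℝ))
    (pb := (7936139 / 10000000 : ℝ)) (qb := (20900941 / 5000000 : ℝ)) (by norm_num)
    (by norm_num) (by norm_num) (by norm_num) (by norm_num) (by norm_num) (by norm_num) (by norm_num)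
    (by norm_num) (by norm_num)
    (by norm_num) (by norm_num) (by norm_num) (by norm_num) (by norm_num)
    rfl rfl rfl rfl rfl rfl (by norm_num) (by norm_num) (by norm_num) hp hpb hq hqb hpq

theorem rowL8_38 {p q : ℝ} (hp : 0 < p) (hpb : p ≤ (2002019 / 2500000 : ℝ)) (hq : 0 < q) (hqb : q ≤ (2060851 / 500000 : ℝ))
    (hpq : 1 < p * q) : NoSol 8 p q :=
  noSol_rect (n := 8) (by norm_num) (N := 8) (a := (780601 / 1000000 : ℝ)) (b := (388499 / 500000 : ℝ))
    (τ := (1479707 / 10000000 : ℝ)) (A5 := (503301 / 1000000 : ℝ)) (A6 := (315053 / 500000 : ℝ))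
    (A9 := (158469 / 200000 : ℝ)) (A10 := (873 / 1600 : ℝ)) (s := (2419 / 50000 : ℝ)) (e := (1 / 10000000 : ℝ))
    (pb := (2002019 / 2500000 : ℝ)) (qb := (2060851 / 500000 : ℝ)) (by norm_num)
    (by norm_num) (by norm_num) (by norm_num) (by norm_num) (by norm_num) (by norm_num) (by norm_num)
    (by norm_num) (by norm_num)
    (by norm_num) (by norm_num) (by norm_num) (by norm_num) (by norm_num)
    rfl rfl rfl rfl rfl rfl (by norm_num) (by norm_num) (by norm_num) hp hpb hq hqb hpq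

theorem rowL8_39 {p q : ℝ} (hp : 0 < p) (hpb : p ≤ (8080507 / 10000000 : ℝ)) (hq : 0 < q) (hqb : q ≤ (20319689 / 5000000 : ℝ))
    (hpq : 1 < p * q) : NoSol 8 p q :=
  noSol_rect (n := 8) (by norm_num) (N := 8) (a := (155947 / 200000 : ℝ)) (b := (776691 / 1000000 : ℝ))
    (τ := (1517031 / 10000000 : ℝ)) (A5 := (502561 / 1000000 : ℝ)) (A6 := (157713 / 250000 : ℝ))
    (A9 := (395809 / 500000 : ℝ)) (A10 := (542337 / 1000000 : ℝ)) (s := (1219 / 25000 : ℝ)) (e := (1 / 10000000 : ℝ))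
    (pb := (8080507 / 10000000 : ℝ)) (qb := (20319689 / 5000000 : ℝ)) (by norm_num)
    (by norm_num) (by norm_num) (by norm_num) (by norm_num) (by norm_num) (by norm_num) (by norm_num)
    (by norm_num) (by norm_num)
    (by norm_num) (by norm_num) (by norm_num) (by norm_num) (by norm_num)
    rfl rfl rfl rfl rfl rfl (by norm_num) (by norm_num) (by norm_num) hp hpb hq hqb hpq

end Vale.Agent.Lib.P100
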