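import Vale.Agent.Lib.P100.Cover

/-!
Rational certificates, dimension 8.
-/

namespace Vale.Agent.Lib.P100

theorem rowL8_40 {p q : ℝ} (hp : 0 < p) (hpb : p ≤ (1630711 / 2000000 : ℝ)) (hq : 0 < q) (hqb : q ≤ (1603011 / 400000 : ℝ))
    (hpq : 1 < p * q) : NoSol 8 p q :=
  noSol_rect (n := 8) (by norm_num) (N := 8) (a := (780153 / 1000000 : ℝ)) (b := (777573 / 1000000 : ℝ))
    (τ := (1559411 / 10000000 : ℝ)) (A5 := (251029 / 500000 : ℝ)) (A6 := (157819 / 250000 : ℝ))
    (A9 := (394309 / 500000 : ℝ)) (A10 := (541101 / 1000000 : ℝ)) (s := (152 / 3125 : ℝ)) (e := (1 / 10000000 : ℝ))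
    (pb := (1630711 / 2000000 : ℝ)) (qb := (1603011 / 400000 : ℝ)) (by norm_num)
    (by norm_num) (by norm_num) (by norm_num) (by norm_num) (by norm_num) (by norm_num) (by norm_num)
    (by norm_num) (by norm_num)
    (by norm_num) (by norm_num) (by norm_num) (by norm_num) (by norm_num)
    rfl rfl rfl rfl rfl rfl (by norm_num) (by norm_num) (by norm_num) hp hpb hq hqb hpq

theorem rowL8_41 {p q : ℝ} (hp : 0 < p) (hpb : p ≤ (4113699 / 5000000 : ℝ)) (hq : 0 < q) (hqb : q ≤ (39523363 / 10000000 : ℝ))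
    (hpq : 1 < p * q) : NoSol 8 p q :=
  noSol_rect (n := 8) (by norm_num) (N := 8) (a := (19557 / 25000 : ℝ)) (b := (194213 / 250000 : ℝ))
    (τ := (1281 / 8000 : ℝ)) (A5 := (15721 / 31250 : ℝ)) (A6 := (629861 / 1000000 : ℝ))
    (A9 := (392691 / 500000 : ℝ)) (A10 := (270501 / 500000 : ℝ)) (s := (1221 / 25000 : ℝ)) (e := (1 / 10000000 : ℝ))
    (pb := (4113699 / 5000000 : ℝ)) (qb := (39523363 / 10000000 : ℝ)) (by norm_num)
    (by norm_num) (by norm_num) (by norm_num) (by norm_num) (by norm_num) (by norm_num) (by norm_num)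
    (by norm_num) (by norm_num)
    (by norm_num) (by norm_num) (by norm_num) (by norm_num) (by norm_num)
    rfl rfl rfl rfl rfl rfl (by norm_num) (by norm_num) (by norm_num) hp hpb hq hqb hpq

theorem rowL8_42 {p q : ℝ} (hp : 0 < p) (hpb : p ≤ (8302269 / 10000000 : ℝ)) (hq : 0 < q) (hqb : q ≤ (4872753 / 1250000 : ℝ))
    (hpq : 1 < p * q) : NoSol 8 p q :=
  noSol_rect (n := 8) (by norm_num) (N := 8) (a := (780727 / 1000000 : ℝ)) (b := (387877 / 500000 : ℝ))
    (τ := (205949 / 1250000 : ℝ)) (A5 := (506279 / 1000000 : ℝ)) (A6 := (313331 / 500000 : ℝ))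
    (A9 := (194603 / 250000 : ℝ)) (A10 := (543959 / 1000000 : ℝ)) (s := (1229 / 25000 : ℝ)) (e := (1 / 10000000 : ℝ))
    (pb := (8302269 / 10000000 : ℝ)) (qb := (4872753 / 1250000 : ℝ)) (by norm_num)
    (by norm_num) (by norm_num) (by norm_num) (by norm_num) (by norm_num) (by norm_num) (by norm_num)
    (by norm_num) (by norm_num)
    (by norm_num) (by norm_num) (by norm_num) (by norm_num) (by norm_num)
    rfl rfl rfl rfl rfl rfl (by norm_num) (by norm_num) (by norm_num) hp hpb hq hqb hpq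

theorem rowL8_43 {p q : ℝ} (hp : 0 < p) (hpb : p ≤ (8377767 / 10000000 : ℝ)) (hq : 0 < q) (hqb : q ≤ (19224707 / 5000000 : ℝ))
    (hpq : 1 < p * q) : NoSol 8 p q :=
  noSol_rect (n := 8) (by norm_num) (N := 8) (a := (159723 / 200000 : ℝ)) (b := (96267 / 125000 : ℝ))
    (τ := (426223 / 2500000 : ℝ)) (A5 := (500837 / 1000000 : ℝ)) (A6 := (631339 / 1000000 : ℝ))
    (A9 := (155001 / 200000 : ℝ)) (A10 := (21717 / 40000 : ℝ)) (s := (199 / 4000 : ℝ)) (e := (1 / 10000000 : ℝ))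
    (pb := (8377767 / 10000000 : ℝ)) (qb := (19224707 / 5000000 : ℝ)) (by norm_num)
    (by norm_num) (by norm_num) (by norm_num) (by norm_num) (by norm_num) (by norm_num) (by norm_num)
    (by norm_num) (by norm_num)
    (by norm_num) (by norm_num) (by norm_num) (by norm_num) (by norm_num)
    rfl rfl rfl rfl rfl rfl (by norm_num) (by norm_num) (by norm_num) hp hpb hq hqb hpq

theorem rowL8_44 {p q : ℝ} (hp : 0 < p) (hpb : p ≤ (422671 / 500000 : ℝ)) (hq : 0 < q) (hqb : q ≤ (18964099 / 5000000 : ℝ))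
    (hpq : 1 < p * q) : NoSol 8 p q :=
  noSol_rect (n := 8) (by norm_num) (N := 8) (a := (406891 / 500000 : ℝ)) (b := (23943 / 31250 : ℝ))
    (τ := (1728259 / 10000000 : ℝ)) (A5 := (253111 / 500000 : ℝ)) (A6 := (624187 / 1000000 : ℝ))
    (A9 := (778667 / 1000000 : ℝ)) (A10 := (67557 / 125000 : ℝ)) (s := (2487 / 50000 : ℝ)) (e := (1 / 10000000 : ℝ))
    (pb := (422671 / 500000 : ℝ)) (qb := (18964099 / 5000000 : ℝ)) (by norm_num)
    (by norm_num) (by norm_num) (by norm_num) (by norm_num) (by norm_num) (by norm_num) (by norm_num)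
    (by norm_num) (by norm_num)
    (by norm_num) (by norm_num) (by norm_num) (by norm_num) (by norm_num)
    rfl rfl rfl rfl rfl rfl (by norm_num) (by norm_num) (by norm_num) hp hpb hq hqb hpq

theorem rowL8_45 {p q : ℝ} (hp : 0 < p) (hpb : p ≤ (8530441 / 10000000 : ℝ)) (hq : 0 < q) (hqb : q ≤ (292353 / 78125 : ℝ))
    (hpq : 1 < p * q) : NoSol 8 p q :=
  noSol_rect (n := 8) (by norm_num) (N := 8) (a := (25013 / 31250 : ℝ)) (b := (3073 / 4000 : ℝ))
    (τ := (179799 / 1000000 : ℝ)) (A5 := (504223 / 1000000 : ℝ)) (A6 := (313779 / 500000 : ℝ))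
    (A9 := (95837 / 125000 : ℝ)) (A10 := (34033 / 62500 : ℝ)) (s := (5027 / 100000 : ℝ)) (e := (1 / 10000000 : ℝ))
    (pb := (8530441 / 10000000 : ℝ)) (qb := (292353 / 78125 : ℝ)) (by norm_num)
    (by norm_num) (by norm_num) (by norm_num) (by norm_num) (by norm_num) (by norm_num) (by norm_num)
    (by norm_num) (by norm_num)
    (by norm_num) (by norm_num) (by norm_num) (by norm_num) (by norm_num)
    rfl rfl rfl rfl rfl rfl (by norm_num) (by norm_num) (by norm_num) hp hpb hq hqb hpq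

theorem rowL8_46 {p q : ℝ} (hp : 0 < p) (hpb : p ≤ (430399 / 500000 : ℝ)) (hq : 0 < q) (hqb : q ≤ (36920023 / 10000000 : ℝ))
    (hpq : 1 < p * q) : NoSol 8 p q :=
  noSol_rect (n := 8) (by norm_num) (N := 8) (a := (817941 / 1000000 : ℝ)) (b := (191529 / 250000 : ℝ))
    (τ := (232179 / 1250000 : ℝ)) (A5 := (24869 / 50000 : ℝ)) (A6 := (632493 / 1000000 : ℝ))
    (A9 := (383303 / 500000 : ℝ)) (A10 := (542383 / 1000000 : ℝ)) (s := (253 / 5000 : ℝ)) (e := (1 / 10000000 : ℝ))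
    (pb := (430399 / 500000 : ℝ)) (qb := (36920023 / 10000000 : ℝ)) (by norm_num)
    (by norm_num) (by norm_num) (by norm_num) (by norm_num) (by norm_num) (by norm_num) (by norm_num)
    (by norm_num) (by norm_num)
    (by norm_num) (by norm_num) (by norm_num) (by norm_num) (by norm_num)
    rfl rfl rfl rfl rfl rfl (by norm_num) (by norm_num) (by norm_num) hp hpb hq hqb hpq

theorem rowL8_47 {p q : ℝ} (hp : 0 < p) (hpb : p ≤ (1737237 / 2000000 : ℝ)) (hq : 0 < q) (hqb : q ≤ (36430139 / 10000000 : ℝ))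
    (hpq : 1 < p * q) : NoSol 8 p q :=
  noSol_rect (n := 8) (by norm_num) (N := 8) (a := (403591 / 500000 : ℝ)) (b := (767901 / 1000000 : ℝ))
    (τ := (1904213 / 10000000 : ℝ)) (A5 := (124703 / 250000 : ℝ)) (A6 := (632463 / 1000000 : ℝ))
    (A9 := (190723 / 250000 : ℝ)) (A10 := (135207 / 250000 : ℝ)) (s := (5071 / 100000 : ℝ)) (e := (1 / 10000000 : ℝ))
    (pb := (1737237 / 2000000 : ℝ)) (qb := (36430139 / 10000000 : ℝ)) (by norm_num)
    (by norm_num) (by norm_num) (by norm_num) (by norm_num) (by norm_num) (by norm_num) (by norm_num)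
    (by norm_num) (by norm_num)
    (by norm_num) (by norm_num) (by norm_num) (by norm_num) (by norm_num)
    rfl rfl rfl rfl rfl rfl (by norm_num) (by norm_num) (by norm_num) hp hpb hq hqb hpq

theorem rowL8_48 {p q : ℝ} (hp : 0 < p) (hpb : p ≤ (8765487 / 10000000 : ℝ)) (hq : 0 < q) (hqb : q ≤ (8987573 / 2500000 : ℝ))
    (hpq : 1 < p * q) : NoSol 8 p q :=
  noSol_rect (n := 8) (by norm_num) (N := 8) (a := (402953 / 500000 : ℝ)) (b := (77537 / 100000 : ℝ))
    (τ := (244371 / 1250000 : ℝ)) (A5 := (250109 / 500000 : ℝ)) (A6 := (314073 / 500000 : ℝ))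
    (A9 := (76087 / 100000 : ℝ)) (A10 := (54369 / 100000 : ℝ)) (s := (5039 / 100000 : ℝ)) (e := (1 / 10000000 : ℝ))
    (pb := (8765487 / 10000000 : ℝ)) (qb := (8987573 / 2500000 : ℝ)) (by norm_num)
    (by norm_num) (by norm_num) (by norm_num) (by norm_num) (by norm_num) (by norm_num) (by norm_num)
    (by norm_num) (by norm_num)
    (by norm_num) (by norm_num) (by norm_num) (by norm_num) (by norm_num)
    rfl rfl rfl rfl rfl rfl (by norm_num) (by norm_num) (by norm_num) hp hpb hq hqb hpq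

theorem rowL8_49 {p q : ℝ} (hp : 0 < p) (hpb : p ≤ (4422761 / 5000000 : ℝ)) (hq : 0 < q) (hqb : q ≤ (554339 / 156250 : ℝ))
    (hpq : 1 < p * q) : NoSol 8 p q :=
  noSol_rect (n := 8) (by norm_num) (N := 8) (a := (80689 / 100000 : ℝ)) (b := (6193 / 8000 : ℝ))
    (τ := (401721 / 2000000 : ℝ)) (A5 := (498679 / 1000000 : ℝ)) (A6 := (629967 / 1000000 : ℝ))
    (A9 := (94859 / 125000 : ℝ)) (A10 := (5417 / 10000 : ℝ)) (s := (5077 / 100000 : ℝ)) (e := (1 / 10000000 : ℝ))
    (pb := (4422761 / 5000000 : ℝ)) (qb := (554339 / 156250 : ℝ)) (by norm_num)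
    (by norm_num) (by norm_num) (by norm_num) (by norm_num) (by norm_num) (by norm_num) (by norm_num)
    (by norm_num) (by norm_num)
    (by norm_num) (by norm_num) (by norm_num) (by norm_num) (by norm_num)
    rfl rfl rfl rfl rfl rfl (by norm_num) (by norm_num) (by norm_num) hp hpb hq hqb hpq

theorem rowL8_50 {p q : ℝ} (hp : 0 < p) (hpb : p ≤ (8926523 / 10000000 : ℝ)) (hq : 0 < q) (hqb : q ≤ (8753599 / 2500000 : ℝ))
    (hpq : 1 < p * q) : NoSol 8 p q :=
  noSol_rect (n := 8) (by norm_num) (N := 8) (a := (10083 / 12500 : ℝ)) (b := (778131 / 1000000 : ℝ))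
    (τ := (16197 / 78125 : ℝ)) (A5 := (249359 / 500000 : ℝ)) (A6 := (628529 / 1000000 : ℝ))
    (A9 := (753033 / 1000000 : ℝ)) (A10 := (545477 / 1000000 : ℝ)) (s := (2541 / 50000 : ℝ)) (e := (1 / 10000000 : ℝ))
    (pb := (8926523 / 10000000 : ℝ)) (qb := (8753599 / 2500000 : ℝ)) (by norm_num)
    (by norm_num) (by norm_num) (by norm_num) (by norm_num) (by norm_num) (by norm_num) (by norm_num)
    (by norm_num) (by norm_num)
    (by norm_num) (by norm_num) (by norm_num) (by norm_num) (by norm_num)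
    rfl rfl rfl rfl rfl rfl (by norm_num) (by norm_num) (by norm_num) hp hpb hq hqb hpq

theorem rowL8_51 {p q : ℝ} (hp : 0 < p) (hpb : p ≤ (2251941 / 2500000 : ℝ)) (hq : 0 < q) (hqb : q ≤ (34558887 / 10000000 : ℝ))
    (hpq : 1 < p * q) : NoSol 8 p q :=
  noSol_rect (n := 8) (by norm_num) (N := 8) (a := (212017 / 250000 : ℝ)) (b := (381529 / 500000 : ℝ))
    (τ := (132399 / 625000 : ℝ)) (A5 := (99171 / 200000 : ℝ)) (A6 := (125913 / 200000 : ℝ))
    (A9 := (189399 / 250000 : ℝ)) (A10 := (54069 / 100000 : ℝ)) (s := (161 / 3125 : ℝ)) (e := (1 / 10000000 : ℝ))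
    (pb := (2251941 / 2500000 : ℝ)) (qb := (34558887 / 10000000 : ℝ)) (by norm_num)
    (by norm_num) (by norm_num) (by norm_num) (by norm_num) (by norm_num) (by norm_num) (by norm_num)
    (by norm_num) (by norm_num)
    (by norm_num) (by norm_num) (by norm_num) (by norm_num) (by norm_num)
    rfl rfl rfl rfl rfl rfl (by norm_num) (by norm_num) (by norm_num) hp hpb hq hqb hpq

theorem rowL8_52 {p q : ℝ} (hp : 0 < p) (hpb : p ≤ (4544871 / 5000000 : ℝ)) (hq : 0 < q) (hqb : q ≤ (17057489 / 5000000 : ℝ))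
    (hpq : 1 < p * q) : NoSol 8 p q :=
  noSol_rect (n := 8) (by norm_num) (N := 8) (a := (52559 / 62500 : ℝ)) (b := (753407 / 1000000 : ℝ))
    (τ := (2191593 / 10000000 : ℝ)) (A5 := (61943 / 125000 : ℝ)) (A6 := (634657 / 1000000 : ℝ))
    (A9 := (18663 / 25000 : ℝ)) (A10 := (270427 / 500000 : ℝ)) (s := (2637 / 50000 : ℝ)) (e := (1 / 10000000 : ℝ))
    (pb := (4544871 / 5000000 : ℝ)) (qb := (17057489 / 5000000 : ℝ)) (by norm_num)
    (by norm_num) (by norm_num) (by norm_num) (by norm_num) (by norm_num) (by norm_num) (by norm_num)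
    (by norm_num) (by norm_num)
    (by norm_num) (by norm_num) (by norm_num) (by norm_num) (by norm_num)
    rfl rfl rfl rfl rfl rfl (by norm_num) (by norm_num) (by norm_num) hp hpb hq hqb hpq

theorem rowL8_53 {p q : ℝ} (hp : 0 < p) (hpb : p ≤ (1146599 / 1250000 : ℝ)) (hq : 0 < q) (hqb : q ≤ (8419909 / 2500000 : ℝ))
    (hpq : 1 < p * q) : NoSol 8 p q :=
  noSol_rect (n := 8) (by norm_num) (N := 8) (a := (845199 / 1000000 : ℝ)) (b := (379603 / 500000 : ℝ))
    (τ := (556529 / 2500000 : ℝ)) (A5 := (496799 / 1000000 : ℝ)) (A6 := (31541 / 50000 : ℝ))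
    (A9 := (94019 / 125000 : ℝ)) (A10 := (268611 / 500000 : ℝ)) (s := (261 / 5000 : ℝ)) (e := (1 / 10000000 : ℝ))
    (pb := (1146599 / 1250000 : ℝ)) (qb := (8419909 / 2500000 : ℝ)) (by norm_num)
    (by norm_num) (by norm_num) (by norm_num) (by norm_num) (by norm_num) (by norm_num) (by norm_num)
    (by norm_num) (by norm_num)
    (by norm_num) (by norm_num) (by norm_num) (by norm_num) (by norm_num)
    rfl rfl rfl rfl rfl rfl (by norm_num) (by norm_num) (by norm_num) hp hpb hq hqb hpq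

theorem rowL8_54 {p q : ℝ} (hp : 0 < p) (hpb : p ≤ (9256879 / 10000000 : ℝ)) (hq : 0 < q) (hqb : q ≤ (415637 / 125000 : ℝ))
    (hpq : 1 < p * q) : NoSol 8 p q :=
  noSol_rect (n := 8) (by norm_num) (N := 8) (a := (21113 / 25000 : ℝ)) (b := (189167 / 250000 : ℝ))
    (τ := (456753 / 2000000 : ℝ)) (A5 := (499687 / 1000000 : ℝ)) (A6 := (125717 / 200000 : ℝ))
    (A9 := (746933 / 1000000 : ℝ)) (A10 := (538673 / 1000000 : ℝ)) (s := (5263 / 100000 : ℝ)) (e := (1 / 10000000 : ℝ))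
    (pb := (9256879 / 10000000 : ℝ)) (qb := (415637 / 125000 : ℝ)) (by norm_num)
    (by norm_num) (by norm_num) (by norm_num) (by norm_num) (by norm_num) (by norm_num) (by norm_num)
    (by norm_num) (by norm_num)
    (by norm_num) (by norm_num) (by norm_num) (by norm_num) (by norm_num)
    rfl rfl rfl rfl rfl rfl (by norm_num) (by norm_num) (by norm_num) hp hpb hq hqb hpq

theorem rowL8_55 {p q : ℝ} (hp : 0 < p) (hpb : p ≤ (4671057 / 5000000 : ℝ)) (hq : 0 < q) (hqb : q ≤ (32829077 / 10000000 : ℝ))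
    (hpq : 1 < p * q) : NoSol 8 p q :=
  noSol_rect (n := 8) (by norm_num) (N := 8) (a := (846361 / 1000000 : ℝ)) (b := (758571 / 1000000 : ℝ))
    (τ := (2348377 / 10000000 : ℝ)) (A5 := (499003 / 1000000 : ℝ)) (A6 := (628403 / 1000000 : ℝ))
    (A9 := (148839 / 200000 : ℝ)) (A10 := (269713 / 500000 : ℝ)) (s := (2639 / 50000 : ℝ)) (e := (1 / 10000000 : ℝ))
    (pb := (4671057 / 5000000 : ℝ)) (qb := (32829077 / 10000000 : ℝ)) (by norm_num)
    (by norm_num) (by norm_num) (by norm_num) (by norm_num) (by norm_num) (by norm_num) (by norm_num)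
    (by norm_num) (by norm_num)
    (by norm_num) (by norm_num) (by norm_num) (by norm_num) (by norm_num)
    rfl rfl rfl rfl rfl rfl (by norm_num) (by norm_num) (by norm_num) hp hpb hq hqb hpq

theorem rowL8_56 {p q : ℝ} (hp : 0 < p) (hpb : p ≤ (2357137 / 2500000 : ℝ)) (hq : 0 < q) (hqb : q ≤ (32413387 / 10000000 : ℝ))
    (hpq : 1 < p * q) : NoSol 8 p q :=
  noSol_rect (n := 8) (by norm_num) (N := 8) (a := (422079 / 500000 : ℝ)) (b := (381511 / 500000 : ℝ))
    (τ := (1209531 / 5000000 : ℝ)) (A5 := (498197 / 1000000 : ℝ)) (A6 := (62839 / 100000 : ℝ))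
    (A9 := (92537 / 125000 : ℝ)) (A10 := (541127 / 1000000 : ℝ)) (s := (661 / 12500 : ℝ)) (e := (1 / 10000000 : ℝ))
    (pb := (2357137 / 2500000 : ℝ)) (qb := (32413387 / 10000000 : ℝ)) (by norm_num)
    (by norm_num) (by norm_num) (by norm_num) (by norm_num) (by norm_num) (by norm_num) (by norm_num)
    (by norm_num) (by norm_num)
    (by norm_num) (by norm_num) (by norm_num) (by norm_num) (by norm_num)
    rfl rfl rfl rfl rfl rfl (by norm_num) (by norm_num) (by norm_num) hp hpb hq hqb hpq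

theorem rowL8_57 {p q : ℝ} (hp : 0 < p) (hpb : p ≤ (4758057 / 5000000 : ℝ)) (hq : 0 < q) (hqb : q ≤ (16001813 / 5000000 : ℝ))
    (hpq : 1 < p * q) : NoSol 8 p q :=
  noSol_rect (n := 8) (by norm_num) (N := 8) (a := (420949 / 500000 : ℝ)) (b := (153257 / 200000 : ℝ))
    (τ := (624577 / 2500000 : ℝ)) (A5 := (496643 / 1000000 : ℝ)) (A6 := (78741 / 125000 : ℝ))
    (A9 := (183703 / 250000 : ℝ)) (A10 := (543081 / 1000000 : ℝ)) (s := (5311 / 100000 : ℝ)) (e := (1 / 10000000 : ℝ))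
    (pb := (4758057 / 5000000 : ℝ)) (qb := (16001813 / 5000000 : ℝ)) (by norm_num)
    (by norm_num) (by norm_num) (by norm_num) (by norm_num) (by norm_num) (by norm_num) (by norm_num)
    (by norm_num) (by norm_num)
    (by norm_num) (by norm_num) (by norm_num) (by norm_num) (by norm_num)
    rfl rfl rfl rfl rfl rfl (by norm_num) (by norm_num) (by norm_num) hp hpb hq hqb hpq

theorem rowL8_58 {p q : ℝ} (hp : 0 < p) (hpb : p ≤ (4802153 / 5000000 : ℝ)) (hq : 0 < q) (hqb : q ≤ (3160009 / 1000000 : ℝ))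
    (hpq : 1 < p * q) : NoSol 8 p q :=
  noSol_rect (n := 8) (by norm_num) (N := 8) (a := (425363 / 500000 : ℝ)) (b := (11978 / 15625 : ℝ))
    (τ := (633103 / 2500000 : ℝ)) (A5 := (124953 / 250000 : ℝ)) (A6 := (625133 / 1000000 : ℝ))
    (A9 := (739469 / 1000000 : ℝ)) (A10 := (3371 / 6250 : ℝ)) (s := (5293 / 100000 : ℝ)) (e := (1 / 10000000 : ℝ))
    (pb := (4802153 / 5000000 : ℝ)) (qb := (3160009 / 1000000 : ℝ)) (by norm_num)
    (by norm_num) (by norm_num) (by norm_num) (by norm_num) (by norm_num) (by norm_num) (by norm_num)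
    (by norm_num) (by norm_num)
    (by norm_num) (by norm_num) (by norm_num) (by norm_num) (by norm_num)
    rfl rfl rfl rfl rfl rfl (by norm_num) (by norm_num) (by norm_num) hp hpb hq hqb hpq

theorem rowL8_59 {p q : ℝ} (hp : 0 < p) (hpb : p ≤ (4846821 / 5000000 : ℝ)) (hq : 0 < q) (hqb : q ≤ (31204971 / 10000000 : ℝ))
    (hpq : 1 < p * q) : NoSol 8 p q :=
  noSol_rect (n := 8) (by norm_num) (N := 8) (a := (847407 / 1000000 : ℝ)) (b := (766111 / 1000000 : ℝ))
    (τ := (651551 / 2500000 : ℝ)) (A5 := (19881 / 40000 : ℝ)) (A6 := (628949 / 1000000 : ℝ))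
    (A9 := (737131 / 1000000 : ℝ)) (A10 := (537269 / 1000000 : ℝ)) (s := (1067 / 20000 : ℝ)) (e := (1 / 10000000 : ℝ))
    (pb := (4846821 / 5000000 : ℝ)) (qb := (31204971 / 10000000 : ℝ)) (by norm_num)
    (by norm_num) (by norm_num) (by norm_num) (by norm_num) (by norm_num) (by norm_num) (by norm_num)
    (by norm_num) (by norm_num)
    (by norm_num) (by norm_num) (by norm_num) (by norm_num) (by norm_num)
    rfl rfl rfl rfl rfl rfl (by norm_num) (by norm_num) (by norm_num) hp hpb hq hqb hpq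

theorem rowL8_60 {p q : ℝ} (hp : 0 < p) (hpb : p ≤ (4891867 / 5000000 : ℝ)) (hq : 0 < q) (hqb : q ≤ (7703953 / 2500000 : ℝ))
    (hpq : 1 < p * q) : NoSol 8 p q :=
  noSol_rect (n := 8) (by norm_num) (N := 8) (a := (427777 / 500000 : ℝ)) (b := (152861 / 200000 : ℝ))
    (τ := (2710329 / 10000000 : ℝ)) (A5 := (500233 / 1000000 : ℝ)) (A6 := (156233 / 250000 : ℝ))
    (A9 := (289 / 400 : ℝ)) (A10 := (548981 / 1000000 : ℝ)) (s := (1353 / 25000 : ℝ)) (e := (1 / 10000000 : ℝ))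
    (pb := (4891867 / 5000000 : ℝ)) (qb := (7703953 / 2500000 : ℝ)) (by norm_num)
    (by norm_num) (by norm_num) (by norm_num) (by norm_num) (by norm_num) (by norm_num) (by norm_num)
    (by norm_num) (by norm_num)
    (by norm_num) (by norm_num) (by norm_num) (by norm_num) (by norm_num)
    rfl rfl rfl rfl rfl rfl (by norm_num) (by norm_num) (by norm_num) hp hpb hq hqb hpq

theorem rowL8_61 {p q : ℝ} (hp : 0 < p) (hpb : p ≤ (9875599 / 10000000 : ℝ)) (hq : 0 < q) (hqb : q ≤ (30434193 / 10000000 : ℝ))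
    (hpq : 1 < p * q) : NoSol 8 p q :=
  noSol_rect (n := 8) (by norm_num) (N := 8) (a := (216061 / 250000 : ℝ)) (b := (190177 / 250000 : ℝ))
    (τ := (2778837 / 10000000 : ℝ)) (A5 := (497021 / 1000000 : ℝ)) (A6 := (157043 / 250000 : ℝ))
    (A9 := (11312 / 15625 : ℝ)) (A10 := (545027 / 1000000 : ℝ)) (s := (5449 / 100000 : ℝ)) (e := (1 / 10000000 : ℝ))
    (pb := (9875599 / 10000000 : ℝ)) (qb := (30434193 / 10000000 : ℝ)) (by norm_num)
    (by norm_num) (by norm_num) (by norm_num) (by norm_num) (by norm_num) (by norm_num) (by norm_num)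
    (by norm_num) (by norm_num)
    (by norm_num) (by norm_num) (by norm_num) (by norm_num) (by norm_num)
    rfl rfl rfl rfl rfl rfl (by norm_num) (by norm_num) (by norm_num) hp hpb hq hqb hpq

theorem rowL8_62 {p q : ℝ} (hp : 0 < p) (hpb : p ≤ (2492177 / 2500000 : ℝ)) (hq : 0 < q) (hqb : q ≤ (30055807 / 10000000 : ℝ))
    (hpq : 1 < p * q) : NoSol 8 p q :=
  noSol_rect (n := 8) (by norm_num) (N := 8) (a := (173663 / 200000 : ℝ)) (b := (761609 / 1000000 : ℝ))
    (τ := (569431 / 2000000 : ℝ)) (A5 := (495057 / 1000000 : ℝ)) (A6 := (19693 / 31250 : ℝ))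
    (A9 := (28993 / 40000 : ℝ)) (A10 := (135451 / 250000 : ℝ)) (s := (5461 / 100000 : ℝ)) (e := (1 / 10000000 : ℝ))
    (pb := (2492177 / 2500000 : ℝ)) (qb := (30055807 / 10000000 : ℝ)) (by norm_num)
    (by norm_num) (by norm_num) (by norm_num) (by norm_num) (by norm_num) (by norm_num) (by norm_num)
    (by norm_num) (by norm_num)
    (by norm_num) (by norm_num) (by norm_num) (by norm_num) (by norm_num)
    rfl rfl rfl rfl rfl rfl (by norm_num) (by norm_num) (by norm_num) hp hpb hq hqb hpq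

theorem rowL8_63 {p q : ℝ} (hp : 0 < p) (hpb : p ≤ (10062857 / 10000000 : ℝ)) (hq : 0 < q) (hqb : q ≤ (7420727 / 2500000 : ℝ))
    (hpq : 1 < p * q) : NoSol 8 p q :=
  noSol_rect (n := 8) (by norm_num) (N := 8) (a := (866271 / 1000000 : ℝ)) (b := (382857 / 500000 : ℝ))
    (τ := (363497 / 1250000 : ℝ)) (A5 := (497869 / 1000000 : ℝ)) (A6 := (626779 / 1000000 : ℝ))
    (A9 := (144743 / 200000 : ℝ)) (A10 := (541773 / 1000000 : ℝ)) (s := (2729 / 50000 : ℝ)) (e := (1 / 10000000 : ℝ))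
    (pb := (10062857 / 10000000 : ℝ)) (qb := (7420727 / 2500000 : ℝ)) (by norm_num)
    (by norm_num) (by norm_num) (by norm_num) (by norm_num) (by norm_num) (by norm_num) (by norm_num)
    (by norm_num) (by norm_num)
    (by norm_num) (by norm_num) (by norm_num) (by norm_num) (by norm_num)
    rfl rfl rfl rfl rfl rfl (by norm_num) (by norm_num) (by norm_num) hp hpb hq hqb hpq

theorem rowL8_64 {p q : ℝ} (hp : 0 < p) (hpb : p ≤ (10157697 / 10000000 : ℝ)) (hq : 0 < q) (hqb : q ≤ (29316261 / 10000000 : ℝ))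
    (hpq : 1 < p * q) : NoSol 8 p q :=
  noSol_rect (n := 8) (by norm_num) (N := 8) (a := (879831 / 1000000 : ℝ)) (b := (745141 / 1000000 : ℝ))
    (τ := (2995167 / 10000000 : ℝ)) (A5 := (494981 / 1000000 : ℝ)) (A6 := (316577 / 500000 : ℝ))
    (A9 := (719901 / 1000000 : ℝ)) (A10 := (269129 / 500000 : ℝ)) (s := (7 / 125 : ℝ)) (e := (1 / 10000000 : ℝ))
    (pb := (10157697 / 10000000 : ℝ)) (qb := (29316261 / 10000000 : ℝ)) (by norm_num)
    (by norm_num) (by norm_num) (by norm_num) (by norm_num) (by norm_num) (by norm_num) (by norm_num)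
    (by norm_num) (by norm_num)
    (by norm_num) (by norm_num) (by norm_num) (by norm_num) (by norm_num)
    rfl rfl rfl rfl rfl rfl (by norm_num) (by norm_num) (by norm_num) hp hpb hq hqb hpq

theorem rowL8_65 {p q : ℝ} (hp : 0 < p) (hpb : p ≤ (1281807 / 1250000 : ℝ)) (hq : 0 < q) (hqb : q ≤ (28957077 / 10000000 : ℝ))
    (hpq : 1 < p * q) : NoSol 8 p q :=
  noSol_rect (n := 8) (by norm_num) (N := 8) (a := (879309 / 1000000 : ℝ)) (b := (93957 / 125000 : ℝ))
    (τ := (770689 / 2500000 : ℝ)) (A5 := (99179 / 200000 : ℝ)) (A6 := (126257 / 200000 : ℝ))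
    (A9 := (357669 / 500000 : ℝ)) (A10 := (541617 / 1000000 : ℝ)) (s := (5611 / 100000 : ℝ)) (e := (1 / 10000000 : ℝ))
    (pb := (1281807 / 1250000 : ℝ)) (qb := (28957077 / 10000000 : ℝ)) (by norm_num)
    (by norm_num) (by norm_num) (by norm_num) (by norm_num) (by norm_num) (by norm_num) (by norm_num)
    (by norm_num) (by norm_num)
    (by norm_num) (by norm_num) (by norm_num) (by norm_num) (by norm_num)
    rfl rfl rfl rfl rfl rfl (by norm_num) (by norm_num) (by norm_num) hp hpb hq hqb hpq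

theorem rowL8_66 {p q : ℝ} (hp : 0 < p) (hpb : p ≤ (10352551 / 10000000 : ℝ)) (hq : 0 < q) (hqb : q ≤ (28600699 / 10000000 : ℝ))
    (hpq : 1 < p * q) : NoSol 8 p q :=
  noSol_rect (n := 8) (by norm_num) (N := 8) (a := (882653 / 1000000 : ℝ)) (b := (151079 / 200000 : ℝ))
    (τ := (3136221 / 10000000 : ℝ)) (A5 := (99871 / 200000 : ℝ)) (A6 := (313287 / 500000 : ℝ))
    (A9 := (179207 / 250000 : ℝ)) (A10 := (4323 / 8000 : ℝ)) (s := (5593 / 100000 : ℝ)) (e := (1 / 10000000 : ℝ))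
    (pb := (10352551 / 10000000 : ℝ)) (qb := (28600699 / 10000000 : ℝ)) (by norm_num)
    (by norm_num) (by norm_num) (by norm_num) (by norm_num) (by norm_num) (by norm_num) (by norm_num)
    (by norm_num) (by norm_num)
    (by norm_num) (by norm_num) (by norm_num) (by norm_num) (by norm_num)
    rfl rfl rfl rfl rfl rfl (by norm_num) (by norm_num) (by norm_num) hp hpb hq hqb hpq

theorem rowL8_67 {p q : ℝ} (hp : 0 < p) (hpb : p ≤ (1306511 / 1250000 : ℝ)) (hq : 0 < q) (hqb : q ≤ (353117 / 125000 : ℝ))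
    (hpq : 1 < p * q) : NoSol 8 p q :=
  noSol_rect (n := 8) (by norm_num) (N := 8) (a := (881873 / 1000000 : ℝ)) (b := (75631 / 100000 : ℝ))
    (τ := (1610649 / 5000000 : ℝ)) (A5 := (248913 / 500000 : ℝ)) (A6 := (157143 / 250000 : ℝ))
    (A9 := (357733 / 500000 : ℝ)) (A10 := (107777 / 200000 : ℝ)) (s := (5623 / 100000 : ℝ)) (e := (1 / 10000000 : ℝ))
    (pb := (1306511 / 1250000 : ℝ)) (qb := (353117 / 125000 : ℝ)) (by norm_num)
    (by norm_num) (by norm_num) (by norm_num) (by norm_num) (by norm_num) (by norm_num) (by norm_num)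
    (by norm_num) (by norm_num)
    (by norm_num) (by norm_num) (by norm_num) (by norm_num) (by norm_num)
    rfl rfl rfl rfl rfl rfl (by norm_num) (by norm_num) (by norm_num) hp hpb hq hqb hpq

theorem rowL8_68 {p q : ℝ} (hp : 0 < p) (hpb : p ≤ (10552437 / 10000000 : ℝ)) (hq : 0 < q) (hqb : q ≤ (5580537 / 2000000 : ℝ))
    (hpq : 1 < p * q) : NoSol 8 p q :=
  noSol_rect (n := 8) (by norm_num) (N := 8) (a := (175947 / 200000 : ℝ)) (b := (376923 / 500000 : ℝ))
    (τ := (823349 / 2500000 : ℝ)) (A5 := (502733 / 1000000 : ℝ)) (A6 := (624967 / 1000000 : ℝ))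
    (A9 := (355401 / 500000 : ℝ)) (A10 := (135029 / 250000 : ℝ)) (s := (5673 / 100000 : ℝ)) (e := (1 / 10000000 : ℝ))
    (pb := (10552437 / 10000000 : ℝ)) (qb := (5580537 / 2000000 : ℝ)) (by norm_num)
    (by norm_num) (by norm_num) (by norm_num) (by norm_num) (by norm_num) (by norm_num) (by norm_num)
    (by norm_num) (by norm_num)
    (by norm_num) (by norm_num) (by norm_num) (by norm_num) (by norm_num)
    rfl rfl rfl rfl rfl rfl (by norm_num) (by norm_num) (by norm_num) hp hpb hq hqb hpq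

theorem rowL8_69 {p q : ℝ} (hp : 0 < p) (hpb : p ≤ (532713 / 500000 : ℝ)) (hq : 0 < q) (hqb : q ≤ (13781397 / 5000000 : ℝ))
    (hpq : 1 < p * q) : NoSol 8 p q :=
  noSol_rect (n := 8) (by norm_num) (N := 8) (a := (442427 / 500000 : ℝ)) (b := (377603 / 500000 : ℝ))
    (τ := (1723191 / 5000000 : ℝ)) (A5 := (61383 / 125000 : ℝ)) (A6 := (636859 / 1000000 : ℝ))
    (A9 := (141239 / 200000 : ℝ)) (A10 := (540731 / 1000000 : ℝ)) (s := (5741 / 100000 : ℝ)) (e := (1 / 10000000 : ℝ))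
    (pb := (532713 / 500000 : ℝ)) (qb := (13781397 / 5000000 : ℝ)) (by norm_num)
    (by norm_num) (by norm_num) (by norm_num) (by norm_num) (by norm_num) (by norm_num) (by norm_num)
    (by norm_num) (by norm_num)
    (by norm_num) (by norm_num) (by norm_num) (by norm_num) (by norm_num)
    rfl rfl rfl rfl rfl rfl (by norm_num) (by norm_num) (by norm_num) hp hpb hq hqb hpq

theorem rowL8_70 {p q : ℝ} (hp : 0 < p) (hpb : p ≤ (5378967 / 5000000 : ℝ)) (hq : 0 < q) (hqb : q ≤ (27227371 / 10000000 : ℝ))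
    (hpq : 1 < p * q) : NoSol 8 p q :=
  noSol_rect (n := 8) (by norm_num) (N := 8) (a := (887839 / 1000000 : ℝ)) (b := (755413 / 1000000 : ℝ))
    (τ := (3522781 / 10000000 : ℝ)) (A5 := (493141 / 1000000 : ℝ)) (A6 := (63441 / 100000 : ℝ))
    (A9 := (352657 / 500000 : ℝ)) (A10 := (135121 / 250000 : ℝ)) (s := (36 / 625 : ℝ)) (e := (1 / 10000000 : ℝ))
    (pb := (5378967 / 5000000 : ℝ)) (qb := (27227371 / 10000000 : ℝ)) (by norm_num)
    (by norm_num) (by norm_num) (by norm_num) (by norm_num) (by norm_num) (by norm_num) (by norm_num)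
    (by norm_num) (by norm_num)
    (by norm_num) (by norm_num) (by norm_num) (by norm_num) (by norm_num)
    rfl rfl rfl rfl rfl rfl (by norm_num) (by norm_num) (by norm_num) hp hpb hq hqb hpq

theorem rowL8_71 {p q : ℝ} (hp : 0 < p) (hpb : p ≤ (10862671 / 10000000 : ℝ)) (hq : 0 < q) (hqb : q ≤ (672381 / 250000 : ℝ))
    (hpq : 1 < p * q) : NoSol 8 p q :=
  noSol_rect (n := 8) (by norm_num) (N := 8) (a := (5581 / 6250 : ℝ)) (b := (762209 / 1000000 : ℝ))
    (τ := (889643 / 2500000 : ℝ)) (A5 := (248167 / 500000 : ℝ)) (A6 := (78639 / 125000 : ℝ))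
    (A9 := (356223 / 500000 : ℝ)) (A10 := (107057 / 200000 : ℝ)) (s := (5697 / 100000 : ℝ)) (e := (1 / 10000000 : ℝ))
    (pb := (10862671 / 10000000 : ℝ)) (qb := (672381 / 250000 : ℝ)) (by norm_num)
    (by norm_num) (by norm_num) (by norm_num) (by norm_num) (by norm_num) (by norm_num) (by norm_num)
    (by norm_num) (by norm_num)
    (by norm_num) (by norm_num) (by norm_num) (by norm_num) (by norm_num)
    rfl rfl rfl rfl rfl rfl (by norm_num) (by norm_num) (by norm_num) hp hpb hq hqb hpq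

theorem rowL8_72 {p q : ℝ} (hp : 0 < p) (hpb : p ≤ (2742347 / 2500000 : ℝ)) (hq : 0 < q) (hqb : q ≤ (26568931 / 10000000 : ℝ))
    (hpq : 1 < p * q) : NoSol 8 p q :=
  noSol_rect (n := 8) (by norm_num) (N := 8) (a := (55931 / 62500 : ℝ)) (b := (379781 / 500000 : ℝ))
    (τ := (916041 / 2500000 : ℝ)) (A5 := (497013 / 1000000 : ℝ)) (A6 := (629997 / 1000000 : ℝ))
    (A9 := (11046 / 15625 : ℝ)) (A10 := (536727 / 1000000 : ℝ)) (s := (5767 / 100000 : ℝ)) (e := (1 / 10000000 : ℝ))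
    (pb := (2742347 / 2500000 : ℝ)) (qb := (26568931 / 10000000 : ℝ)) (by norm_num)
    (by norm_num) (by norm_num) (by norm_num) (by norm_num) (by norm_num) (by norm_num) (by norm_num)
    (by norm_num) (by norm_num)
    (by norm_num) (by norm_num) (by norm_num) (by norm_num) (by norm_num)
    rfl rfl rfl rfl rfl rfl (by norm_num) (by norm_num) (by norm_num) hp hpb hq hqb hpq

theorem rowL8_73 {p q : ℝ} (hp : 0 < p) (hpb : p ≤ (11077721 / 10000000 : ℝ)) (hq : 0 < q) (hqb : q ≤ (13122801 / 5000000 : ℝ))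
    (hpq : 1 < p * q) : NoSol 8 p q :=
  noSol_rect (n := 8) (by norm_num) (N := 8) (a := (178193 / 200000 : ℝ)) (b := (47369 / 62500 : ℝ))
    (τ := (937 / 2500 : ℝ)) (A5 := (6221 / 12500 : ℝ)) (A6 := (39383 / 62500 : ℝ))
    (A9 := (706553 / 1000000 : ℝ)) (A10 := (534579 / 1000000 : ℝ)) (s := (5803 / 100000 : ℝ)) (e := (1 / 10000000 : ℝ))
    (pb := (11077721 / 10000000 : ℝ)) (qb := (13122801 / 5000000 : ℝ)) (by norm_num)
    (by norm_num) (by norm_num) (by norm_num) (by norm_num) (by norm_num) (by norm_num) (by norm_num)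
    (by norm_num) (by norm_num)
    (by norm_num) (by norm_num) (by norm_num) (by norm_num) (by norm_num)
    rfl rfl rfl rfl rfl rfl (by norm_num) (by norm_num) (by norm_num) hp hpb hq hqb hpq

theorem rowL8_74 {p q : ℝ} (hp : 0 < p) (hpb : p ≤ (2796931 / 2500000 : ℝ)) (hq : 0 < q) (hqb : q ≤ (25926433 / 10000000 : ℝ))
    (hpq : 1 < p * q) : NoSol 8 p q :=
  noSol_rect (n := 8) (by norm_num) (N := 8) (a := (444301 / 500000 : ℝ)) (b := (379267 / 500000 : ℝ))
    (τ := (1927967 / 5000000 : ℝ)) (A5 := (497181 / 1000000 : ℝ)) (A6 := (315831 / 500000 : ℝ))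
    (A9 := (703207 / 1000000 : ℝ)) (A10 := (106941 / 200000 : ℝ)) (s := (1463 / 25000 : ℝ)) (e := (1 / 10000000 : ℝ))
    (pb := (2796931 / 2500000 : ℝ)) (qb := (25926433 / 10000000 : ℝ)) (by norm_num)
    (by norm_num) (by norm_num) (by norm_num) (by norm_num) (by norm_num) (by norm_num) (by norm_num)
    (by norm_num) (by norm_num)
    (by norm_num) (by norm_num) (by norm_num) (by norm_num) (by norm_num)
    rfl rfl rfl rfl rfl rfl (by norm_num) (by norm_num) (by norm_num) hp hpb hq hqb hpq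

theorem rowL8_75 {p q : ℝ} (hp : 0 < p) (hpb : p ≤ (11299339 / 10000000 : ℝ)) (hq : 0 < q) (hqb : q ≤ (800353 / 312500 : ℝ))
    (hpq : 1 < p * q) : NoSol 8 p q :=
  noSol_rect (n := 8) (by norm_num) (N := 8) (a := (45069 / 50000 : ℝ)) (b := (752183 / 1000000 : ℝ))
    (τ := (3975667 / 10000000 : ℝ)) (A5 := (61931 / 125000 : ℝ)) (A6 := (63407 / 100000 : ℝ))
    (A9 := (699779 / 1000000 : ℝ)) (A10 := (535281 / 1000000 : ℝ)) (s := (1481 / 25000 : ℝ)) (e := (1 / 10000000 : ℝ))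
    (pb := (11299339 / 10000000 : ℝ)) (qb := (800353 / 312500 : ℝ)) (by norm_num)
    (by norm_num) (by norm_num) (by norm_num) (by norm_num) (by norm_num) (by norm_num) (by norm_num)
    (by norm_num) (by norm_num)
    (by norm_num) (by norm_num) (by norm_num) (by norm_num) (by norm_num)
    rfl rfl rfl rfl rfl rfl (by norm_num) (by norm_num) (by norm_num) hp hpb hq hqb hpq

theorem rowL8_76 {p q : ℝ} (hp : 0 < p) (hpb : p ≤ (456507 / 400000 : ℝ)) (hq : 0 < q) (hqb : q ≤ (25300383 / 10000000 : ℝ))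
    (hpq : 1 < p * q) : NoSol 8 p q :=
  noSol_rect (n := 8) (by norm_num) (N := 8) (a := (449387 / 500000 : ℝ)) (b := (377077 / 500000 : ℝ))
    (τ := (4080343 / 10000000 : ℝ)) (A5 := (495403 / 1000000 : ℝ)) (A6 := (634237 / 1000000 : ℝ))
    (A9 := (21819 / 31250 : ℝ)) (A10 := (535067 / 1000000 : ℝ)) (s := (5951 / 100000 : ℝ)) (e := (1 / 10000000 : ℝ))
    (pb := (456507 / 400000 : ℝ)) (qb := (25300383 / 10000000 : ℝ)) (by norm_num)
    (by norm_num) (by norm_num) (by norm_num) (by norm_num) (by norm_num) (by norm_num) (by norm_num)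
    (by norm_num) (by norm_num)
    (by norm_num) (by norm_num) (by norm_num) (by norm_num) (by norm_num)
    rfl rfl rfl rfl rfl rfl (by norm_num) (by norm_num) (by norm_num) hp hpb hq hqb hpq

theorem rowL8_77 {p q : ℝ} (hp : 0 < p) (hpb : p ≤ (360241 / 312500 : ℝ)) (hq : 0 < q) (hqb : q ≤ (24993413 / 10000000 : ℝ))
    (hpq : 1 < p * q) : NoSol 8 p q :=
  noSol_rect (n := 8) (by norm_num) (N := 8) (a := (452327 / 500000 : ℝ)) (b := (74677 / 100000 : ℝ))
    (τ := (168061 / 400000 : ℝ)) (A5 := (19889 / 40000 : ℝ)) (A6 := (19789 / 31250 : ℝ))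
    (A9 := (27691 / 40000 : ℝ)) (A10 := (53817 / 100000 : ℝ)) (s := (3017 / 50000 : ℝ)) (e := (1 / 10000000 : ℝ))
    (pb := (360241 / 312500 : ℝ)) (qb := (24993413 / 10000000 : ℝ)) (by norm_num)
    (by norm_num) (by norm_num) (by norm_num) (by norm_num) (by norm_num) (by norm_num) (by norm_num)
    (by norm_num) (by norm_num)
    (by norm_num) (by norm_num) (by norm_num) (by norm_num) (by norm_num)
    rfl rfl rfl rfl rfl rfl (by norm_num) (by norm_num) (by norm_num) hp hpb hq hqb hpq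

theorem rowL8_78 {p q : ℝ} (hp : 0 < p) (hpb : p ≤ (363891 / 312500 : ℝ)) (hq : 0 < q) (hqb : q ≤ (24690467 / 10000000 : ℝ))
    (hpq : 1 < p * q) : NoSol 8 p q :=
  noSol_rect (n := 8) (by norm_num) (N := 8) (a := (449943 / 500000 : ℝ)) (b := (753903 / 1000000 : ℝ))
    (τ := (4246137 / 10000000 : ℝ)) (A5 := (100553 / 200000 : ℝ)) (A6 := (125513 / 200000 : ℝ))
    (A9 := (10877 / 15625 : ℝ)) (A10 := (533939 / 1000000 : ℝ)) (s := (1501 / 25000 : ℝ)) (e := (1 / 10000000 : ℝ))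
    (pb := (363891 / 312500 : ℝ)) (qb := (24690467 / 10000000 : ℝ)) (by norm_num)
    (by norm_num) (by norm_num) (by norm_num) (by norm_num) (by norm_num) (by norm_num) (by norm_num)
    (by norm_num) (by norm_num)
    (by norm_num) (by norm_num) (by norm_num) (by norm_num) (by norm_num)
    rfl rfl rfl rfl rfl rfl (by norm_num) (by norm_num) (by norm_num) hp hpb hq hqb hpq

theorem rowL8_79 {p q : ℝ} (hp : 0 < p) (hpb : p ≤ (1470371 / 1250000 : ℝ)) (hq : 0 < q) (hqb : q ≤ (1524463 / 625000 : ℝ))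
    (hpq : 1 < p * q) : NoSol 8 p q :=
  noSol_rect (n := 8) (by norm_num) (N := 8) (a := (450837 / 500000 : ℝ)) (b := (30083 / 40000 : ℝ))
    (τ := (43481 / 100000 : ℝ)) (A5 := (504147 / 1000000 : ℝ)) (A6 := (627029 / 1000000 : ℝ))
    (A9 := (138911 / 200000 : ℝ)) (A10 := (533119 / 1000000 : ℝ)) (s := (189 / 3125 : ℝ)) (e := (1 / 10000000 : ℝ))
    (pb := (1470371 / 1250000 : ℝ)) (qb := (1524463 / 625000 : ℝ)) (by norm_num)
    (by norm_num) (by norm_num) (by norm_num) (by norm_num) (by norm_num) (by norm_num) (by norm_num)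
    (by norm_num) (by norm_num)
    (by norm_num) (by norm_num) (by norm_num) (by norm_num) (by norm_num)
    rfl rfl rfl rfl rfl rfl (by norm_num) (by norm_num) (by norm_num) hp hpb hq hqb hpq

end Vale.Agent.Lib.P100
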