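import Vale.Agent.Lib.P100.Cover

/-!
Rational certificates, dimension 8.
-/

namespace Vale.Agent.Lib.P100

theorem rowL8_80 {p q : ℝ} (hp : 0 < p) (hpb : p ≤ (1485401 / 1250000 : ℝ)) (hq : 0 < q) (hqb : q ≤ (6024131 / 2500000 : ℝ))
    (hpq : 1 < p * q) : NoSol 8 p q :=
  noSol_rect (n := 8) (by norm_num) (N := 8) (a := (90103 / 100000 : ℝ)) (b := (762973 / 1000000 : ℝ))
    (τ := (4506501 / 10000000 : ℝ)) (A5 := (503761 / 1000000 : ℝ)) (A6 := (9797 / 15625 : ℝ))
    (A9 := (137387 / 200000 : ℝ)) (A10 := (539171 / 1000000 : ℝ)) (s := (1217 / 20000 : ℝ)) (e := (1 / 10000000 : ℝ))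
    (pb := (1485401 / 1250000 : ℝ)) (qb := (6024131 / 2500000 : ℝ)) (by norm_num)
    (by norm_num) (by norm_num) (by norm_num) (by norm_num) (by norm_num) (by norm_num) (by norm_num)
    (by norm_num) (by norm_num)
    (by norm_num) (by norm_num) (by norm_num) (by norm_num) (by norm_num)
    rfl rfl rfl rfl rfl rfl (by norm_num) (by norm_num) (by norm_num) hp hpb hq hqb hpq

theorem rowL8_81 {p q : ℝ} (hp : 0 < p) (hpb : p ≤ (12005561 / 10000000 : ℝ)) (hq : 0 < q) (hqb : q ≤ (23805507 / 10000000 : ℝ))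
    (hpq : 1 < p * q) : NoSol 8 p q :=
  noSol_rect (n := 8) (by norm_num) (N := 8) (a := (448387 / 500000 : ℝ)) (b := (764293 / 1000000 : ℝ))
    (τ := (4616501 / 10000000 : ℝ)) (A5 := (504361 / 1000000 : ℝ)) (A6 := (627103 / 1000000 : ℝ))
    (A9 := (85759 / 125000 : ℝ)) (A10 := (537943 / 1000000 : ℝ)) (s := (3061 / 50000 : ℝ)) (e := (1 / 10000000 : ℝ))
    (pb := (12005561 / 10000000 : ℝ)) (qb := (23805507 / 10000000 : ℝ)) (by norm_num)
    (by norm_num) (by norm_num) (by norm_num) (by norm_num) (by norm_num) (by norm_num) (by norm_num)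
    (by norm_num) (by norm_num)
    (by norm_num) (by norm_num) (by norm_num) (by norm_num) (by norm_num)
    rfl rfl rfl rfl rfl rfl (by norm_num) (by norm_num) (by norm_num) hp hpb hq hqb hpq

theorem rowL8_82 {p q : ℝ} (hp : 0 < p) (hpb : p ≤ (12129897 / 10000000 : ℝ)) (hq : 0 < q) (hqb : q ≤ (11758807 / 5000000 : ℝ))
    (hpq : 1 < p * q) : NoSol 8 p q :=
  noSol_rect (n := 8) (by norm_num) (N := 8) (a := (885761 / 1000000 : ℝ)) (b := (776291 / 1000000 : ℝ))
    (τ := (4782247 / 10000000 : ℝ)) (A5 := (2503 / 5000 : ℝ)) (A6 := (316261 / 500000 : ℝ))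
    (A9 := (21299 / 31250 : ℝ)) (A10 := (538659 / 1000000 : ℝ)) (s := (3081 / 50000 : ℝ)) (e := (1 / 10000000 : ℝ))
    (pb := (12129897 / 10000000 : ℝ)) (qb := (11758807 / 5000000 : ℝ)) (by norm_num)
    (by norm_num) (by norm_num) (by norm_num) (by norm_num) (by norm_num) (by norm_num) (by norm_num)
    (by norm_num) (by norm_num)
    (by norm_num) (by norm_num) (by norm_num) (by norm_num) (by norm_num)
    rfl rfl rfl rfl rfl rfl (by norm_num) (by norm_num) (by norm_num) hp hpb hq hqb hpq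

theorem rowL8_83 {p q : ℝ} (hp : 0 < p) (hpb : p ≤ (12256129 / 10000000 : ℝ)) (hq : 0 < q) (hqb : q ≤ (23233213 / 10000000 : ℝ))
    (hpq : 1 < p * q) : NoSol 8 p q :=
  noSol_rect (n := 8) (by norm_num) (N := 8) (a := (177239 / 200000 : ℝ)) (b := (774301 / 1000000 : ℝ))
    (τ := (304769 / 625000 : ℝ)) (A5 := (252519 / 500000 : ℝ)) (A6 := (628201 / 1000000 : ℝ))
    (A9 := (85057 / 125000 : ℝ)) (A10 := (107741 / 200000 : ℝ)) (s := (1551 / 25000 : ℝ)) (e := (1 / 10000000 : ℝ))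
    (pb := (12256129 / 10000000 : ℝ)) (qb := (23233213 / 10000000 : ℝ)) (by norm_num)
    (by norm_num) (by norm_num) (by norm_num) (by norm_num) (by norm_num) (by norm_num) (by norm_num)
    (by norm_num) (by norm_num)
    (by norm_num) (by norm_num) (by norm_num) (by norm_num) (by norm_num)
    rfl rfl rfl rfl rfl rfl (by norm_num) (by norm_num) (by norm_num) hp hpb hq hqb hpq

theorem rowL8_84 {p q : ℝ} (hp : 0 < p) (hpb : p ≤ (12384713 / 10000000 : ℝ)) (hq : 0 < q) (hqb : q ≤ (1147627 / 500000 : ℝ))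
    (hpq : 1 < p * q) : NoSol 8 p q :=
  noSol_rect (n := 8) (by norm_num) (N := 8) (a := (886289 / 1000000 : ℝ)) (b := (96927 / 125000 : ℝ))
    (τ := (4988729 / 10000000 : ℝ)) (A5 := (504263 / 1000000 : ℝ)) (A6 := (629279 / 1000000 : ℝ))
    (A9 := (682223 / 1000000 : ℝ)) (A10 := (66939 / 125000 : ℝ)) (s := (1557 / 25000 : ℝ)) (e := (1 / 10000000 : ℝ))
    (pb := (12384713 / 10000000 : ℝ)) (qb := (1147627 / 500000 : ℝ)) (by norm_num)
    (by norm_num) (by norm_num) (by norm_num) (by norm_num) (by norm_num) (by norm_num) (by norm_num)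
    (by norm_num) (by norm_num)
    (by norm_num) (by norm_num) (by norm_num) (by norm_num) (by norm_num)
    rfl rfl rfl rfl rfl rfl (by norm_num) (by norm_num) (by norm_num) hp hpb hq hqb hpq

theorem rowL8_85 {p q : ℝ} (hp : 0 < p) (hpb : p ≤ (6257723 / 5000000 : ℝ)) (hq : 0 < q) (hqb : q ≤ (11337321 / 5000000 : ℝ))
    (hpq : 1 < p * q) : NoSol 8 p q :=
  noSol_rect (n := 8) (by norm_num) (N := 8) (a := (178079 / 200000 : ℝ)) (b := (96673 / 125000 : ℝ))
    (τ := (2572071 / 5000000 : ℝ)) (A5 := (251471 / 500000 : ℝ)) (A6 := (315899 / 500000 : ℝ))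
    (A9 := (678921 / 1000000 : ℝ)) (A10 := (536023 / 1000000 : ℝ)) (s := (3149 / 50000 : ℝ)) (e := (1 / 10000000 : ℝ))
    (pb := (6257723 / 5000000 : ℝ)) (qb := (11337321 / 5000000 : ℝ)) (by norm_num)
    (by norm_num) (by norm_num) (by norm_num) (by norm_num) (by norm_num) (by norm_num) (by norm_num)
    (by norm_num) (by norm_num)
    (by norm_num) (by norm_num) (by norm_num) (by norm_num) (by norm_num)
    rfl rfl rfl rfl rfl rfl (by norm_num) (by norm_num) (by norm_num) hp hpb hq hqb hpq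

theorem rowL8_86 {p q : ℝ} (hp : 0 < p) (hpb : p ≤ (12647099 / 10000000 : ℝ)) (hq : 0 < q) (hqb : q ≤ (5600009 / 2500000 : ℝ))
    (hpq : 1 < p * q) : NoSol 8 p q :=
  noSol_rect (n := 8) (by norm_num) (N := 8) (a := (460083 / 500000 : ℝ)) (b := (74753 / 100000 : ℝ))
    (τ := (662473 / 1250000 : ℝ)) (A5 := (1237 / 2500 : ℝ)) (A6 := (320723 / 500000 : ℝ))
    (A9 := (682909 / 1000000 : ℝ)) (A10 := (529033 / 1000000 : ℝ)) (s := (1277 / 20000 : ℝ)) (e := (1 / 10000000 : ℝ))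
    (pb := (12647099 / 10000000 : ℝ)) (qb := (5600009 / 2500000 : ℝ)) (by norm_num)
    (by norm_num) (by norm_num) (by norm_num) (by norm_num) (by norm_num) (by norm_num) (by norm_num)
    (by norm_num) (by norm_num)
    (by norm_num) (by norm_num) (by norm_num) (by norm_num) (by norm_num)
    rfl rfl rfl rfl rfl rfl (by norm_num) (by norm_num) (by norm_num) hp hpb hq hqb hpq

theorem rowL8_87 {p q : ℝ} (hp : 0 < p) (hpb : p ≤ (1597759 / 1250000 : ℝ)) (hq : 0 < q) (hqb : q ≤ (22131247 / 10000000 : ℝ))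
    (hpq : 1 < p * q) : NoSol 8 p q :=
  noSol_rect (n := 8) (by norm_num) (N := 8) (a := (465357 / 500000 : ℝ)) (b := (184679 / 250000 : ℝ))
    (τ := (5407819 / 10000000 : ℝ)) (A5 := (63197 / 125000 : ℝ)) (A6 := (158139 / 250000 : ℝ))
    (A9 := (168643 / 250000 : ℝ)) (A10 := (534367 / 1000000 : ℝ)) (s := (3247 / 50000 : ℝ)) (e := (1 / 10000000 : ℝ))
    (pb := (1597759 / 1250000 : ℝ)) (qb := (22131247 / 10000000 : ℝ)) (by norm_num)
    (by norm_num) (by norm_num) (by norm_num) (by norm_num) (by norm_num) (by norm_num) (by norm_num)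
    (by norm_num) (by norm_num)
    (by norm_num) (by norm_num) (by norm_num) (by norm_num) (by norm_num)
    rfl rfl rfl rfl rfl rfl (by norm_num) (by norm_num) (by norm_num) hp hpb hq hqb hpq

theorem rowL8_88 {p q : ℝ} (hp : 0 < p) (hpb : p ≤ (6459501 / 5000000 : ℝ)) (hq : 0 < q) (hqb : q ≤ (2732927 / 1250000 : ℝ))
    (hpq : 1 < p * q) : NoSol 8 p q :=
  noSol_rect (n := 8) (by norm_num) (N := 8) (a := (2871 / 3125 : ℝ)) (b := (742631 / 1000000 : ℝ))
    (τ := (2780469 / 5000000 : ℝ)) (A5 := (100937 / 200000 : ℝ)) (A6 := (633961 / 1000000 : ℝ))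
    (A9 := (67317 / 100000 : ℝ)) (A10 := (267027 / 500000 : ℝ)) (s := (3267 / 50000 : ℝ)) (e := (1 / 10000000 : ℝ))
    (pb := (6459501 / 5000000 : ℝ)) (qb := (2732927 / 1250000 : ℝ)) (by norm_num)
    (by norm_num) (by norm_num) (by norm_num) (by norm_num) (by norm_num) (by norm_num) (by norm_num)
    (by norm_num) (by norm_num)
    (by norm_num) (by norm_num) (by norm_num) (by norm_num) (by norm_num)
    rfl rfl rfl rfl rfl rfl (by norm_num) (by norm_num) (by norm_num) hp hpb hq hqb hpq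

theorem rowL8_89 {p q : ℝ} (hp : 0 < p) (hpb : p ≤ (1632257 / 1250000 : ℝ)) (hq : 0 < q) (hqb : q ≤ (2159937 / 1000000 : ℝ))
    (hpq : 1 < p * q) : NoSol 8 p q :=
  noSol_rect (n := 8) (by norm_num) (N := 8) (a := (922683 / 1000000 : ℝ)) (b := (369941 / 500000 : ℝ))
    (τ := (2831369 / 5000000 : ℝ)) (A5 := (50441 / 100000 : ℝ)) (A6 := (317741 / 500000 : ℝ))
    (A9 := (677569 / 1000000 : ℝ)) (A10 := (527581 / 1000000 : ℝ)) (s := (1311 / 20000 : ℝ)) (e := (1 / 10000000 : ℝ))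
    (pb := (1632257 / 1250000 : ℝ)) (qb := (2159937 / 1000000 : ℝ)) (by norm_num)
    (by norm_num) (by norm_num) (by norm_num) (by norm_num) (by norm_num) (by norm_num) (by norm_num)
    (by norm_num) (by norm_num)
    (by norm_num) (by norm_num) (by norm_num) (by norm_num) (by norm_num)
    rfl rfl rfl rfl rfl rfl (by norm_num) (by norm_num) (by norm_num) hp hpb hq hqb hpq

theorem rowL8_90 {p q : ℝ} (hp : 0 < p) (hpb : p ≤ (13199907 / 10000000 : ℝ)) (hq : 0 < q) (hqb : q ≤ (21338799 / 10000000 : ℝ))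
    (hpq : 1 < p * q) : NoSol 8 p q :=
  noSol_rect (n := 8) (by norm_num) (N := 8) (a := (919771 / 1000000 : ℝ)) (b := (373869 / 500000 : ℝ))
    (τ := (5844893 / 10000000 : ℝ)) (A5 := (6309 / 12500 : ℝ)) (A6 := (317777 / 500000 : ℝ))
    (A9 := (134537 / 200000 : ℝ)) (A10 := (265459 / 500000 : ℝ)) (s := (413 / 6250 : ℝ)) (e := (1 / 10000000 : ℝ))
    (pb := (13199907 / 10000000 : ℝ)) (qb := (21338799 / 10000000 : ℝ)) (by norm_num)
    (by norm_num) (by norm_num) (by norm_num) (by norm_num) (by norm_num) (by norm_num) (by norm_num)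
    (by norm_num) (by norm_num)
    (by norm_num) (by norm_num) (by norm_num) (by norm_num) (by norm_num)
    rfl rfl rfl rfl rfl rfl (by norm_num) (by norm_num) (by norm_num) hp hpb hq hqb hpq

theorem rowL8_91 {p q : ℝ} (hp : 0 < p) (hpb : p ≤ (13343283 / 10000000 : ℝ)) (hq : 0 < q) (hqb : q ≤ (21080517 / 10000000 : ℝ))
    (hpq : 1 < p * q) : NoSol 8 p q :=
  noSol_rect (n := 8) (by norm_num) (N := 8) (a := (932797 / 1000000 : ℝ)) (b := (731703 / 1000000 : ℝ))
    (τ := (5989371 / 10000000 : ℝ)) (A5 := (510181 / 1000000 : ℝ)) (A6 := (315777 / 500000 : ℝ))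
    (A9 := (333607 / 500000 : ℝ)) (A10 := (533889 / 1000000 : ℝ)) (s := (6707 / 100000 : ℝ)) (e := (1 / 10000000 : ℝ))
    (pb := (13343283 / 10000000 : ℝ)) (qb := (21080517 / 10000000 : ℝ)) (by norm_num)
    (by norm_num) (by norm_num) (by norm_num) (by norm_num) (by norm_num) (by norm_num) (by norm_num)
    (by norm_num) (by norm_num)
    (by norm_num) (by norm_num) (by norm_num) (by norm_num) (by norm_num)
    rfl rfl rfl rfl rfl rfl (by norm_num) (by norm_num) (by norm_num) hp hpb hq hqb hpq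

theorem rowL8_92 {p q : ℝ} (hp : 0 < p) (hpb : p ≤ (3372387 / 2500000 : ℝ)) (hq : 0 < q) (hqb : q ≤ (20826861 / 10000000 : ℝ))
    (hpq : 1 < p * q) : NoSol 8 p q :=
  noSol_rect (n := 8) (by norm_num) (N := 8) (a := (93907 / 100000 : ℝ)) (b := (11439 / 15625 : ℝ))
    (τ := (3092869 / 5000000 : ℝ)) (A5 := (7847 / 15625 : ℝ)) (A6 := (16009 / 25000 : ℝ))
    (A9 := (335069 / 500000 : ℝ)) (A10 := (10581 / 20000 : ℝ)) (s := (421 / 6250 : ℝ)) (e := (1 / 10000000 : ℝ))
    (pb := (3372387 / 2500000 : ℝ)) (qb := (20826861 / 10000000 : ℝ)) (by norm_num)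
    (by norm_num) (by norm_num) (by norm_num) (by norm_num) (by norm_num) (by norm_num) (by norm_num)
    (by norm_num) (by norm_num)
    (by norm_num) (by norm_num) (by norm_num) (by norm_num) (by norm_num)
    rfl rfl rfl rfl rfl rfl (by norm_num) (by norm_num) (by norm_num) hp hpb hq hqb hpq

theorem rowL8_93 {p q : ℝ} (hp : 0 < p) (hpb : p ≤ (6818883 / 5000000 : ℝ)) (hq : 0 < q) (hqb : q ≤ (20575437 / 10000000 : ℝ))
    (hpq : 1 < p * q) : NoSol 8 p q :=
  noSol_rect (n := 8) (by norm_num) (N := 8) (a := (187049 / 200000 : ℝ)) (b := (728609 / 1000000 : ℝ))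
    (τ := (1582179 / 2500000 : ℝ)) (A5 := (126131 / 250000 : ℝ)) (A6 := (320093 / 500000 : ℝ))
    (A9 := (668729 / 1000000 : ℝ)) (A10 := (527353 / 1000000 : ℝ)) (s := (6819 / 100000 : ℝ)) (e := (1 / 10000000 : ℝ))
    (pb := (6818883 / 5000000 : ℝ)) (qb := (20575437 / 10000000 : ℝ)) (by norm_num)
    (by norm_num) (by norm_num) (by norm_num) (by norm_num) (by norm_num) (by norm_num) (by norm_num)
    (by norm_num) (by norm_num)
    (by norm_num) (by norm_num) (by norm_num) (by norm_num) (by norm_num)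
    rfl rfl rfl rfl rfl rfl (by norm_num) (by norm_num) (by norm_num) hp hpb hq hqb hpq

theorem rowL8_94 {p q : ℝ} (hp : 0 < p) (hpb : p ≤ (1723577 / 1250000 : ℝ)) (hq : 0 < q) (hqb : q ≤ (20327903 / 10000000 : ℝ))
    (hpq : 1 < p * q) : NoSol 8 p q :=
  noSol_rect (n := 8) (by norm_num) (N := 8) (a := (952967 / 1000000 : ℝ)) (b := (721493 / 1000000 : ℝ))
    (τ := (51299 / 78125 : ℝ)) (A5 := (20203 / 40000 : ℝ)) (A6 := (79999 / 125000 : ℝ))
    (A9 := (20639 / 31250 : ℝ)) (A10 := (534263 / 1000000 : ℝ)) (s := (6901 / 100000 : ℝ)) (e := (1 / 10000000 : ℝ))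
    (pb := (1723577 / 1250000 : ℝ)) (qb := (20327903 / 10000000 : ℝ)) (by norm_num)
    (by norm_num) (by norm_num) (by norm_num) (by norm_num) (by norm_num) (by norm_num) (by norm_num)
    (by norm_num) (by norm_num)
    (by norm_num) (by norm_num) (by norm_num) (by norm_num) (by norm_num)
    rfl rfl rfl rfl rfl rfl (by norm_num) (by norm_num) (by norm_num) hp hpb hq hqb hpq

theorem rowL8_95 {p q : ℝ} (hp : 0 < p) (hpb : p ≤ (13942187 / 10000000 : ℝ)) (hq : 0 < q) (hqb : q ≤ (10041573 / 5000000 : ℝ))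
    (hpq : 1 < p * q) : NoSol 8 p q :=
  noSol_rect (n := 8) (by norm_num) (N := 8) (a := (953853 / 1000000 : ℝ)) (b := (145041 / 200000 : ℝ))
    (τ := (2687 / 4000 : ℝ)) (A5 := (505717 / 1000000 : ℝ)) (A6 := (159999 / 250000 : ℝ))
    (A9 := (661423 / 1000000 : ℝ)) (A10 := (531989 / 1000000 : ℝ)) (s := (3463 / 50000 : ℝ)) (e := (1 / 10000000 : ℝ))
    (pb := (13942187 / 10000000 : ℝ)) (qb := (10041573 / 5000000 : ℝ)) (by norm_num)
    (by norm_num) (by norm_num) (by norm_num) (by norm_num) (by norm_num) (by norm_num) (by norm_num)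
    (by norm_num) (by norm_num)
    (by norm_num) (by norm_num) (by norm_num) (by norm_num) (by norm_num)
    rfl rfl rfl rfl rfl rfl (by norm_num) (by norm_num) (by norm_num) hp hpb hq hqb hpq

theorem rowL8_96 {p q : ℝ} (hp : 0 < p) (hpb : p ≤ (14098327 / 10000000 : ℝ)) (hq : 0 < q) (hqb : q ≤ (19841091 / 10000000 : ℝ))
    (hpq : 1 < p * q) : NoSol 8 p q :=
  noSol_rect (n := 8) (by norm_num) (N := 8) (a := (476507 / 500000 : ℝ)) (b := (726037 / 1000000 : ℝ))
    (τ := (1721323 / 2500000 : ℝ)) (A5 := (507247 / 1000000 : ℝ)) (A6 := (63971 / 100000 : ℝ))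
    (A9 := (330069 / 500000 : ℝ)) (A10 := (531319 / 1000000 : ℝ)) (s := (873 / 12500 : ℝ)) (e := (1 / 10000000 : ℝ))
    (pb := (14098327 / 10000000 : ℝ)) (qb := (19841091 / 10000000 : ℝ)) (by norm_num)
    (by norm_num) (by norm_num) (by norm_num) (by norm_num) (by norm_num) (by norm_num) (by norm_num)
    (by norm_num) (by norm_num)
    (by norm_num) (by norm_num) (by norm_num) (by norm_num) (by norm_num)
    rfl rfl rfl rfl rfl rfl (by norm_num) (by norm_num) (by norm_num) hp hpb hq hqb hpq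

theorem rowL8_97 {p q : ℝ} (hp : 0 < p) (hpb : p ≤ (14257207 / 10000000 : ℝ)) (hq : 0 < q) (hqb : q ≤ (3920407 / 2000000 : ℝ))
    (hpq : 1 < p * q) : NoSol 8 p q :=
  noSol_rect (n := 8) (by norm_num) (N := 8) (a := (95217 / 100000 : ℝ)) (b := (726561 / 1000000 : ℝ))
    (τ := (3515019 / 5000000 : ℝ)) (A5 := (509297 / 1000000 : ℝ)) (A6 := (318909 / 500000 : ℝ))
    (A9 := (330651 / 500000 : ℝ)) (A10 := (529507 / 1000000 : ℝ)) (s := (3499 / 50000 : ℝ)) (e := (1 / 10000000 : ℝ))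
    (pb := (14257207 / 10000000 : ℝ)) (qb := (3920407 / 2000000 : ℝ)) (by norm_num)
    (by norm_num) (by norm_num) (by norm_num) (by norm_num) (by norm_num) (by norm_num) (by norm_num)
    (by norm_num) (by norm_num)
    (by norm_num) (by norm_num) (by norm_num) (by norm_num) (by norm_num)
    rfl rfl rfl rfl rfl rfl (by norm_num) (by norm_num) (by norm_num) hp hpb hq hqb hpq

theorem rowL8_98 {p q : ℝ} (hp : 0 < p) (hpb : p ≤ (720941 / 500000 : ℝ)) (hq : 0 < q) (hqb : q ≤ (19365767 / 10000000 : ℝ))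
    (hpq : 1 < p * q) : NoSol 8 p q :=
  noSol_rect (n := 8) (by norm_num) (N := 8) (a := (951931 / 1000000 : ℝ)) (b := (362299 / 500000 : ℝ))
    (τ := (900001 / 1250000 : ℝ)) (A5 := (510133 / 1000000 : ℝ)) (A6 := (15977 / 25000 : ℝ))
    (A9 := (661119 / 1000000 : ℝ)) (A10 := (526927 / 1000000 : ℝ)) (s := (3537 / 50000 : ℝ)) (e := (1 / 10000000 : ℝ))
    (pb := (720941 / 500000 : ℝ)) (qb := (19365767 / 10000000 : ℝ)) (by norm_num)
    (by norm_num) (by norm_num) (by norm_num) (by norm_num) (by norm_num) (by norm_num) (by norm_num)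
    (by norm_num) (by norm_num)
    (by norm_num) (by norm_num) (by norm_num) (by norm_num) (by norm_num)
    rfl rfl rfl rfl rfl rfl (by norm_num) (by norm_num) (by norm_num) hp hpb hq hqb hpq

theorem rowL8_99 {p q : ℝ} (hp : 0 < p) (hpb : p ≤ (7291501 / 5000000 : ℝ)) (hq : 0 < q) (hqb : q ≤ (19132353 / 10000000 : ℝ))
    (hpq : 1 < p * q) : NoSol 8 p q :=
  noSol_rect (n := 8) (by norm_num) (N := 8) (a := (948937 / 1000000 : ℝ)) (b := (362217 / 500000 : ℝ))
    (τ := (7373467 / 10000000 : ℝ)) (A5 := (7997 / 15625 : ℝ)) (A6 := (159499 / 250000 : ℝ))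
    (A9 := (330331 / 500000 : ℝ)) (A10 := (131569 / 250000 : ℝ)) (s := (3557 / 50000 : ℝ)) (e := (1 / 10000000 : ℝ))
    (pb := (7291501 / 5000000 : ℝ)) (qb := (19132353 / 10000000 : ℝ)) (by norm_num)
    (by norm_num) (by norm_num) (by norm_num) (by norm_num) (by norm_num) (by norm_num) (by norm_num)
    (by norm_num) (by norm_num)
    (by norm_num) (by norm_num) (by norm_num) (by norm_num) (by norm_num)
    rfl rfl rfl rfl rfl rfl (by norm_num) (by norm_num) (by norm_num) hp hpb hq hqb hpq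

theorem rowL8_100 {p q : ℝ} (hp : 0 < p) (hpb : p ≤ (14748627 / 10000000 : ℝ)) (hq : 0 < q) (hqb : q ≤ (3780413 / 2000000 : ℝ))
    (hpq : 1 < p * q) : NoSol 8 p q :=
  noSol_rect (n := 8) (by norm_num) (N := 8) (a := (29601 / 31250 : ℝ)) (b := (14493 / 20000 : ℝ))
    (τ := (7720363 / 10000000 : ℝ)) (A5 := (101401 / 200000 : ℝ)) (A6 := (64583 / 100000 : ℝ))
    (A9 := (130267 / 200000 : ℝ)) (A10 := (531571 / 1000000 : ℝ)) (s := (7289 / 100000 : ℝ)) (e := (1 / 10000000 : ℝ))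
    (pb := (14748627 / 10000000 : ℝ)) (qb := (3780413 / 2000000 : ℝ)) (by norm_num)
    (by norm_num) (by norm_num) (by norm_num) (by norm_num) (by norm_num) (by norm_num) (by norm_num)
    (by norm_num) (by norm_num)
    (by norm_num) (by norm_num) (by norm_num) (by norm_num) (by norm_num)
    rfl rfl rfl rfl rfl rfl (by norm_num) (by norm_num) (by norm_num) hp hpb hq hqb hpq

theorem rowL8_101 {p q : ℝ} (hp : 0 < p) (hpb : p ≤ (7458869 / 5000000 : ℝ)) (hq : 0 < q) (hqb : q ≤ (18676437 / 10000000 : ℝ))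
    (hpq : 1 < p * q) : NoSol 8 p q :=
  noSol_rect (n := 8) (by norm_num) (N := 8) (a := (940703 / 1000000 : ℝ)) (b := (730557 / 1000000 : ℝ))
    (τ := (489819 / 625000 : ℝ)) (A5 := (254023 / 500000 : ℝ)) (A6 := (10072 / 15625 : ℝ))
    (A9 := (657563 / 1000000 : ℝ)) (A10 := (525297 / 1000000 : ℝ)) (s := (7269 / 100000 : ℝ)) (e := (1 / 10000000 : ℝ))
    (pb := (7458869 / 5000000 : ℝ)) (qb := (18676437 / 10000000 : ℝ)) (by norm_num)
    (by norm_num) (by norm_num) (by norm_num) (by norm_num) (by norm_num) (by norm_num) (by norm_num)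
    (by norm_num) (by norm_num)
    (by norm_num) (by norm_num) (by norm_num) (by norm_num) (by norm_num)
    rfl rfl rfl rfl rfl rfl (by norm_num) (by norm_num) (by norm_num) hp hpb hq hqb hpq

theorem rowL8_102 {p q : ℝ} (hp : 0 < p) (hpb : p ≤ (3017899 / 2000000 : ℝ)) (hq : 0 < q) (hqb : q ≤ (1153293 / 625000 : ℝ))
    (hpq : 1 < p * q) : NoSol 8 p q :=
  noSol_rect (n := 8) (by norm_num) (N := 8) (a := (467489 / 500000 : ℝ)) (b := (46247 / 62500 : ℝ))
    (τ := (2015851 / 2500000 : ℝ)) (A5 := (254493 / 500000 : ℝ)) (A6 := (323067 / 500000 : ℝ))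
    (A9 := (327183 / 500000 : ℝ)) (A10 := (525499 / 1000000 : ℝ)) (s := (461 / 6250 : ℝ)) (e := (1 / 10000000 : ℝ))
    (pb := (3017899 / 2000000 : ℝ)) (qb := (1153293 / 625000 : ℝ)) (by norm_num)
    (by norm_num) (by norm_num) (by norm_num) (by norm_num) (by norm_num) (by norm_num) (by norm_num)
    (by norm_num) (by norm_num)
    (by norm_num) (by norm_num) (by norm_num) (by norm_num) (by norm_num)
    rfl rfl rfl rfl rfl rfl (by norm_num) (by norm_num) (by norm_num) hp hpb hq hqb hpq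

theorem rowL8_103 {p q : ℝ} (hp : 0 < p) (hpb : p ≤ (7632007 / 5000000 : ℝ)) (hq : 0 < q) (hqb : q ≤ (2279 / 1250 : ℝ))
    (hpq : 1 < p * q) : NoSol 8 p q :=
  noSol_rect (n := 8) (by norm_num) (N := 8) (a := (93317 / 100000 : ℝ)) (b := (741827 / 1000000 : ℝ))
    (τ := (4098243 / 5000000 : ℝ)) (A5 := (510617 / 1000000 : ℝ)) (A6 := (64439 / 100000 : ℝ))
    (A9 := (329599 / 500000 : ℝ)) (A10 := (520577 / 1000000 : ℝ)) (s := (7369 / 100000 : ℝ)) (e := (1 / 10000000 : ℝ))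
    (pb := (7632007 / 5000000 : ℝ)) (qb := (2279 / 1250 : ℝ)) (by norm_num)
    (by norm_num) (by norm_num) (by norm_num) (by norm_num) (by norm_num) (by norm_num) (by norm_num)
    (by norm_num) (by norm_num)
    (by norm_num) (by norm_num) (by norm_num) (by norm_num) (by norm_num)
    rfl rfl rfl rfl rfl rfl (by norm_num) (by norm_num) (by norm_num) hp hpb hq hqb hpq

theorem rowL8_104 {p q : ℝ} (hp : 0 < p) (hpb : p ≤ (15441247 / 10000000 : ℝ)) (hq : 0 < q) (hqb : q ≤ (3602849 / 2000000 : ℝ))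
    (hpq : 1 < p * q) : NoSol 8 p q :=
  noSol_rect (n := 8) (by norm_num) (N := 8) (a := (932913 / 1000000 : ℝ)) (b := (148363 / 200000 : ℝ))
    (τ := (8415371 / 10000000 : ℝ)) (A5 := (511041 / 1000000 : ℝ)) (A6 := (322443 / 500000 : ℝ))
    (A9 := (131687 / 200000 : ℝ)) (A10 := (130019 / 250000 : ℝ)) (s := (7429 / 100000 : ℝ)) (e := (1 / 10000000 : ℝ))
    (pb := (15441247 / 10000000 : ℝ)) (qb := (3602849 / 2000000 : ℝ)) (by norm_num)
    (by norm_num) (by norm_num) (by norm_num) (by norm_num) (by norm_num) (by norm_num) (by norm_num)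
    (by norm_num) (by norm_num)
    (by norm_num) (by norm_num) (by norm_num) (by norm_num) (by norm_num)
    rfl rfl rfl rfl rfl rfl (by norm_num) (by norm_num) (by norm_num) hp hpb hq hqb hpq

theorem rowL8_105 {p q : ℝ} (hp : 0 < p) (hpb : p ≤ (3905371 / 2500000 : ℝ)) (hq : 0 < q) (hqb : q ≤ (17799501 / 10000000 : ℝ))
    (hpq : 1 < p * q) : NoSol 8 p q :=
  noSol_rect (n := 8) (by norm_num) (N := 8) (a := (23291 / 25000 : ℝ)) (b := (371321 / 500000 : ℝ))
    (τ := (4327243 / 5000000 : ℝ)) (A5 := (256191 / 500000 : ℝ)) (A6 := (161407 / 250000 : ℝ))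
    (A9 := (131081 / 200000 : ℝ)) (A10 := (520677 / 1000000 : ℝ)) (s := (7533 / 100000 : ℝ)) (e := (1 / 10000000 : ℝ))
    (pb := (3905371 / 2500000 : ℝ)) (qb := (17799501 / 10000000 : ℝ)) (by norm_num)
    (by norm_num) (by norm_num) (by norm_num) (by norm_num) (by norm_num) (by norm_num) (by norm_num)
    (by norm_num) (by norm_num)
    (by norm_num) (by norm_num) (by norm_num) (by norm_num) (by norm_num)
    rfl rfl rfl rfl rfl rfl (by norm_num) (by norm_num) (by norm_num) hp hpb hq hqb hpq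

theorem rowL8_106 {p q : ℝ} (hp : 0 < p) (hpb : p ≤ (15804467 / 10000000 : ℝ)) (hq : 0 < q) (hqb : q ≤ (8793723 / 5000000 : ℝ))
    (hpq : 1 < p * q) : NoSol 8 p q :=
  noSol_rect (n := 8) (by norm_num) (N := 8) (a := (469311 / 500000 : ℝ)) (b := (732373 / 1000000 : ℝ))
    (τ := (4427091 / 5000000 : ℝ)) (A5 := (513723 / 1000000 : ℝ)) (A6 := (645887 / 1000000 : ℝ))
    (A9 := (655967 / 1000000 : ℝ)) (A10 := (518287 / 1000000 : ℝ)) (s := (7593 / 100000 : ℝ)) (e := (1 / 10000000 : ℝ))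
    (pb := (15804467 / 10000000 : ℝ)) (qb := (8793723 / 5000000 : ℝ)) (by norm_num)
    (by norm_num) (by norm_num) (by norm_num) (by norm_num) (by norm_num) (by norm_num) (by norm_num)
    (by norm_num) (by norm_num)
    (by norm_num) (by norm_num) (by norm_num) (by norm_num) (by norm_num)
    rfl rfl rfl rfl rfl rfl (by norm_num) (by norm_num) (by norm_num) hp hpb hq hqb hpq

theorem rowL8_107 {p q : ℝ} (hp : 0 < p) (hpb : p ≤ (7994597 / 5000000 : ℝ)) (hq : 0 < q) (hqb : q ≤ (3475681 / 2000000 : ℝ))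
    (hpq : 1 < p * q) : NoSol 8 p q :=
  noSol_rect (n := 8) (by norm_num) (N := 8) (a := (116717 / 125000 : ℝ)) (b := (14901 / 20000 : ℝ))
    (τ := (8986537 / 10000000 : ℝ)) (A5 := (260279 / 500000 : ℝ)) (A6 := (127667 / 200000 : ℝ))
    (A9 := (164203 / 250000 : ℝ)) (A10 := (518029 / 1000000 : ℝ)) (s := (949 / 12500 : ℝ)) (e := (1 / 10000000 : ℝ))
    (pb := (7994597 / 5000000 : ℝ)) (qb := (3475681 / 2000000 : ℝ)) (by norm_num)
    (by norm_num) (by norm_num) (by norm_num) (by norm_num) (by norm_num) (by norm_num) (by norm_num)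
    (by norm_num) (by norm_num)
    (by norm_num) (by norm_num) (by norm_num) (by norm_num) (by norm_num)
    rfl rfl rfl rfl rfl rfl (by norm_num) (by norm_num) (by norm_num) hp hpb hq hqb hpq

theorem rowL8_108 {p q : ℝ} (hp : 0 < p) (hpb : p ≤ (8088519 / 5000000 : ℝ)) (hq : 0 < q) (hqb : q ≤ (17173479 / 10000000 : ℝ))
    (hpq : 1 < p * q) : NoSol 8 p q :=
  noSol_rect (n := 8) (by norm_num) (N := 8) (a := (943499 / 1000000 : ℝ)) (b := (91663 / 125000 : ℝ))
    (τ := (369653 / 400000 : ℝ)) (A5 := (259223 / 500000 : ℝ)) (A6 := (80377 / 125000 : ℝ))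
    (A9 := (1643 / 2500 : ℝ)) (A10 := (257437 / 500000 : ℝ)) (s := (767 / 10000 : ℝ)) (e := (1 / 10000000 : ℝ))
    (pb := (8088519 / 5000000 : ℝ)) (qb := (17173479 / 10000000 : ℝ)) (by norm_num)
    (by norm_num) (by norm_num) (by norm_num) (by norm_num) (by norm_num) (by norm_num) (by norm_num)
    (by norm_num) (by norm_num)
    (by norm_num) (by norm_num) (by norm_num) (by norm_num) (by norm_num)
    rfl rfl rfl rfl rfl rfl (by norm_num) (by norm_num) (by norm_num) hp hpb hq hqb hpq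

theorem rowL8_109 {p q : ℝ} (hp : 0 < p) (hpb : p ≤ (3273693 / 2000000 : ℝ)) (hq : 0 < q) (hqb : q ≤ (8485559 / 5000000 : ℝ))
    (hpq : 1 < p * q) : NoSol 8 p q :=
  noSol_rect (n := 8) (by norm_num) (N := 8) (a := (234823 / 250000 : ℝ)) (b := (729997 / 1000000 : ℝ))
    (τ := (9544779 / 10000000 : ℝ)) (A5 := (129367 / 250000 : ℝ)) (A6 := (161419 / 250000 : ℝ))
    (A9 := (326979 / 500000 : ℝ)) (A10 := (516303 / 1000000 : ℝ)) (s := (779 / 10000 : ℝ)) (e := (1 / 10000000 : ℝ))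
    (pb := (3273693 / 2000000 : ℝ)) (qb := (8485559 / 5000000 : ℝ)) (by norm_num)
    (by norm_num) (by norm_num) (by norm_num) (by norm_num) (by norm_num) (by norm_num) (by norm_num)
    (by norm_num) (by norm_num)
    (by norm_num) (by norm_num) (by norm_num) (by norm_num) (by norm_num)
    rfl rfl rfl rfl rfl rfl (by norm_num) (by norm_num) (by norm_num) hp hpb hq hqb hpq

theorem rowL8_110 {p q : ℝ} (hp : 0 < p) (hpb : p ≤ (1035171 / 625000 : ℝ)) (hq : 0 < q) (hqb : q ≤ (8385437 / 5000000 : ℝ))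
    (hpq : 1 < p * q) : NoSol 8 p q :=
  noSol_rect (n := 8) (by norm_num) (N := 8) (a := (469661 / 500000 : ℝ)) (b := (91311 / 125000 : ℝ))
    (τ := (9807791 / 10000000 : ℝ)) (A5 := (258841 / 500000 : ℝ)) (A6 := (323399 / 500000 : ℝ))
    (A9 := (326503 / 500000 : ℝ)) (A10 := (515847 / 1000000 : ℝ)) (s := (1573 / 20000 : ℝ)) (e := (1 / 10000000 : ℝ))
    (pb := (1035171 / 625000 : ℝ)) (qb := (8385437 / 5000000 : ℝ)) (by norm_num)
    (by norm_num) (by norm_num) (by norm_num) (by norm_num) (by norm_num) (by norm_num) (by norm_num)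
    (by norm_num) (by norm_num)
    (by norm_num) (by norm_num) (by norm_num) (by norm_num) (by norm_num)
    rfl rfl rfl rfl rfl rfl (by norm_num) (by norm_num) (by norm_num) hp hpb hq hqb hpq

theorem rowL8_111 {p q : ℝ} (hp : 0 < p) (hpb : p ≤ (8379993 / 5000000 : ℝ)) (hq : 0 < q) (hqb : q ≤ (8286779 / 5000000 : ℝ))
    (hpq : 1 < p * q) : NoSol 8 p q :=
  noSol_rect (n := 8) (by norm_num) (N := 8) (a := (467963 / 500000 : ℝ)) (b := (365039 / 500000 : ℝ))
    (τ := (1270573 / 1250000 : ℝ)) (A5 := (257679 / 500000 : ℝ)) (A6 := (162987 / 250000 : ℝ))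
    (A9 := (324363 / 500000 : ℝ)) (A10 := (517299 / 1000000 : ℝ)) (s := (4013 / 50000 : ℝ)) (e := (1 / 10000000 : ℝ))
    (pb := (8379993 / 5000000 : ℝ)) (qb := (8286779 / 5000000 : ℝ)) (by norm_num)
    (by norm_num) (by norm_num) (by norm_num) (by norm_num) (by norm_num) (by norm_num) (by norm_num)
    (by norm_num) (by norm_num)
    (by norm_num) (by norm_num) (by norm_num) (by norm_num) (by norm_num)
    rfl rfl rfl rfl rfl rfl (by norm_num) (by norm_num) (by norm_num) hp hpb hq hqb hpq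

end Vale.Agent.Lib.P100
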