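import Vale.Agent.Lib.P100.Cover

/-!
Rational certificates, dimension 9.
-/

namespace Vale.Agent.Lib.P100

theorem rowL9_0 {p q : ℝ} (hp : 0 < p) (hpb : p ≤ (5246679 / 10000000 : ℝ)) (hq : 0 < q) (hqb : q ≤ (35087723 / 5000000 : ℝ))
    (hpq : 1 < p * q) : NoSol 9 p q :=
  noSol_rect (n := 9) (by norm_num) (N := 9) (a := (10633 / 12500 : ℝ)) (b := (802509 / 1000000 : ℝ))
    (τ := (63139 / 1250000 : ℝ)) (A5 := (1941 / 4000 : ℝ)) (A6 := (39601 / 62500 : ℝ))
    (A9 := (176909 / 200000 : ℝ)) (A10 := (297561 / 500000 : ℝ)) (s := (4023 / 100000 : ℝ)) (e := (1 / 10000000 : ℝ))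
    (pb := (5246679 / 10000000 : ℝ)) (qb := (35087723 / 5000000 : ℝ)) (by norm_num)
    (by norm_num) (by norm_num) (by norm_num) (by norm_num) (by norm_num) (by norm_num) (by norm_num)
    (by norm_num) (by norm_num)
    (by norm_num) (by norm_num) (by norm_num) (by norm_num) (by norm_num)
    rfl rfl rfl rfl rfl rfl (by norm_num) (by norm_num) (by norm_num) hp hpb hq hqb hpq

theorem rowL9_1 {p q : ℝ} (hp : 0 < p) (hpb : p ≤ (1052901 / 2000000 : ℝ)) (hq : 0 < q) (hqb : q ≤ (3490389 / 500000 : ℝ))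
    (hpq : 1 < p * q) : NoSol 9 p q :=
  noSol_rect (n := 9) (by norm_num) (N := 9) (a := (862149 / 1000000 : ℝ)) (b := (798087 / 1000000 : ℝ))
    (τ := (503869 / 10000000 : ℝ)) (A5 := (241913 / 500000 : ℝ)) (A6 := (634639 / 1000000 : ℝ))
    (A9 := (896767 / 1000000 : ℝ)) (A10 := (23431 / 40000 : ℝ)) (s := (4093 / 100000 : ℝ)) (e := (1 / 10000000 : ℝ))
    (pb := (1052901 / 2000000 : ℝ)) (qb := (3490389 / 500000 : ℝ)) (by norm_num)
    (by norm_num) (by norm_num) (by norm_num) (by norm_num) (by norm_num) (by norm_num) (by norm_num)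
    (by norm_num) (by norm_num)
    (by norm_num) (by norm_num) (by norm_num) (by norm_num) (by norm_num)
    rfl rfl rfl rfl rfl rfl (by norm_num) (by norm_num) (by norm_num) hp hpb hq hqb hpq

theorem rowL9_2 {p q : ℝ} (hp : 0 < p) (hpb : p ≤ (5286167 / 10000000 : ℝ)) (hq : 0 < q) (hqb : q ≤ (34661447 / 5000000 : ℝ))
    (hpq : 1 < p * q) : NoSol 9 p q :=
  noSol_rect (n := 9) (by norm_num) (N := 9) (a := (213993 / 250000 : ℝ)) (b := (799149 / 1000000 : ℝ))
    (τ := (252089 / 5000000 : ℝ)) (A5 := (485451 / 1000000 : ℝ)) (A6 := (316503 / 500000 : ℝ))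
    (A9 := (452883 / 500000 : ℝ)) (A10 := (578853 / 1000000 : ℝ)) (s := (128 / 3125 : ℝ)) (e := (1 / 10000000 : ℝ))
    (pb := (5286167 / 10000000 : ℝ)) (qb := (34661447 / 5000000 : ℝ)) (by norm_num)
    (by norm_num) (by norm_num) (by norm_num) (by norm_num) (by norm_num) (by norm_num) (by norm_num)
    (by norm_num) (by norm_num)
    (by norm_num) (by norm_num) (by norm_num) (by norm_num) (by norm_num)
    rfl rfl rfl rfl rfl rfl (by norm_num) (by norm_num) (by norm_num) hp hpb hq hqb hpq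

theorem rowL9_3 {p q : ℝ} (hp : 0 < p) (hpb : p ≤ (1062009 / 2000000 : ℝ)) (hq : 0 < q) (hqb : q ≤ (17185757 / 2500000 : ℝ))
    (hpq : 1 < p * q) : NoSol 9 p q :=
  noSol_rect (n := 9) (by norm_num) (N := 9) (a := (855777 / 1000000 : ℝ)) (b := (199543 / 250000 : ℝ))
    (τ := (31817 / 625000 : ℝ)) (A5 := (244047 / 500000 : ℝ)) (A6 := (630171 / 1000000 : ℝ))
    (A9 := (453591 / 500000 : ℝ)) (A10 := (576931 / 1000000 : ℝ)) (s := (4123 / 100000 : ℝ)) (e := (1 / 10000000 : ℝ))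
    (pb := (1062009 / 2000000 : ℝ)) (qb := (17185757 / 2500000 : ℝ)) (by norm_num)
    (by norm_num) (by norm_num) (by norm_num) (by norm_num) (by norm_num) (by norm_num) (by norm_num)
    (by norm_num) (by norm_num)
    (by norm_num) (by norm_num) (by norm_num) (by norm_num) (by norm_num)
    rfl rfl rfl rfl rfl rfl (by norm_num) (by norm_num) (by norm_num) hp hpb hq hqb hpq

theorem rowL9_4 {p q : ℝ} (hp : 0 < p) (hpb : p ≤ (5336351 / 10000000 : ℝ)) (hq : 0 < q) (hqb : q ≤ (17028861 / 2500000 : ℝ))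
    (hpq : 1 < p * q) : NoSol 9 p q :=
  noSol_rect (n := 9) (by norm_num) (N := 9) (a := (214741 / 250000 : ℝ)) (b := (800047 / 1000000 : ℝ))
    (τ := (102789 / 2000000 : ℝ)) (A5 := (492351 / 1000000 : ℝ)) (A6 := (625303 / 1000000 : ℝ))
    (A9 := (909261 / 1000000 : ℝ)) (A10 := (287933 / 500000 : ℝ)) (s := (1009 / 25000 : ℝ)) (e := (1 / 10000000 : ℝ))
    (pb := (5336351 / 10000000 : ℝ)) (qb := (17028861 / 2500000 : ℝ)) (by norm_num)
    (by norm_num) (by norm_num) (by norm_num) (by norm_num) (by norm_num) (by norm_num) (by norm_num)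
    (by norm_num) (by norm_num)
    (by norm_num) (by norm_num) (by norm_num) (by norm_num) (by norm_num)
    rfl rfl rfl rfl rfl rfl (by norm_num) (by norm_num) (by norm_num) hp hpb hq hqb hpq

theorem rowL9_5 {p q : ℝ} (hp : 0 < p) (hpb : p ≤ (2682171 / 5000000 : ℝ)) (hq : 0 < q) (hqb : q ≤ (67437731 / 10000000 : ℝ))
    (hpq : 1 < p * q) : NoSol 9 p q :=
  noSol_rect (n := 9) (by norm_num) (N := 9) (a := (861469 / 1000000 : ℝ)) (b := (800527 / 1000000 : ℝ))
    (τ := (130567 / 2500000 : ℝ)) (A5 := (61629 / 125000 : ℝ)) (A6 := (624267 / 1000000 : ℝ))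
    (A9 := (454039 / 500000 : ℝ)) (A10 := (57421 / 100000 : ℝ)) (s := (4001 / 100000 : ℝ)) (e := (1 / 10000000 : ℝ))
    (pb := (2682171 / 5000000 : ℝ)) (qb := (67437731 / 10000000 : ℝ)) (by norm_num)
    (by norm_num) (by norm_num) (by norm_num) (by norm_num) (by norm_num) (by norm_num) (by norm_num)
    (by norm_num) (by norm_num)
    (by norm_num) (by norm_num) (by norm_num) (by norm_num) (by norm_num)
    rfl rfl rfl rfl rfl rfl (by norm_num) (by norm_num) (by norm_num) hp hpb hq hqb hpq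

theorem rowL9_6 {p q : ℝ} (hp : 0 < p) (hpb : p ≤ (539437 / 1000000 : ℝ)) (hq : 0 < q) (hqb : q ≤ (16682971 / 2500000 : ℝ))
    (hpq : 1 < p * q) : NoSol 9 p q :=
  noSol_rect (n := 9) (by norm_num) (N := 9) (a := (862627 / 1000000 : ℝ)) (b := (799233 / 1000000 : ℝ))
    (τ := (531621 / 10000000 : ℝ)) (A5 := (492561 / 1000000 : ℝ)) (A6 := (19521 / 31250 : ℝ))
    (A9 := (90663 / 100000 : ℝ)) (A10 := (285797 / 500000 : ℝ)) (s := (4033 / 100000 : ℝ)) (e := (1 / 10000000 : ℝ))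
    (pb := (539437 / 1000000 : ℝ)) (qb := (16682971 / 2500000 : ℝ)) (by norm_num)
    (by norm_num) (by norm_num) (by norm_num) (by norm_num) (by norm_num) (by norm_num) (by norm_num)
    (by norm_num) (by norm_num)
    (by norm_num) (by norm_num) (by norm_num) (by norm_num) (by norm_num)
    rfl rfl rfl rfl rfl rfl (by norm_num) (by norm_num) (by norm_num) hp hpb hq hqb hpq

theorem rowL9_7 {p q : ℝ} (hp : 0 < p) (hpb : p ≤ (1085361 / 2000000 : ℝ)) (hq : 0 < q) (hqb : q ≤ (6599161 / 1000000 : ℝ))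
    (hpq : 1 < p * q) : NoSol 9 p q :=
  noSol_rect (n := 9) (by norm_num) (N := 9) (a := (873589 / 1000000 : ℝ)) (b := (797281 / 1000000 : ℝ))
    (τ := (264053 / 5000000 : ℝ)) (A5 := (62249 / 125000 : ℝ)) (A6 := (123619 / 200000 : ℝ))
    (A9 := (462941 / 500000 : ℝ)) (A10 := (279953 / 500000 : ℝ)) (s := (126 / 3125 : ℝ)) (e := (1 / 10000000 : ℝ))
    (pb := (1085361 / 2000000 : ℝ)) (qb := (6599161 / 1000000 : ℝ)) (by norm_num)
    (by norm_num) (by norm_num) (by norm_num) (by norm_num) (by norm_num) (by norm_num) (by norm_num)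
    (by norm_num) (by norm_num)
    (by norm_num) (by norm_num) (by norm_num) (by norm_num) (by norm_num)
    rfl rfl rfl rfl rfl rfl (by norm_num) (by norm_num) (by norm_num) hp hpb hq hqb hpq

theorem rowL9_8 {p q : ℝ} (hp : 0 < p) (hpb : p ≤ (5461033 / 10000000 : ℝ)) (hq : 0 < q) (hqb : q ≤ (3260551 / 500000 : ℝ))
    (hpq : 1 < p * q) : NoSol 9 p q :=
  noSol_rect (n := 9) (by norm_num) (N := 9) (a := (174221 / 200000 : ℝ)) (b := (398169 / 500000 : ℝ))
    (τ := (540039 / 10000000 : ℝ)) (A5 := (9969 / 20000 : ℝ)) (A6 := (154459 / 250000 : ℝ))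
    (A9 := (23023 / 25000 : ℝ)) (A10 := (559061 / 1000000 : ℝ)) (s := (4071 / 100000 : ℝ)) (e := (1 / 10000000 : ℝ))
    (pb := (5461033 / 10000000 : ℝ)) (qb := (3260551 / 500000 : ℝ)) (by norm_num)
    (by norm_num) (by norm_num) (by norm_num) (by norm_num) (by norm_num) (by norm_num) (by norm_num)
    (by norm_num) (by norm_num)
    (by norm_num) (by norm_num) (by norm_num) (by norm_num) (by norm_num)
    rfl rfl rfl rfl rfl rfl (by norm_num) (by norm_num) (by norm_num) hp hpb hq hqb hpq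

theorem rowL9_9 {p q : ℝ} (hp : 0 < p) (hpb : p ≤ (2748201 / 5000000 : ℝ)) (hq : 0 < q) (hqb : q ≤ (16101981 / 2500000 : ℝ))
    (hpq : 1 < p * q) : NoSol 9 p q :=
  noSol_rect (n := 9) (by norm_num) (N := 9) (a := (435937 / 500000 : ℝ)) (b := (796803 / 1000000 : ℝ))
    (τ := (276959 / 5000000 : ℝ)) (A5 := (506093 / 1000000 : ℝ)) (A6 := (609437 / 1000000 : ℝ))
    (A9 := (909923 / 1000000 : ℝ)) (A10 := (113417 / 200000 : ℝ)) (s := (2011 / 50000 : ℝ)) (e := (1 / 10000000 : ℝ))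
    (pb := (2748201 / 5000000 : ℝ)) (qb := (16101981 / 2500000 : ℝ)) (by norm_num)
    (by norm_num) (by norm_num) (by norm_num) (by norm_num) (by norm_num) (by norm_num) (by norm_num)
    (by norm_num) (by norm_num)
    (by norm_num) (by norm_num) (by norm_num) (by norm_num) (by norm_num)
    rfl rfl rfl rfl rfl rfl (by norm_num) (by norm_num) (by norm_num) hp hpb hq hqb hpq

theorem rowL9_10 {p q : ℝ} (hp : 0 < p) (hpb : p ≤ (1383513 / 2500000 : ℝ)) (hq : 0 < q) (hqb : q ≤ (12719897 / 2000000 : ℝ))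
    (hpq : 1 < p * q) : NoSol 9 p q :=
  noSol_rect (n := 9) (by norm_num) (N := 9) (a := (851063 / 1000000 : ℝ)) (b := (400583 / 500000 : ℝ))
    (τ := (284587 / 5000000 : ℝ)) (A5 := (509353 / 1000000 : ℝ)) (A6 := (303517 / 500000 : ℝ))
    (A9 := (89931 / 100000 : ℝ)) (A10 := (570379 / 1000000 : ℝ)) (s := (799 / 20000 : ℝ)) (e := (1 / 10000000 : ℝ))
    (pb := (1383513 / 2500000 : ℝ)) (qb := (12719897 / 2000000 : ℝ)) (by norm_num)
    (by norm_num) (by norm_num) (by norm_num) (by norm_num) (by norm_num) (by norm_num) (by norm_num)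
    (by norm_num) (by norm_num)
    (by norm_num) (by norm_num) (by norm_num) (by norm_num) (by norm_num)
    rfl rfl rfl rfl rfl rfl (by norm_num) (by norm_num) (by norm_num) hp hpb hq hqb hpq

theorem rowL9_11 {p q : ℝ} (hp : 0 < p) (hpb : p ≤ (44591 / 80000 : ℝ)) (hq : 0 < q) (hqb : q ≤ (62761901 / 10000000 : ℝ))
    (hpq : 1 < p * q) : NoSol 9 p q :=
  noSol_rect (n := 9) (by norm_num) (N := 9) (a := (427349 / 500000 : ℝ)) (b := (99967 / 125000 : ℝ))
    (τ := (583609 / 10000000 : ℝ)) (A5 := (508333 / 1000000 : ℝ)) (A6 := (607863 / 1000000 : ℝ))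
    (A9 := (13991 / 15625 : ℝ)) (A10 := (568391 / 1000000 : ℝ)) (s := (803 / 20000 : ℝ)) (e := (1 / 10000000 : ℝ))
    (pb := (44591 / 80000 : ℝ)) (qb := (62761901 / 10000000 : ℝ)) (by norm_num)
    (by norm_num) (by norm_num) (by norm_num) (by norm_num) (by norm_num) (by norm_num) (by norm_num)
    (by norm_num) (by norm_num)
    (by norm_num) (by norm_num) (by norm_num) (by norm_num) (by norm_num)
    rfl rfl rfl rfl rfl rfl (by norm_num) (by norm_num) (by norm_num) hp hpb hq hqb hpq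

theorem rowL9_12 {p q : ℝ} (hp : 0 < p) (hpb : p ≤ (1404017 / 2500000 : ℝ)) (hq : 0 < q) (hqb : q ≤ (61900729 / 10000000 : ℝ))
    (hpq : 1 < p * q) : NoSol 9 p q :=
  noSol_rect (n := 9) (by norm_num) (N := 9) (a := (424943 / 500000 : ℝ)) (b := (399881 / 500000 : ℝ))
    (τ := (595509 / 10000000 : ℝ)) (A5 := (509413 / 1000000 : ℝ)) (A6 := (303427 / 500000 : ℝ))
    (A9 := (895093 / 1000000 : ℝ)) (A10 := (282273 / 500000 : ℝ)) (s := (4041 / 100000 : ℝ)) (e := (1 / 10000000 : ℝ))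
    (pb := (1404017 / 2500000 : ℝ)) (qb := (61900729 / 10000000 : ℝ)) (by norm_num)
    (by norm_num) (by norm_num) (by norm_num) (by norm_num) (by norm_num) (by norm_num) (by norm_num)
    (by norm_num) (by norm_num)
    (by norm_num) (by norm_num) (by norm_num) (by norm_num) (by norm_num)
    rfl rfl rfl rfl rfl rfl (by norm_num) (by norm_num) (by norm_num) hp hpb hq hqb hpq

theorem rowL9_13 {p q : ℝ} (hp : 0 < p) (hpb : p ≤ (5660413 / 10000000 : ℝ)) (hq : 0 < q) (hqb : q ≤ (61014891 / 10000000 : ℝ))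
    (hpq : 1 < p * q) : NoSol 9 p q :=
  noSol_rect (n := 9) (by norm_num) (N := 9) (a := (168263 / 200000 : ℝ)) (b := (803581 / 1000000 : ℝ))
    (τ := (602717 / 10000000 : ℝ)) (A5 := (51343 / 100000 : ℝ)) (A6 := (301321 / 500000 : ℝ))
    (A9 := (901121 / 1000000 : ℝ)) (A10 := (34883 / 62500 : ℝ)) (s := (3971 / 100000 : ℝ)) (e := (1 / 10000000 : ℝ))
    (pb := (5660413 / 10000000 : ℝ)) (qb := (61014891 / 10000000 : ℝ)) (by norm_num)
    (by norm_num) (by norm_num) (by norm_num) (by norm_num) (by norm_num) (by norm_num) (by norm_num)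
    (by norm_num) (by norm_num)
    (by norm_num) (by norm_num) (by norm_num) (by norm_num) (by norm_num)
    rfl rfl rfl rfl rfl rfl (by norm_num) (by norm_num) (by norm_num) hp hpb hq hqb hpq

theorem rowL9_14 {p q : ℝ} (hp : 0 < p) (hpb : p ≤ (285263 / 500000 : ℝ)) (hq : 0 < q) (hqb : q ≤ (60112049 / 10000000 : ℝ))
    (hpq : 1 < p * q) : NoSol 9 p q :=
  noSol_rect (n := 9) (by norm_num) (N := 9) (a := (4109 / 5000 : ℝ)) (b := (405949 / 500000 : ℝ))
    (τ := (19877 / 312500 : ℝ)) (A5 := (61171 / 125000 : ℝ)) (A6 := (125531 / 200000 : ℝ))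
    (A9 := (3553 / 4000 : ℝ)) (A10 := (5489 / 10000 : ℝ)) (s := (3917 / 100000 : ℝ)) (e := (1 / 10000000 : ℝ))
    (pb := (285263 / 500000 : ℝ)) (qb := (60112049 / 10000000 : ℝ)) (by norm_num)
    (by norm_num) (by norm_num) (by norm_num) (by norm_num) (by norm_num) (by norm_num) (by norm_num)
    (by norm_num) (by norm_num)
    (by norm_num) (by norm_num) (by norm_num) (by norm_num) (by norm_num)
    rfl rfl rfl rfl rfl rfl (by norm_num) (by norm_num) (by norm_num) hp hpb hq hqb hpq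

theorem rowL9_15 {p q : ℝ} (hp : 0 < p) (hpb : p ≤ (5752691 / 10000000 : ℝ)) (hq : 0 < q) (hqb : q ≤ (14806757 / 2500000 : ℝ))
    (hpq : 1 < p * q) : NoSol 9 p q :=
  noSol_rect (n := 9) (by norm_num) (N := 9) (a := (51593 / 62500 : ℝ)) (b := (809491 / 1000000 : ℝ))
    (τ := (40673 / 625000 : ℝ)) (A5 := (245929 / 500000 : ℝ)) (A6 := (625033 / 1000000 : ℝ))
    (A9 := (886481 / 1000000 : ℝ)) (A10 := (546919 / 1000000 : ℝ)) (s := (791 / 20000 : ℝ)) (e := (1 / 10000000 : ℝ))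
    (pb := (5752691 / 10000000 : ℝ)) (qb := (14806757 / 2500000 : ℝ)) (by norm_num)
    (by norm_num) (by norm_num) (by norm_num) (by norm_num) (by norm_num) (by norm_num) (by norm_num)
    (by norm_num) (by norm_num)
    (by norm_num) (by norm_num) (by norm_num) (by norm_num) (by norm_num)
    rfl rfl rfl rfl rfl rfl (by norm_num) (by norm_num) (by norm_num) hp hpb hq hqb hpq

theorem rowL9_16 {p q : ℝ} (hp : 0 < p) (hpb : p ≤ (5802399 / 10000000 : ℝ)) (hq : 0 < q) (hqb : q ≤ (29160139 / 5000000 : ℝ))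
    (hpq : 1 < p * q) : NoSol 9 p q :=
  noSol_rect (n := 9) (by norm_num) (N := 9) (a := (820433 / 1000000 : ℝ)) (b := (162071 / 200000 : ℝ))
    (τ := (166531 / 2500000 : ℝ)) (A5 := (494971 / 1000000 : ℝ)) (A6 := (621491 / 1000000 : ℝ))
    (A9 := (884823 / 1000000 : ℝ)) (A10 := (545329 / 1000000 : ℝ)) (s := (1981 / 50000 : ℝ)) (e := (1 / 10000000 : ℝ))
    (pb := (5802399 / 10000000 : ℝ)) (qb := (29160139 / 5000000 : ℝ)) (by norm_num)
    (by norm_num) (by norm_num) (by norm_num) (by norm_num) (by norm_num) (by norm_num) (by norm_num)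
    (by norm_num) (by norm_num)
    (by norm_num) (by norm_num) (by norm_num) (by norm_num) (by norm_num)
    rfl rfl rfl rfl rfl rfl (by norm_num) (by norm_num) (by norm_num) hp hpb hq hqb hpq

theorem rowL9_17 {p q : ℝ} (hp : 0 < p) (hpb : p ≤ (1463751 / 2500000 : ℝ)) (hq : 0 < q) (hqb : q ≤ (28700377 / 5000000 : ℝ))
    (hpq : 1 < p * q) : NoSol 9 p q :=
  noSol_rect (n := 9) (by norm_num) (N := 9) (a := (833513 / 1000000 : ℝ)) (b := (806757 / 1000000 : ℝ))
    (τ := (688749 / 10000000 : ℝ)) (A5 := (12411 / 25000 : ℝ)) (A6 := (4961 / 8000 : ℝ))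
    (A9 := (875873 / 1000000 : ℝ)) (A10 := (273583 / 500000 : ℝ)) (s := (1979 / 50000 : ℝ)) (e := (1 / 10000000 : ℝ))
    (pb := (1463751 / 2500000 : ℝ)) (qb := (28700377 / 5000000 : ℝ)) (by norm_num)
    (by norm_num) (by norm_num) (by norm_num) (by norm_num) (by norm_num) (by norm_num) (by norm_num)
    (by norm_num) (by norm_num)
    (by norm_num) (by norm_num) (by norm_num) (by norm_num) (by norm_num)
    rfl rfl rfl rfl rfl rfl (by norm_num) (by norm_num) (by norm_num) hp hpb hq hqb hpq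

theorem rowL9_18 {p q : ℝ} (hp : 0 < p) (hpb : p ≤ (1181849 / 2000000 : ℝ)) (hq : 0 < q) (hqb : q ≤ (28230121 / 5000000 : ℝ))
    (hpq : 1 < p * q) : NoSol 9 p q :=
  noSol_rect (n := 9) (by norm_num) (N := 9) (a := (422693 / 500000 : ℝ)) (b := (801763 / 1000000 : ℝ))
    (τ := (356259 / 5000000 : ℝ)) (A5 := (123819 / 250000 : ℝ)) (A6 := (310547 / 500000 : ℝ))
    (A9 := (869199 / 1000000 : ℝ)) (A10 := (546411 / 1000000 : ℝ)) (s := (503 / 12500 : ℝ)) (e := (1 / 10000000 : ℝ))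
    (pb := (1181849 / 2000000 : ℝ)) (qb := (28230121 / 5000000 : ℝ)) (by norm_num)
    (by norm_num) (by norm_num) (by norm_num) (by norm_num) (by norm_num) (by norm_num) (by norm_num)
    (by norm_num) (by norm_num)
    (by norm_num) (by norm_num) (by norm_num) (by norm_num) (by norm_num)
    rfl rfl rfl rfl rfl rfl (by norm_num) (by norm_num) (by norm_num) hp hpb hq hqb hpq

theorem rowL9_19 {p q : ℝ} (hp : 0 < p) (hpb : p ≤ (2982007 / 5000000 : ℝ)) (hq : 0 < q) (hqb : q ≤ (27761909 / 5000000 : ℝ))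
    (hpq : 1 < p * q) : NoSol 9 p q :=
  noSol_rect (n := 9) (by norm_num) (N := 9) (a := (845339 / 1000000 : ℝ)) (b := (803159 / 1000000 : ℝ))
    (τ := (177947 / 2500000 : ℝ)) (A5 := (506821 / 1000000 : ℝ)) (A6 := (608769 / 1000000 : ℝ))
    (A9 := (176801 / 200000 : ℝ)) (A10 := (537109 / 1000000 : ℝ)) (s := (1983 / 50000 : ℝ)) (e := (1 / 10000000 : ℝ))
    (pb := (2982007 / 5000000 : ℝ)) (qb := (27761909 / 5000000 : ℝ)) (by norm_num)
    (by norm_num) (by norm_num) (by norm_num) (by norm_num) (by norm_num) (by norm_num) (by norm_num)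
    (by norm_num) (by norm_num)
    (by norm_num) (by norm_num) (by norm_num) (by norm_num) (by norm_num)
    rfl rfl rfl rfl rfl rfl (by norm_num) (by norm_num) (by norm_num) hp hpb hq hqb hpq

theorem rowL9_20 {p q : ℝ} (hp : 0 < p) (hpb : p ≤ (6020393 / 10000000 : ℝ)) (hq : 0 < q) (hqb : q ≤ (27305433 / 5000000 : ℝ))
    (hpq : 1 < p * q) : NoSol 9 p q :=
  noSol_rect (n := 9) (by norm_num) (N := 9) (a := (429257 / 500000 : ℝ)) (b := (32057 / 40000 : ℝ))
    (τ := (92563 / 1250000 : ℝ)) (A5 := (1572 / 3125 : ℝ)) (A6 := (152931 / 250000 : ℝ))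
    (A9 := (875099 / 1000000 : ℝ)) (A10 := (268827 / 500000 : ℝ)) (s := (3927 / 100000 : ℝ)) (e := (1 / 10000000 : ℝ))
    (pb := (6020393 / 10000000 : ℝ)) (qb := (27305433 / 5000000 : ℝ)) (by norm_num)
    (by norm_num) (by norm_num) (by norm_num) (by norm_num) (by norm_num) (by norm_num) (by norm_num)
    (by norm_num) (by norm_num)
    (by norm_num) (by norm_num) (by norm_num) (by norm_num) (by norm_num)
    rfl rfl rfl rfl rfl rfl (by norm_num) (by norm_num) (by norm_num) hp hpb hq hqb hpq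

theorem rowL9_21 {p q : ℝ} (hp : 0 < p) (hpb : p ≤ (6077233 / 10000000 : ℝ)) (hq : 0 < q) (hqb : q ≤ (13425881 / 2500000 : ℝ))
    (hpq : 1 < p * q) : NoSol 9 p q :=
  noSol_rect (n := 9) (by norm_num) (N := 9) (a := (13357 / 15625 : ℝ)) (b := (803399 / 1000000 : ℝ))
    (τ := (753417 / 10000000 : ℝ)) (A5 := (508471 / 1000000 : ℝ)) (A6 := (302997 / 500000 : ℝ))
    (A9 := (439047 / 500000 : ℝ)) (A10 := (533097 / 1000000 : ℝ)) (s := (97 / 2500 : ℝ)) (e := (1 / 10000000 : ℝ))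
    (pb := (6077233 / 10000000 : ℝ)) (qb := (13425881 / 2500000 : ℝ)) (by norm_num)
    (by norm_num) (by norm_num) (by norm_num) (by norm_num) (by norm_num) (by norm_num) (by norm_num)
    (by norm_num) (by norm_num)
    (by norm_num) (by norm_num) (by norm_num) (by norm_num) (by norm_num)
    rfl rfl rfl rfl rfl rfl (by norm_num) (by norm_num) (by norm_num) hp hpb hq hqb hpq

theorem rowL9_22 {p q : ℝ} (hp : 0 < p) (hpb : p ≤ (3067743 / 5000000 : ℝ)) (hq : 0 < q) (hqb : q ≤ (6602547 / 1250000 : ℝ))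
    (hpq : 1 < p * q) : NoSol 9 p q :=
  noSol_rect (n := 9) (by norm_num) (N := 9) (a := (854673 / 1000000 : ℝ)) (b := (800409 / 1000000 : ℝ))
    (τ := (96571 / 1250000 : ℝ)) (A5 := (514689 / 1000000 : ℝ)) (A6 := (119931 / 200000 : ℝ))
    (A9 := (436843 / 500000 : ℝ)) (A10 := (266939 / 500000 : ℝ)) (s := (3957 / 100000 : ℝ)) (e := (1 / 10000000 : ℝ))
    (pb := (3067743 / 5000000 : ℝ)) (qb := (6602547 / 1250000 : ℝ)) (by norm_num)
    (by norm_num) (by norm_num) (by norm_num) (by norm_num) (by norm_num) (by norm_num) (by norm_num)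
    (by norm_num) (by norm_num)
    (by norm_num) (by norm_num) (by norm_num) (by norm_num) (by norm_num)
    rfl rfl rfl rfl rfl rfl (by norm_num) (by norm_num) (by norm_num) hp hpb hq hqb hpq

theorem rowL9_23 {p q : ℝ} (hp : 0 < p) (hpb : p ≤ (247789 / 400000 : ℝ)) (hq : 0 < q) (hqb : q ≤ (10389303 / 2000000 : ℝ))
    (hpq : 1 < p * q) : NoSol 9 p q :=
  noSol_rect (n := 9) (by norm_num) (N := 9) (a := (52589 / 62500 : ℝ)) (b := (201431 / 250000 : ℝ))
    (τ := (792561 / 10000000 : ℝ)) (A5 := (522927 / 1000000 : ℝ)) (A6 := (591283 / 1000000 : ℝ))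
    (A9 := (867469 / 1000000 : ℝ)) (A10 := (268389 / 500000 : ℝ)) (s := (3849 / 100000 : ℝ)) (e := (1 / 10000000 : ℝ))
    (pb := (247789 / 400000 : ℝ)) (qb := (10389303 / 2000000 : ℝ)) (by norm_num)
    (by norm_num) (by norm_num) (by norm_num) (by norm_num) (by norm_num) (by norm_num) (by norm_num)
    (by norm_num) (by norm_num)
    (by norm_num) (by norm_num) (by norm_num) (by norm_num) (by norm_num)
    rfl rfl rfl rfl rfl rfl (by norm_num) (by norm_num) (by norm_num) hp hpb hq hqb hpq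

theorem rowL9_24 {p q : ℝ} (hp : 0 < p) (hpb : p ≤ (6260447 / 10000000 : ℝ)) (hq : 0 < q) (hqb : q ≤ (51088629 / 10000000 : ℝ))
    (hpq : 1 < p * q) : NoSol 9 p q :=
  noSol_rect (n := 9) (by norm_num) (N := 9) (a := (101281 / 125000 : ℝ)) (b := (813569 / 1000000 : ℝ))
    (τ := (424321 / 5000000 : ℝ)) (A5 := (252673 / 500000 : ℝ)) (A6 := (38113 / 62500 : ℝ))
    (A9 := (845243 / 1000000 : ℝ)) (A10 := (539479 / 1000000 : ℝ)) (s := (49 / 1250 : ℝ)) (e := (1 / 10000000 : ℝ))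
    (pb := (6260447 / 10000000 : ℝ)) (qb := (51088629 / 10000000 : ℝ)) (by norm_num)
    (by norm_num) (by norm_num) (by norm_num) (by norm_num) (by norm_num) (by norm_num) (by norm_num)
    (by norm_num) (by norm_num)
    (by norm_num) (by norm_num) (by norm_num) (by norm_num) (by norm_num)
    rfl rfl rfl rfl rfl rfl (by norm_num) (by norm_num) (by norm_num) hp hpb hq hqb hpq

theorem rowL9_25 {p q : ℝ} (hp : 0 < p) (hpb : p ≤ (1265833 / 2000000 : ℝ)) (hq : 0 < q) (hqb : q ≤ (50171239 / 10000000 : ℝ))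
    (hpq : 1 < p * q) : NoSol 9 p q :=
  noSol_rect (n := 9) (by norm_num) (N := 9) (a := (50709 / 62500 : ℝ)) (b := (202657 / 250000 : ℝ))
    (τ := (895583 / 10000000 : ℝ)) (A5 := (31371 / 62500 : ℝ)) (A6 := (613189 / 1000000 : ℝ))
    (A9 := (165407 / 200000 : ℝ)) (A10 := (546201 / 1000000 : ℝ)) (s := (1001 / 25000 : ℝ)) (e := (1 / 10000000 : ℝ))
    (pb := (1265833 / 2000000 : ℝ)) (qb := (50171239 / 10000000 : ℝ)) (by norm_num)
    (by norm_num) (by norm_num) (by norm_num) (by norm_num) (by norm_num) (by norm_num) (by norm_num)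
    (by norm_num) (by norm_num)
    (by norm_num) (by norm_num) (by norm_num) (by norm_num) (by norm_num)
    rfl rfl rfl rfl rfl rfl (by norm_num) (by norm_num) (by norm_num) hp hpb hq hqb hpq

theorem rowL9_26 {p q : ℝ} (hp : 0 < p) (hpb : p ≤ (6398241 / 10000000 : ℝ)) (hq : 0 < q) (hqb : q ≤ (49248581 / 10000000 : ℝ))
    (hpq : 1 < p * q) : NoSol 9 p q :=
  noSol_rect (n := 9) (by norm_num) (N := 9) (a := (406727 / 500000 : ℝ)) (b := (202659 / 250000 : ℝ))
    (τ := (187763 / 2000000 : ℝ)) (A5 := (30819 / 62500 : ℝ)) (A6 := (9726 / 15625 : ℝ))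
    (A9 := (409261 / 500000 : ℝ)) (A10 := (67887 / 125000 : ℝ)) (s := (2007 / 50000 : ℝ)) (e := (1 / 10000000 : ℝ))
    (pb := (6398241 / 10000000 : ℝ)) (qb := (49248581 / 10000000 : ℝ)) (by norm_num)
    (by norm_num) (by norm_num) (by norm_num) (by norm_num) (by norm_num) (by norm_num) (by norm_num)
    (by norm_num) (by norm_num)
    (by norm_num) (by norm_num) (by norm_num) (by norm_num) (by norm_num)
    rfl rfl rfl rfl rfl rfl (by norm_num) (by norm_num) (by norm_num) hp hpb hq hqb hpq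

theorem rowL9_27 {p q : ℝ} (hp : 0 < p) (hpb : p ≤ (6468729 / 10000000 : ℝ)) (hq : 0 < q) (hqb : q ≤ (12089161 / 2500000 : ℝ))
    (hpq : 1 < p * q) : NoSol 9 p q :=
  noSol_rect (n := 9) (by norm_num) (N := 9) (a := (197549 / 250000 : ℝ)) (b := (41073 / 50000 : ℝ))
    (τ := (962333 / 10000000 : ℝ)) (A5 := (3121 / 6250 : ℝ)) (A6 := (122749 / 200000 : ℝ))
    (A9 := (409429 / 500000 : ℝ)) (A10 := (271727 / 500000 : ℝ)) (s := (3941 / 100000 : ℝ)) (e := (1 / 10000000 : ℝ))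
    (pb := (6468729 / 10000000 : ℝ)) (qb := (12089161 / 2500000 : ℝ)) (by norm_num)
    (by norm_num) (by norm_num) (by norm_num) (by norm_num) (by norm_num) (by norm_num) (by norm_num)
    (by norm_num) (by norm_num)
    (by norm_num) (by norm_num) (by norm_num) (by norm_num) (by norm_num)
    rfl rfl rfl rfl rfl rfl (by norm_num) (by norm_num) (by norm_num) hp hpb hq hqb hpq

theorem rowL9_28 {p q : ℝ} (hp : 0 < p) (hpb : p ≤ (130847 / 200000 : ℝ)) (hq : 0 < q) (hqb : q ≤ (47481109 / 10000000 : ℝ))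
    (hpq : 1 < p * q) : NoSol 9 p q :=
  noSol_rect (n := 9) (by norm_num) (N := 9) (a := (796169 / 1000000 : ℝ)) (b := (816057 / 1000000 : ℝ))
    (τ := (995981 / 10000000 : ℝ)) (A5 := (505987 / 1000000 : ℝ)) (A6 := (24307 / 40000 : ℝ))
    (A9 := (809187 / 1000000 : ℝ)) (A10 := (547379 / 1000000 : ℝ)) (s := (1999 / 50000 : ℝ)) (e := (1 / 10000000 : ℝ))
    (pb := (130847 / 200000 : ℝ)) (qb := (47481109 / 10000000 : ℝ)) (by norm_num)
    (by norm_num) (by norm_num) (by norm_num) (by norm_num) (by norm_num) (by norm_num) (by norm_num)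
    (by norm_num) (by norm_num)
    (by norm_num) (by norm_num) (by norm_num) (by norm_num) (by norm_num)
    rfl rfl rfl rfl rfl rfl (by norm_num) (by norm_num) (by norm_num) hp hpb hq hqb hpq

theorem rowL9_29 {p q : ℝ} (hp : 0 < p) (hpb : p ≤ (1322509 / 2000000 : ℝ)) (hq : 0 < q) (hqb : q ≤ (11650471 / 2500000 : ℝ))
    (hpq : 1 < p * q) : NoSol 9 p q :=
  noSol_rect (n := 9) (by norm_num) (N := 9) (a := (394051 / 500000 : ℝ)) (b := (81857 / 100000 : ℝ))
    (τ := (103341 / 1000000 : ℝ)) (A5 := (520947 / 1000000 : ℝ)) (A6 := (73981 / 125000 : ℝ))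
    (A9 := (790949 / 1000000 : ℝ)) (A10 := (280973 / 500000 : ℝ)) (s := (1977 / 50000 : ℝ)) (e := (1 / 10000000 : ℝ))
    (pb := (1322509 / 2000000 : ℝ)) (qb := (11650471 / 2500000 : ℝ)) (by norm_num)
    (by norm_num) (by norm_num) (by norm_num) (by norm_num) (by norm_num) (by norm_num) (by norm_num)
    (by norm_num) (by norm_num)
    (by norm_num) (by norm_num) (by norm_num) (by norm_num) (by norm_num)
    rfl rfl rfl rfl rfl rfl (by norm_num) (by norm_num) (by norm_num) hp hpb hq hqb hpq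

theorem rowL9_30 {p q : ℝ} (hp : 0 < p) (hpb : p ≤ (1671847 / 2500000 : ℝ)) (hq : 0 < q) (hqb : q ≤ (9159041 / 2000000 : ℝ))
    (hpq : 1 < p * q) : NoSol 9 p q :=
  noSol_rect (n := 9) (by norm_num) (N := 9) (a := (792321 / 1000000 : ℝ)) (b := (409581 / 500000 : ℝ))
    (τ := (530241 / 5000000 : ℝ)) (A5 := (517309 / 1000000 : ℝ)) (A6 := (596221 / 1000000 : ℝ))
    (A9 := (795627 / 1000000 : ℝ)) (A10 := (275817 / 500000 : ℝ)) (s := (1953 / 50000 : ℝ)) (e := (1 / 10000000 : ℝ))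
    (pb := (1671847 / 2500000 : ℝ)) (qb := (9159041 / 2000000 : ℝ)) (by norm_num)
    (by norm_num) (by norm_num) (by norm_num) (by norm_num) (by norm_num) (by norm_num) (by norm_num)
    (by norm_num) (by norm_num)
    (by norm_num) (by norm_num) (by norm_num) (by norm_num) (by norm_num)
    rfl rfl rfl rfl rfl rfl (by norm_num) (by norm_num) (by norm_num) hp hpb hq hqb hpq

theorem rowL9_31 {p q : ℝ} (hp : 0 < p) (hpb : p ≤ (3381307 / 5000000 : ℝ)) (hq : 0 < q) (hqb : q ≤ (44967211 / 10000000 : ℝ))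
    (hpq : 1 < p * q) : NoSol 9 p q :=
  noSol_rect (n := 9) (by norm_num) (N := 9) (a := (786887 / 1000000 : ℝ)) (b := (205017 / 250000 : ℝ))
    (τ := (1077217 / 10000000 : ℝ)) (A5 := (6491 / 12500 : ℝ)) (A6 := (593231 / 1000000 : ℝ))
    (A9 := (402663 / 500000 : ℝ)) (A10 := (67683 / 125000 : ℝ)) (s := (3953 / 100000 : ℝ)) (e := (1 / 10000000 : ℝ))
    (pb := (3381307 / 5000000 : ℝ)) (qb := (44967211 / 10000000 : ℝ)) (by norm_num)
    (by norm_num) (by norm_num) (by norm_num) (by norm_num) (by norm_num) (by norm_num) (by norm_num)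
    (by norm_num) (by norm_num)
    (by norm_num) (by norm_num) (by norm_num) (by norm_num) (by norm_num)
    rfl rfl rfl rfl rfl rfl (by norm_num) (by norm_num) (by norm_num) hp hpb hq hqb hpq

theorem rowL9_32 {p q : ℝ} (hp : 0 < p) (hpb : p ≤ (6841013 / 10000000 : ℝ)) (hq : 0 < q) (hqb : q ≤ (22083253 / 5000000 : ℝ))
    (hpq : 1 < p * q) : NoSol 9 p q :=
  noSol_rect (n := 9) (by norm_num) (N := 9) (a := (49227 / 62500 : ℝ)) (b := (821627 / 1000000 : ℝ))
    (τ := (1125981 / 10000000 : ℝ)) (A5 := (64151 / 125000 : ℝ)) (A6 := (119943 / 200000 : ℝ))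
    (A9 := (399019 / 500000 : ℝ)) (A10 := (134911 / 250000 : ℝ)) (s := (3933 / 100000 : ℝ)) (e := (1 / 10000000 : ℝ))
    (pb := (6841013 / 10000000 : ℝ)) (qb := (22083253 / 5000000 : ℝ)) (by norm_num)
    (by norm_num) (by norm_num) (by norm_num) (by norm_num) (by norm_num) (by norm_num) (by norm_num)
    (by norm_num) (by norm_num)
    (by norm_num) (by norm_num) (by norm_num) (by norm_num) (by norm_num)
    rfl rfl rfl rfl rfl rfl (by norm_num) (by norm_num) (by norm_num) hp hpb hq hqb hpq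

theorem rowL9_33 {p q : ℝ} (hp : 0 < p) (hpb : p ≤ (6922193 / 10000000 : ℝ)) (hq : 0 < q) (hqb : q ≤ (43363761 / 10000000 : ℝ))
    (hpq : 1 < p * q) : NoSol 9 p q :=
  noSol_rect (n := 9) (by norm_num) (N := 9) (a := (795399 / 1000000 : ℝ)) (b := (408789 / 500000 : ℝ))
    (τ := (589579 / 5000000 : ℝ)) (A5 := (102257 / 200000 : ℝ)) (A6 := (301269 / 500000 : ℝ))
    (A9 := (78629 / 100000 : ℝ)) (A10 := (542041 / 1000000 : ℝ)) (s := (1981 / 50000 : ℝ)) (e := (1 / 10000000 : ℝ))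
    (pb := (6922193 / 10000000 : ℝ)) (qb := (43363761 / 10000000 : ℝ)) (by norm_num)
    (by norm_num) (by norm_num) (by norm_num) (by norm_num) (by norm_num) (by norm_num) (by norm_num)
    (by norm_num) (by norm_num)
    (by norm_num) (by norm_num) (by norm_num) (by norm_num) (by norm_num)
    rfl rfl rfl rfl rfl rfl (by norm_num) (by norm_num) (by norm_num) hp hpb hq hqb hpq

theorem rowL9_34 {p q : ℝ} (hp : 0 < p) (hpb : p ≤ (3503047 / 5000000 : ℝ)) (hq : 0 < q) (hqb : q ≤ (5320591 / 1250000 : ℝ))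
    (hpq : 1 < p * q) : NoSol 9 p q :=
  noSol_rect (n := 9) (by norm_num) (N := 9) (a := (407651 / 500000 : ℝ)) (b := (805999 / 1000000 : ℝ))
    (τ := (1241141 / 10000000 : ℝ)) (A5 := (508227 / 1000000 : ℝ)) (A6 := (303219 / 500000 : ℝ))
    (A9 := (772237 / 1000000 : ℝ)) (A10 := (546137 / 1000000 : ℝ)) (s := (4089 / 100000 : ℝ)) (e := (1 / 10000000 : ℝ))
    (pb := (3503047 / 5000000 : ℝ)) (qb := (5320591 / 1250000 : ℝ)) (by norm_num)
    (by norm_num) (by norm_num) (by norm_num) (by norm_num) (by norm_num) (by norm_num) (by norm_num)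
    (by norm_num) (by norm_num)
    (by norm_num) (by norm_num) (by norm_num) (by norm_num) (by norm_num)
    rfl rfl rfl rfl rfl rfl (by norm_num) (by norm_num) (by norm_num) hp hpb hq hqb hpq

theorem rowL9_35 {p q : ℝ} (hp : 0 < p) (hpb : p ≤ (1418063 / 2000000 : ℝ)) (hq : 0 < q) (hqb : q ≤ (10442833 / 2500000 : ℝ))
    (hpq : 1 < p * q) : NoSol 9 p q :=
  noSol_rect (n := 9) (by norm_num) (N := 9) (a := (406377 / 500000 : ℝ)) (b := (202137 / 250000 : ℝ))
    (τ := (1264113 / 10000000 : ℝ)) (A5 := (101923 / 200000 : ℝ)) (A6 := (302489 / 500000 : ℝ))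
    (A9 := (780537 / 1000000 : ℝ)) (A10 := (133867 / 250000 : ℝ)) (s := (81 / 2000 : ℝ)) (e := (1 / 10000000 : ℝ))
    (pb := (1418063 / 2000000 : ℝ)) (qb := (10442833 / 2500000 : ℝ)) (by norm_num)
    (by norm_num) (by norm_num) (by norm_num) (by norm_num) (by norm_num) (by norm_num) (by norm_num)
    (by norm_num) (by norm_num)
    (by norm_num) (by norm_num) (by norm_num) (by norm_num) (by norm_num)
    rfl rfl rfl rfl rfl rfl (by norm_num) (by norm_num) (by norm_num) hp hpb hq hqb hpq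

theorem rowL9_36 {p q : ℝ} (hp : 0 < p) (hpb : p ≤ (7176309 / 10000000 : ℝ)) (hq : 0 < q) (hqb : q ≤ (2562883 / 625000 : ℝ))
    (hpq : 1 < p * q) : NoSol 9 p q :=
  noSol_rect (n := 9) (by norm_num) (N := 9) (a := (161871 / 200000 : ℝ)) (b := (40483 / 50000 : ℝ))
    (τ := (1319961 / 10000000 : ℝ)) (A5 := (507871 / 1000000 : ℝ)) (A6 := (606709 / 1000000 : ℝ))
    (A9 := (193051 / 250000 : ℝ)) (A10 := (6711 / 12500 : ℝ)) (s := (127 / 3125 : ℝ)) (e := (1 / 10000000 : ℝ))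
    (pb := (7176309 / 10000000 : ℝ)) (qb := (2562883 / 625000 : ℝ)) (by norm_num)
    (by norm_num) (by norm_num) (by norm_num) (by norm_num) (by norm_num) (by norm_num) (by norm_num)
    (by norm_num) (by norm_num)
    (by norm_num) (by norm_num) (by norm_num) (by norm_num) (by norm_num)
    rfl rfl rfl rfl rfl rfl (by norm_num) (by norm_num) (by norm_num) hp hpb hq hqb hpq

theorem rowL9_37 {p q : ℝ} (hp : 0 < p) (hpb : p ≤ (3632059 / 5000000 : ℝ)) (hq : 0 < q) (hqb : q ≤ (40255211 / 10000000 : ℝ))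
    (hpq : 1 < p * q) : NoSol 9 p q :=
  noSol_rect (n := 9) (by norm_num) (N := 9) (a := (161637 / 200000 : ℝ)) (b := (404623 / 500000 : ℝ))
    (τ := (8659 / 62500 : ℝ)) (A5 := (252117 / 500000 : ℝ)) (A6 := (610409 / 1000000 : ℝ))
    (A9 := (761729 / 1000000 : ℝ)) (A10 := (269757 / 500000 : ℝ)) (s := (411 / 10000 : ℝ)) (e := (1 / 10000000 : ℝ))
    (pb := (3632059 / 5000000 : ℝ)) (qb := (40255211 / 10000000 : ℝ)) (by norm_num)
    (by norm_num) (by norm_num) (by norm_num) (by norm_num) (by norm_num) (by norm_num) (by norm_num)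
    (by norm_num) (by norm_num)
    (by norm_num) (by norm_num) (by norm_num) (by norm_num) (by norm_num)
    rfl rfl rfl rfl rfl rfl (by norm_num) (by norm_num) (by norm_num) hp hpb hq hqb hpq

theorem rowL9_38 {p q : ℝ} (hp : 0 < p) (hpb : p ≤ (3676237 / 5000000 : ℝ)) (hq : 0 < q) (hqb : q ≤ (19759153 / 5000000 : ℝ))
    (hpq : 1 < p * q) : NoSol 9 p q :=
  noSol_rect (n := 9) (by norm_num) (N := 9) (a := (830011 / 1000000 : ℝ)) (b := (399787 / 500000 : ℝ))
    (τ := (1424027 / 10000000 : ℝ)) (A5 := (255881 / 500000 : ℝ)) (A6 := (602373 / 1000000 : ℝ))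
    (A9 := (23689 / 31250 : ℝ)) (A10 := (108163 / 200000 : ℝ)) (s := (207 / 5000 : ℝ)) (e := (1 / 10000000 : ℝ))
    (pb := (3676237 / 5000000 : ℝ)) (qb := (19759153 / 5000000 : ℝ)) (by norm_num)
    (by norm_num) (by norm_num) (by norm_num) (by norm_num) (by norm_num) (by norm_num) (by norm_num)
    (by norm_num) (by norm_num)
    (by norm_num) (by norm_num) (by norm_num) (by norm_num) (by norm_num)
    rfl rfl rfl rfl rfl rfl (by norm_num) (by norm_num) (by norm_num) hp hpb hq hqb hpq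

theorem rowL9_39 {p q : ℝ} (hp : 0 < p) (hpb : p ≤ (7441273 / 10000000 : ℝ)) (hq : 0 < q) (hqb : q ≤ (38805511 / 10000000 : ℝ))
    (hpq : 1 < p * q) : NoSol 9 p q :=
  noSol_rect (n := 9) (by norm_num) (N := 9) (a := (105399 / 125000 : ℝ)) (b := (794203 / 1000000 : ℝ))
    (τ := (73453 / 500000 : ℝ)) (A5 := (256937 / 500000 : ℝ)) (A6 := (59953 / 100000 : ℝ))
    (A9 := (188999 / 250000 : ℝ)) (A10 := (269837 / 500000 : ℝ)) (s := (2091 / 50000 : ℝ)) (e := (1 / 10000000 : ℝ))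
    (pb := (7441273 / 10000000 : ℝ)) (qb := (38805511 / 10000000 : ℝ)) (by norm_num)
    (by norm_num) (by norm_num) (by norm_num) (by norm_num) (by norm_num) (by norm_num) (by norm_num)
    (by norm_num) (by norm_num)
    (by norm_num) (by norm_num) (by norm_num) (by norm_num) (by norm_num)
    rfl rfl rfl rfl rfl rfl (by norm_num) (by norm_num) (by norm_num) hp hpb hq hqb hpq

end Vale.Agent.Lib.P100
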