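import Vale.Agent.Lib.P100.Cover

/-!
Rational certificates, dimension 9.
-/

namespace Vale.Agent.Lib.P100

theorem rowL9_40 {p q : ℝ} (hp : 0 < p) (hpb : p ≤ (1506409 / 2000000 : ℝ)) (hq : 0 < q) (hqb : q ≤ (9529123 / 2500000 : ℝ))
    (hpq : 1 < p * q) : NoSol 9 p q :=
  noSol_rect (n := 9) (by norm_num) (N := 9) (a := (847473 / 1000000 : ℝ)) (b := (396099 / 500000 : ℝ))
    (τ := (765659 / 5000000 : ℝ)) (A5 := (508437 / 1000000 : ℝ)) (A6 := (605277 / 1000000 : ℝ))
    (A9 := (375993 / 500000 : ℝ)) (A10 := (107379 / 200000 : ℝ)) (s := (132 / 3125 : ℝ)) (e := (1 / 10000000 : ℝ))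
    (pb := (1506409 / 2000000 : ℝ)) (qb := (9529123 / 2500000 : ℝ)) (by norm_num)
    (by norm_num) (by norm_num) (by norm_num) (by norm_num) (by norm_num) (by norm_num) (by norm_num)
    (by norm_num) (by norm_num)
    (by norm_num) (by norm_num) (by norm_num) (by norm_num) (by norm_num)
    rfl rfl rfl rfl rfl rfl (by norm_num) (by norm_num) (by norm_num) hp hpb hq hqb hpq

theorem rowL9_41 {p q : ℝ} (hp : 0 < p) (hpb : p ≤ (7624009 / 10000000 : ℝ)) (hq : 0 < q) (hqb : q ≤ (18719449 / 5000000 : ℝ))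
    (hpq : 1 < p * q) : NoSol 9 p q :=
  noSol_rect (n := 9) (by norm_num) (N := 9) (a := (170107 / 200000 : ℝ)) (b := (397331 / 500000 : ℝ))
    (τ := (803409 / 5000000 : ℝ)) (A5 := (125857 / 250000 : ℝ)) (A6 := (608197 / 1000000 : ℝ))
    (A9 := (23259 / 31250 : ℝ)) (A10 := (270237 / 500000 : ℝ)) (s := (4241 / 100000 : ℝ)) (e := (1 / 10000000 : ℝ))
    (pb := (7624009 / 10000000 : ℝ)) (qb := (18719449 / 5000000 : ℝ)) (by norm_num)
    (by norm_num) (by norm_num) (by norm_num) (by norm_num) (by norm_num) (by norm_num) (by norm_num)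
    (by norm_num) (by norm_num)
    (by norm_num) (by norm_num) (by norm_num) (by norm_num) (by norm_num)
    rfl rfl rfl rfl rfl rfl (by norm_num) (by norm_num) (by norm_num) hp hpb hq hqb hpq

theorem rowL9_42 {p q : ℝ} (hp : 0 < p) (hpb : p ≤ (1543327 / 2000000 : ℝ)) (hq : 0 < q) (hqb : q ≤ (2298651 / 625000 : ℝ))
    (hpq : 1 < p * q) : NoSol 9 p q :=
  noSol_rect (n := 9) (by norm_num) (N := 9) (a := (106159 / 125000 : ℝ)) (b := (198591 / 250000 : ℝ))
    (τ := (329283 / 2000000 : ℝ)) (A5 := (126987 / 250000 : ℝ)) (A6 := (603739 / 1000000 : ℝ))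
    (A9 := (186153 / 250000 : ℝ)) (A10 := (67167 / 125000 : ℝ)) (s := (4243 / 100000 : ℝ)) (e := (1 / 10000000 : ℝ))
    (pb := (1543327 / 2000000 : ℝ)) (qb := (2298651 / 625000 : ℝ)) (by norm_num)
    (by norm_num) (by norm_num) (by norm_num) (by norm_num) (by norm_num) (by norm_num) (by norm_num)
    (by norm_num) (by norm_num)
    (by norm_num) (by norm_num) (by norm_num) (by norm_num) (by norm_num)
    rfl rfl rfl rfl rfl rfl (by norm_num) (by norm_num) (by norm_num) hp hpb hq hqb hpq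

theorem rowL9_43 {p q : ℝ} (hp : 0 < p) (hpb : p ≤ (7810583 / 10000000 : ℝ)) (hq : 0 < q) (hqb : q ≤ (36138161 / 10000000 : ℝ))
    (hpq : 1 < p * q) : NoSol 9 p q :=
  noSol_rect (n := 9) (by norm_num) (N := 9) (a := (845801 / 1000000 : ℝ)) (b := (39981 / 50000 : ℝ))
    (τ := (343907 / 2000000 : ℝ)) (A5 := (251323 / 500000 : ℝ)) (A6 := (60769 / 100000 : ℝ))
    (A9 := (740117 / 1000000 : ℝ)) (A10 := (134411 / 250000 : ℝ)) (s := (2123 / 50000 : ℝ)) (e := (1 / 10000000 : ℝ))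
    (pb := (7810583 / 10000000 : ℝ)) (qb := (36138161 / 10000000 : ℝ)) (by norm_num)
    (by norm_num) (by norm_num) (by norm_num) (by norm_num) (by norm_num) (by norm_num) (by norm_num)
    (by norm_num) (by norm_num)
    (by norm_num) (by norm_num) (by norm_num) (by norm_num) (by norm_num)
    rfl rfl rfl rfl rfl rfl (by norm_num) (by norm_num) (by norm_num) hp hpb hq hqb hpq

theorem rowL9_44 {p q : ℝ} (hp : 0 < p) (hpb : p ≤ (7906099 / 10000000 : ℝ)) (hq : 0 < q) (hqb : q ≤ (7102591 / 2000000 : ℝ))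
    (hpq : 1 < p * q) : NoSol 9 p q :=
  noSol_rect (n := 9) (by norm_num) (N := 9) (a := (423743 / 500000 : ℝ)) (b := (795037 / 1000000 : ℝ))
    (τ := (1794913 / 10000000 : ℝ)) (A5 := (503 / 1000 : ℝ)) (A6 := (608311 / 1000000 : ℝ))
    (A9 := (729859 / 1000000 : ℝ)) (A10 := (135301 / 250000 : ℝ)) (s := (4321 / 100000 : ℝ)) (e := (1 / 10000000 : ℝ))
    (pb := (7906099 / 10000000 : ℝ)) (qb := (7102591 / 2000000 : ℝ)) (by norm_num)
    (by norm_num) (by norm_num) (by norm_num) (by norm_num) (by norm_num) (by norm_num) (by norm_num)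
    (by norm_num) (by norm_num)
    (by norm_num) (by norm_num) (by norm_num) (by norm_num) (by norm_num)
    rfl rfl rfl rfl rfl rfl (by norm_num) (by norm_num) (by norm_num) hp hpb hq hqb hpq

theorem rowL9_45 {p q : ℝ} (hp : 0 < p) (hpb : p ≤ (4001201 / 5000000 : ℝ)) (hq : 0 < q) (hqb : q ≤ (6980181 / 2000000 : ℝ))
    (hpq : 1 < p * q) : NoSol 9 p q :=
  noSol_rect (n := 9) (by norm_num) (N := 9) (a := (851207 / 1000000 : ℝ)) (b := (789703 / 1000000 : ℝ))
    (τ := (920567 / 5000000 : ℝ)) (A5 := (506009 / 1000000 : ℝ)) (A6 := (606597 / 1000000 : ℝ))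
    (A9 := (145953 / 200000 : ℝ)) (A10 := (16771 / 31250 : ℝ)) (s := (4367 / 100000 : ℝ)) (e := (1 / 10000000 : ℝ))
    (pb := (4001201 / 5000000 : ℝ)) (qb := (6980181 / 2000000 : ℝ)) (by norm_num)
    (by norm_num) (by norm_num) (by norm_num) (by norm_num) (by norm_num) (by norm_num) (by norm_num)
    (by norm_num) (by norm_num)
    (by norm_num) (by norm_num) (by norm_num) (by norm_num) (by norm_num)
    rfl rfl rfl rfl rfl rfl (by norm_num) (by norm_num) (by norm_num) hp hpb hq hqb hpq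

theorem rowL9_46 {p q : ℝ} (hp : 0 < p) (hpb : p ≤ (8099247 / 10000000 : ℝ)) (hq : 0 < q) (hqb : q ≤ (34306569 / 10000000 : ℝ))
    (hpq : 1 < p * q) : NoSol 9 p q :=
  noSol_rect (n := 9) (by norm_num) (N := 9) (a := (854357 / 1000000 : ℝ)) (b := (393761 / 500000 : ℝ))
    (τ := (379133 / 2000000 : ℝ)) (A5 := (25443 / 50000 : ℝ)) (A6 := (301941 / 500000 : ℝ))
    (A9 := (45469 / 62500 : ℝ)) (A10 := (53547 / 100000 : ℝ)) (s := (137 / 3125 : ℝ)) (e := (1 / 10000000 : ℝ))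
    (pb := (8099247 / 10000000 : ℝ)) (qb := (34306569 / 10000000 : ℝ)) (by norm_num)
    (by norm_num) (by norm_num) (by norm_num) (by norm_num) (by norm_num) (by norm_num) (by norm_num)
    (by norm_num) (by norm_num)
    (by norm_num) (by norm_num) (by norm_num) (by norm_num) (by norm_num)
    rfl rfl rfl rfl rfl rfl (by norm_num) (by norm_num) (by norm_num) hp hpb hq hqb hpq

theorem rowL9_47 {p q : ℝ} (hp : 0 < p) (hpb : p ≤ (2049481 / 2500000 : ℝ)) (hq : 0 < q) (hqb : q ≤ (16865339 / 5000000 : ℝ))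
    (hpq : 1 < p * q) : NoSol 9 p q :=
  noSol_rect (n := 9) (by norm_num) (N := 9) (a := (42691 / 50000 : ℝ)) (b := (791103 / 1000000 : ℝ))
    (τ := (1979341 / 10000000 : ℝ)) (A5 := (252237 / 500000 : ℝ)) (A6 := (606897 / 1000000 : ℝ))
    (A9 := (361191 / 500000 : ℝ)) (A10 := (537211 / 1000000 : ℝ)) (s := (11 / 250 : ℝ)) (e := (1 / 10000000 : ℝ))
    (pb := (2049481 / 2500000 : ℝ)) (qb := (16865339 / 5000000 : ℝ)) (by norm_num)
    (by norm_num) (by norm_num) (by norm_num) (by norm_num) (by norm_num) (by norm_num) (by norm_num)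
    (by norm_num) (by norm_num)
    (by norm_num) (by norm_num) (by norm_num) (by norm_num) (by norm_num)
    rfl rfl rfl rfl rfl rfl (by norm_num) (by norm_num) (by norm_num) hp hpb hq hqb hpq

theorem rowL9_48 {p q : ℝ} (hp : 0 < p) (hpb : p ≤ (8296943 / 10000000 : ℝ)) (hq : 0 < q) (hqb : q ≤ (33165151 / 10000000 : ℝ))
    (hpq : 1 < p * q) : NoSol 9 p q :=
  noSol_rect (n := 9) (by norm_num) (N := 9) (a := (863951 / 1000000 : ℝ)) (b := (78893 / 100000 : ℝ))
    (τ := (404797 / 2000000 : ℝ)) (A5 := (251789 / 500000 : ℝ)) (A6 := (37941 / 62500 : ℝ))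
    (A9 := (364377 / 500000 : ℝ)) (A10 := (529361 / 1000000 : ℝ)) (s := (2201 / 50000 : ℝ)) (e := (1 / 10000000 : ℝ))
    (pb := (8296943 / 10000000 : ℝ)) (qb := (33165151 / 10000000 : ℝ)) (by norm_num)
    (by norm_num) (by norm_num) (by norm_num) (by norm_num) (by norm_num) (by norm_num) (by norm_num)
    (by norm_num) (by norm_num)
    (by norm_num) (by norm_num) (by norm_num) (by norm_num) (by norm_num)
    rfl rfl rfl rfl rfl rfl (by norm_num) (by norm_num) (by norm_num) hp hpb hq hqb hpq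

theorem rowL9_49 {p q : ℝ} (hp : 0 < p) (hpb : p ≤ (4198219 / 5000000 : ℝ)) (hq : 0 < q) (hqb : q ≤ (16309039 / 5000000 : ℝ))
    (hpq : 1 < p * q) : NoSol 9 p q :=
  noSol_rect (n := 9) (by norm_num) (N := 9) (a := (877643 / 1000000 : ℝ)) (b := (787087 / 1000000 : ℝ))
    (τ := (418691 / 2000000 : ℝ)) (A5 := (249307 / 500000 : ℝ)) (A6 := (122049 / 200000 : ℝ))
    (A9 := (45683 / 62500 : ℝ)) (A10 := (131409 / 250000 : ℝ)) (s := (2211 / 50000 : ℝ)) (e := (1 / 10000000 : ℝ))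
    (pb := (4198219 / 5000000 : ℝ)) (qb := (16309039 / 5000000 : ℝ)) (by norm_num)
    (by norm_num) (by norm_num) (by norm_num) (by norm_num) (by norm_num) (by norm_num) (by norm_num)
    (by norm_num) (by norm_num)
    (by norm_num) (by norm_num) (by norm_num) (by norm_num) (by norm_num)
    rfl rfl rfl rfl rfl rfl (by norm_num) (by norm_num) (by norm_num) hp hpb hq hqb hpq

theorem rowL9_50 {p q : ℝ} (hp : 0 < p) (hpb : p ≤ (8498969 / 10000000 : ℝ)) (hq : 0 < q) (hqb : q ≤ (16043939 / 5000000 : ℝ))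
    (hpq : 1 < p * q) : NoSol 9 p q :=
  noSol_rect (n := 9) (by norm_num) (N := 9) (a := (54249 / 62500 : ℝ)) (b := (198713 / 250000 : ℝ))
    (τ := (1103039 / 5000000 : ℝ)) (A5 := (99163 / 200000 : ℝ)) (A6 := (1913 / 3125 : ℝ))
    (A9 := (179379 / 250000 : ℝ)) (A10 := (534511 / 1000000 : ℝ)) (s := (1113 / 25000 : ℝ)) (e := (1 / 10000000 : ℝ))
    (pb := (8498969 / 10000000 : ℝ)) (qb := (16043939 / 5000000 : ℝ)) (by norm_num)
    (by norm_num) (by norm_num) (by norm_num) (by norm_num) (by norm_num) (by norm_num) (by norm_num)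
    (by norm_num) (by norm_num)
    (by norm_num) (by norm_num) (by norm_num) (by norm_num) (by norm_num)
    rfl rfl rfl rfl rfl rfl (by norm_num) (by norm_num) (by norm_num) hp hpb hq hqb hpq

theorem rowL9_51 {p q : ℝ} (hp : 0 < p) (hpb : p ≤ (8602031 / 10000000 : ℝ)) (hq : 0 < q) (hqb : q ≤ (3945109 / 1250000 : ℝ))
    (hpq : 1 < p * q) : NoSol 9 p q :=
  noSol_rect (n := 9) (by norm_num) (N := 9) (a := (887731 / 1000000 : ℝ)) (b := (779539 / 1000000 : ℝ))
    (τ := (585519 / 2500000 : ℝ)) (A5 := (61669 / 125000 : ℝ)) (A6 := (308039 / 500000 : ℝ))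
    (A9 := (697529 / 1000000 : ℝ)) (A10 := (109247 / 200000 : ℝ)) (s := (4619 / 100000 : ℝ)) (e := (1 / 10000000 : ℝ))
    (pb := (8602031 / 10000000 : ℝ)) (qb := (3945109 / 1250000 : ℝ)) (by norm_num)
    (by norm_num) (by norm_num) (by norm_num) (by norm_num) (by norm_num) (by norm_num) (by norm_num)
    (by norm_num) (by norm_num)
    (by norm_num) (by norm_num) (by norm_num) (by norm_num) (by norm_num)
    rfl rfl rfl rfl rfl rfl (by norm_num) (by norm_num) (by norm_num) hp hpb hq hqb hpq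

theorem rowL9_52 {p q : ℝ} (hp : 0 < p) (hpb : p ≤ (1088323 / 1250000 : ℝ)) (hq : 0 < q) (hqb : q ≤ (3881239 / 1250000 : ℝ))
    (hpq : 1 < p * q) : NoSol 9 p q :=
  noSol_rect (n := 9) (by norm_num) (N := 9) (a := (430823 / 500000 : ℝ)) (b := (99529 / 125000 : ℝ))
    (τ := (2362113 / 10000000 : ℝ)) (A5 := (251781 / 500000 : ℝ)) (A6 := (151127 / 250000 : ℝ))
    (A9 := (351723 / 500000 : ℝ)) (A10 := (541827 / 1000000 : ℝ)) (s := (4511 / 100000 : ℝ)) (e := (1 / 10000000 : ℝ))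
    (pb := (1088323 / 1250000 : ℝ)) (qb := (3881239 / 1250000 : ℝ)) (by norm_num)
    (by norm_num) (by norm_num) (by norm_num) (by norm_num) (by norm_num) (by norm_num) (by norm_num)
    (by norm_num) (by norm_num)
    (by norm_num) (by norm_num) (by norm_num) (by norm_num) (by norm_num)
    rfl rfl rfl rfl rfl rfl (by norm_num) (by norm_num) (by norm_num) hp hpb hq hqb hpq

theorem rowL9_53 {p q : ℝ} (hp : 0 < p) (hpb : p ≤ (2203341 / 2500000 : ℝ)) (hq : 0 < q) (hqb : q ≤ (15274891 / 5000000 : ℝ))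
    (hpq : 1 < p * q) : NoSol 9 p q :=
  noSol_rect (n := 9) (by norm_num) (N := 9) (a := (871871 / 1000000 : ℝ)) (b := (792643 / 1000000 : ℝ))
    (τ := (24473 / 100000 : ℝ)) (A5 := (62193 / 125000 : ℝ)) (A6 := (610501 / 1000000 : ℝ))
    (A9 := (352409 / 500000 : ℝ)) (A10 := (536909 / 1000000 : ℝ)) (s := (1139 / 25000 : ℝ)) (e := (1 / 10000000 : ℝ))
    (pb := (2203341 / 2500000 : ℝ)) (qb := (15274891 / 5000000 : ℝ)) (by norm_num)
    (by norm_num) (by norm_num) (by norm_num) (by norm_num) (by norm_num) (by norm_num) (by norm_num)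
    (by norm_num) (by norm_num)
    (by norm_num) (by norm_num) (by norm_num) (by norm_num) (by norm_num)
    rfl rfl rfl rfl rfl rfl (by norm_num) (by norm_num) (by norm_num) hp hpb hq hqb hpq

theorem rowL9_54 {p q : ℝ} (hp : 0 < p) (hpb : p ≤ (8921317 / 10000000 : ℝ)) (hq : 0 < q) (hqb : q ≤ (15028477 / 5000000 : ℝ))
    (hpq : 1 < p * q) : NoSol 9 p q :=
  noSol_rect (n := 9) (by norm_num) (N := 9) (a := (870467 / 1000000 : ℝ)) (b := (395167 / 500000 : ℝ))
    (τ := (101243 / 400000 : ℝ)) (A5 := (99741 / 200000 : ℝ)) (A6 := (30523 / 50000 : ℝ))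
    (A9 := (87527 / 125000 : ℝ)) (A10 := (536911 / 1000000 : ℝ)) (s := (2301 / 50000 : ℝ)) (e := (1 / 10000000 : ℝ))
    (pb := (8921317 / 10000000 : ℝ)) (qb := (15028477 / 5000000 : ℝ)) (by norm_num)
    (by norm_num) (by norm_num) (by norm_num) (by norm_num) (by norm_num) (by norm_num) (by norm_num)
    (by norm_num) (by norm_num)
    (by norm_num) (by norm_num) (by norm_num) (by norm_num) (by norm_num)
    rfl rfl rfl rfl rfl rfl (by norm_num) (by norm_num) (by norm_num) hp hpb hq hqb hpq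

theorem rowL9_55 {p q : ℝ} (hp : 0 < p) (hpb : p ≤ (1128847 / 1250000 : ℝ)) (hq : 0 < q) (hqb : q ≤ (14788097 / 5000000 : ℝ))
    (hpq : 1 < p * q) : NoSol 9 p q :=
  noSol_rect (n := 9) (by norm_num) (N := 9) (a := (436663 / 500000 : ℝ)) (b := (795147 / 1000000 : ℝ))
    (τ := (105731 / 400000 : ℝ)) (A5 := (49099 / 100000 : ℝ)) (A6 := (123383 / 200000 : ℝ))
    (A9 := (349163 / 500000 : ℝ)) (A10 := (26817 / 50000 : ℝ)) (s := (37 / 800 : ℝ)) (e := (1 / 10000000 : ℝ))
    (pb := (1128847 / 1250000 : ℝ)) (qb := (14788097 / 5000000 : ℝ)) (by norm_num)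
    (by norm_num) (by norm_num) (by norm_num) (by norm_num) (by norm_num) (by norm_num) (by norm_num)
    (by norm_num) (by norm_num)
    (by norm_num) (by norm_num) (by norm_num) (by norm_num) (by norm_num)
    rfl rfl rfl rfl rfl rfl (by norm_num) (by norm_num) (by norm_num) hp hpb hq hqb hpq

theorem rowL9_56 {p q : ℝ} (hp : 0 < p) (hpb : p ≤ (4570721 / 5000000 : ℝ)) (hq : 0 < q) (hqb : q ≤ (29105739 / 10000000 : ℝ))
    (hpq : 1 < p * q) : NoSol 9 p q :=
  noSol_rect (n := 9) (by norm_num) (N := 9) (a := (875487 / 1000000 : ℝ)) (b := (791061 / 1000000 : ℝ))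
    (τ := (686963 / 2500000 : ℝ)) (A5 := (493043 / 1000000 : ℝ)) (A6 := (615629 / 1000000 : ℝ))
    (A9 := (689453 / 1000000 : ℝ)) (A10 := (54087 / 100000 : ℝ)) (s := (587 / 12500 : ℝ)) (e := (1 / 10000000 : ℝ))
    (pb := (4570721 / 5000000 : ℝ)) (qb := (29105739 / 10000000 : ℝ)) (by norm_num)
    (by norm_num) (by norm_num) (by norm_num) (by norm_num) (by norm_num) (by norm_num) (by norm_num)
    (by norm_num) (by norm_num)
    (by norm_num) (by norm_num) (by norm_num) (by norm_num) (by norm_num)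
    rfl rfl rfl rfl rfl rfl (by norm_num) (by norm_num) (by norm_num) hp hpb hq hqb hpq

theorem rowL9_57 {p q : ℝ} (hp : 0 < p) (hpb : p ≤ (9254251 / 10000000 : ℝ)) (hq : 0 < q) (hqb : q ≤ (28646609 / 10000000 : ℝ))
    (hpq : 1 < p * q) : NoSol 9 p q :=
  noSol_rect (n := 9) (by norm_num) (N := 9) (a := (220189 / 250000 : ℝ)) (b := (79507 / 100000 : ℝ))
    (τ := (1408533 / 5000000 : ℝ)) (A5 := (98613 / 200000 : ℝ)) (A6 := (614219 / 1000000 : ℝ))
    (A9 := (346611 / 500000 : ℝ)) (A10 := (536909 / 1000000 : ℝ)) (s := (4677 / 100000 : ℝ)) (e := (1 / 10000000 : ℝ))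
    (pb := (9254251 / 10000000 : ℝ)) (qb := (28646609 / 10000000 : ℝ)) (by norm_num)
    (by norm_num) (by norm_num) (by norm_num) (by norm_num) (by norm_num) (by norm_num) (by norm_num)
    (by norm_num) (by norm_num)
    (by norm_num) (by norm_num) (by norm_num) (by norm_num) (by norm_num)
    rfl rfl rfl rfl rfl rfl (by norm_num) (by norm_num) (by norm_num) hp hpb hq hqb hpq

theorem rowL9_58 {p q : ℝ} (hp : 0 < p) (hpb : p ≤ (1873741 / 2000000 : ℝ)) (hq : 0 < q) (hqb : q ≤ (28194797 / 10000000 : ℝ))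
    (hpq : 1 < p * q) : NoSol 9 p q :=
  noSol_rect (n := 9) (by norm_num) (N := 9) (a := (176363 / 200000 : ℝ)) (b := (39747 / 50000 : ℝ))
    (τ := (2901463 / 10000000 : ℝ)) (A5 := (98791 / 200000 : ℝ)) (A6 := (153397 / 250000 : ℝ))
    (A9 := (173049 / 250000 : ℝ)) (A10 := (535237 / 1000000 : ℝ)) (s := (4701 / 100000 : ℝ)) (e := (1 / 10000000 : ℝ))
    (pb := (1873741 / 2000000 : ℝ)) (qb := (28194797 / 10000000 : ℝ)) (by norm_num)
    (by norm_num) (by norm_num) (by norm_num) (by norm_num) (by norm_num) (by norm_num) (by norm_num)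
    (by norm_num) (by norm_num)
    (by norm_num) (by norm_num) (by norm_num) (by norm_num) (by norm_num)
    rfl rfl rfl rfl rfl rfl (by norm_num) (by norm_num) (by norm_num) hp hpb hq hqb hpq

theorem rowL9_59 {p q : ℝ} (hp : 0 < p) (hpb : p ≤ (592683 / 625000 : ℝ)) (hq : 0 < q) (hqb : q ≤ (27752259 / 10000000 : ℝ))
    (hpq : 1 < p * q) : NoSol 9 p q :=
  noSol_rect (n := 9) (by norm_num) (N := 9) (a := (93631 / 100000 : ℝ)) (b := (38863 / 50000 : ℝ))
    (τ := (300063 / 1000000 : ℝ)) (A5 := (497727 / 1000000 : ℝ)) (A6 := (303101 / 500000 : ℝ))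
    (A9 := (686937 / 1000000 : ℝ)) (A10 := (542241 / 1000000 : ℝ)) (s := (1197 / 25000 : ℝ)) (e := (1 / 10000000 : ℝ))
    (pb := (592683 / 625000 : ℝ)) (qb := (27752259 / 10000000 : ℝ)) (by norm_num)
    (by norm_num) (by norm_num) (by norm_num) (by norm_num) (by norm_num) (by norm_num) (by norm_num)
    (by norm_num) (by norm_num)
    (by norm_num) (by norm_num) (by norm_num) (by norm_num) (by norm_num)
    rfl rfl rfl rfl rfl rfl (by norm_num) (by norm_num) (by norm_num) hp hpb hq hqb hpq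

theorem rowL9_60 {p q : ℝ} (hp : 0 < p) (hpb : p ≤ (4800379 / 5000000 : ℝ)) (hq : 0 < q) (hqb : q ≤ (853929 / 312500 : ℝ))
    (hpq : 1 < p * q) : NoSol 9 p q :=
  noSol_rect (n := 9) (by norm_num) (N := 9) (a := (36661 / 40000 : ℝ)) (b := (195011 / 250000 : ℝ))
    (τ := (1542633 / 5000000 : ℝ)) (A5 := (7751 / 15625 : ℝ)) (A6 := (15263 / 25000 : ℝ))
    (A9 := (43029 / 62500 : ℝ)) (A10 := (267721 / 500000 : ℝ)) (s := (1201 / 25000 : ℝ)) (e := (1 / 10000000 : ℝ))
    (pb := (4800379 / 5000000 : ℝ)) (qb := (853929 / 312500 : ℝ)) (by norm_num)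
    (by norm_num) (by norm_num) (by norm_num) (by norm_num) (by norm_num) (by norm_num) (by norm_num)
    (by norm_num) (by norm_num)
    (by norm_num) (by norm_num) (by norm_num) (by norm_num) (by norm_num)
    rfl rfl rfl rfl rfl rfl (by norm_num) (by norm_num) (by norm_num) hp hpb hq hqb hpq

theorem rowL9_61 {p q : ℝ} (hp : 0 < p) (hpb : p ≤ (75936 / 78125 : ℝ)) (hq : 0 < q) (hqb : q ≤ (5380149 / 2000000 : ℝ))
    (hpq : 1 < p * q) : NoSol 9 p q :=
  noSol_rect (n := 9) (by norm_num) (N := 9) (a := (466889 / 500000 : ℝ)) (b := (38537 / 50000 : ℝ))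
    (τ := (1573707 / 5000000 : ℝ)) (A5 := (496463 / 1000000 : ℝ)) (A6 := (609797 / 1000000 : ℝ))
    (A9 := (138933 / 200000 : ℝ)) (A10 := (528221 / 1000000 : ℝ)) (s := (4813 / 100000 : ℝ)) (e := (1 / 10000000 : ℝ))
    (pb := (75936 / 78125 : ℝ)) (qb := (5380149 / 2000000 : ℝ)) (by norm_num)
    (by norm_num) (by norm_num) (by norm_num) (by norm_num) (by norm_num) (by norm_num) (by norm_num)
    (by norm_num) (by norm_num)
    (by norm_num) (by norm_num) (by norm_num) (by norm_num) (by norm_num)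
    rfl rfl rfl rfl rfl rfl (by norm_num) (by norm_num) (by norm_num) hp hpb hq hqb hpq

theorem rowL9_62 {p q : ℝ} (hp : 0 < p) (hpb : p ≤ (615049 / 625000 : ℝ)) (hq : 0 < q) (hqb : q ≤ (13243031 / 5000000 : ℝ))
    (hpq : 1 < p * q) : NoSol 9 p q :=
  noSol_rect (n := 9) (by norm_num) (N := 9) (a := (934119 / 1000000 : ℝ)) (b := (154579 / 200000 : ℝ))
    (τ := (3258531 / 10000000 : ℝ)) (A5 := (99159 / 200000 : ℝ)) (A6 := (76341 / 125000 : ℝ))
    (A9 := (172869 / 250000 : ℝ)) (A10 := (33033 / 62500 : ℝ)) (s := (1213 / 25000 : ℝ)) (e := (1 / 10000000 : ℝ))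
    (pb := (615049 / 625000 : ℝ)) (qb := (13243031 / 5000000 : ℝ)) (by norm_num)
    (by norm_num) (by norm_num) (by norm_num) (by norm_num) (by norm_num) (by norm_num) (by norm_num)
    (by norm_num) (by norm_num)
    (by norm_num) (by norm_num) (by norm_num) (by norm_num) (by norm_num)
    rfl rfl rfl rfl rfl rfl (by norm_num) (by norm_num) (by norm_num) hp hpb hq hqb hpq

theorem rowL9_63 {p q : ℝ} (hp : 0 < p) (hpb : p ≤ (2491037 / 2500000 : ℝ)) (hq : 0 < q) (hqb : q ≤ (13039519 / 5000000 : ℝ))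
    (hpq : 1 < p * q) : NoSol 9 p q :=
  noSol_rect (n := 9) (by norm_num) (N := 9) (a := (470049 / 500000 : ℝ)) (b := (23991 / 31250 : ℝ))
    (τ := (682947 / 2000000 : ℝ)) (A5 := (247251 / 500000 : ℝ)) (A6 := (30649 / 50000 : ℝ))
    (A9 := (17011 / 25000 : ℝ)) (A10 := (133761 / 250000 : ℝ)) (s := (2477 / 50000 : ℝ)) (e := (1 / 10000000 : ℝ))
    (pb := (2491037 / 2500000 : ℝ)) (qb := (13039519 / 5000000 : ℝ)) (by norm_num)
    (by norm_num) (by norm_num) (by norm_num) (by norm_num) (by norm_num) (by norm_num) (by norm_num)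
    (by norm_num) (by norm_num)
    (by norm_num) (by norm_num) (by norm_num) (by norm_num) (by norm_num)
    rfl rfl rfl rfl rfl rfl (by norm_num) (by norm_num) (by norm_num) hp hpb hq hqb hpq

theorem rowL9_64 {p q : ℝ} (hp : 0 < p) (hpb : p ≤ (10089183 / 10000000 : ℝ)) (hq : 0 < q) (hqb : q ≤ (25678139 / 10000000 : ℝ))
    (hpq : 1 < p * q) : NoSol 9 p q :=
  noSol_rect (n := 9) (by norm_num) (N := 9) (a := (7551 / 8000 : ℝ)) (b := (152757 / 200000 : ℝ))
    (τ := (3542441 / 10000000 : ℝ)) (A5 := (496003 / 1000000 : ℝ)) (A6 := (612381 / 1000000 : ℝ))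
    (A9 := (673699 / 1000000 : ℝ)) (A10 := (538229 / 1000000 : ℝ)) (s := (201 / 4000 : ℝ)) (e := (1 / 10000000 : ℝ))
    (pb := (10089183 / 10000000 : ℝ)) (qb := (25678139 / 10000000 : ℝ)) (by norm_num)
    (by norm_num) (by norm_num) (by norm_num) (by norm_num) (by norm_num) (by norm_num) (by norm_num)
    (by norm_num) (by norm_num)
    (by norm_num) (by norm_num) (by norm_num) (by norm_num) (by norm_num)
    rfl rfl rfl rfl rfl rfl (by norm_num) (by norm_num) (by norm_num) hp hpb hq hqb hpq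

theorem rowL9_65 {p q : ℝ} (hp : 0 < p) (hpb : p ≤ (204327 / 200000 : ℝ)) (hq : 0 < q) (hqb : q ≤ (25285657 / 10000000 : ℝ))
    (hpq : 1 < p * q) : NoSol 9 p q :=
  noSol_rect (n := 9) (by norm_num) (N := 9) (a := (95201 / 100000 : ℝ)) (b := (152921 / 200000 : ℝ))
    (τ := (3614857 / 10000000 : ℝ)) (A5 := (19837 / 40000 : ℝ)) (A6 := (61109 / 100000 : ℝ))
    (A9 := (680581 / 1000000 : ℝ)) (A10 := (531757 / 1000000 : ℝ)) (s := (156 / 3125 : ℝ)) (e := (1 / 10000000 : ℝ))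
    (pb := (204327 / 200000 : ℝ)) (qb := (25285657 / 10000000 : ℝ)) (by norm_num)
    (by norm_num) (by norm_num) (by norm_num) (by norm_num) (by norm_num) (by norm_num) (by norm_num)
    (by norm_num) (by norm_num)
    (by norm_num) (by norm_num) (by norm_num) (by norm_num) (by norm_num)
    rfl rfl rfl rfl rfl rfl (by norm_num) (by norm_num) (by norm_num) hp hpb hq hqb hpq

theorem rowL9_66 {p q : ℝ} (hp : 0 < p) (hpb : p ≤ (2069127 / 2000000 : ℝ)) (hq : 0 < q) (hqb : q ≤ (1245003 / 500000 : ℝ))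
    (hpq : 1 < p * q) : NoSol 9 p q :=
  noSol_rect (n := 9) (by norm_num) (N := 9) (a := (952717 / 1000000 : ℝ)) (b := (381817 / 500000 : ℝ))
    (τ := (1865389 / 5000000 : ℝ)) (A5 := (49657 / 100000 : ℝ)) (A6 := (305577 / 500000 : ℝ))
    (A9 := (339149 / 500000 : ℝ)) (A10 := (33201 / 62500 : ℝ)) (s := (629 / 12500 : ℝ)) (e := (1 / 10000000 : ℝ))
    (pb := (2069127 / 2000000 : ℝ)) (qb := (1245003 / 500000 : ℝ)) (by norm_num)
    (by norm_num) (by norm_num) (by norm_num) (by norm_num) (by norm_num) (by norm_num) (by norm_num)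
    (by norm_num) (by norm_num)
    (by norm_num) (by norm_num) (by norm_num) (by norm_num) (by norm_num)
    rfl rfl rfl rfl rfl rfl (by norm_num) (by norm_num) (by norm_num) hp hpb hq hqb hpq

theorem rowL9_67 {p q : ℝ} (hp : 0 < p) (hpb : p ≤ (65479 / 62500 : ℝ)) (hq : 0 < q) (hqb : q ≤ (12260683 / 5000000 : ℝ))
    (hpq : 1 < p * q) : NoSol 9 p q :=
  noSol_rect (n := 9) (by norm_num) (N := 9) (a := (191439 / 200000 : ℝ)) (b := (766767 / 1000000 : ℝ))
    (τ := (3863379 / 10000000 : ℝ)) (A5 := (494703 / 1000000 : ℝ)) (A6 := (306231 / 500000 : ℝ))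
    (A9 := (169169 / 250000 : ℝ)) (A10 := (26567 / 50000 : ℝ)) (s := (2529 / 50000 : ℝ)) (e := (1 / 10000000 : ℝ))
    (pb := (65479 / 62500 : ℝ)) (qb := (12260683 / 5000000 : ℝ)) (by norm_num)
    (by norm_num) (by norm_num) (by norm_num) (by norm_num) (by norm_num) (by norm_num) (by norm_num)
    (by norm_num) (by norm_num)
    (by norm_num) (by norm_num) (by norm_num) (by norm_num) (by norm_num)
    rfl rfl rfl rfl rfl rfl (by norm_num) (by norm_num) (by norm_num) hp hpb hq hqb hpq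

theorem rowL9_68 {p q : ℝ} (hp : 0 < p) (hpb : p ≤ (1061019 / 1000000 : ℝ)) (hq : 0 < q) (hqb : q ≤ (24150647 / 10000000 : ℝ))
    (hpq : 1 < p * q) : NoSol 9 p q :=
  noSol_rect (n := 9) (by norm_num) (N := 9) (a := (970211 / 1000000 : ℝ)) (b := (754013 / 1000000 : ℝ))
    (τ := (499399 / 1250000 : ℝ)) (A5 := (124269 / 250000 : ℝ)) (A6 := (1529 / 2500 : ℝ))
    (A9 := (134227 / 200000 : ℝ)) (A10 := (21327 / 40000 : ℝ)) (s := (2573 / 50000 : ℝ)) (e := (1 / 10000000 : ℝ))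
    (pb := (1061019 / 1000000 : ℝ)) (qb := (24150647 / 10000000 : ℝ)) (by norm_num)
    (by norm_num) (by norm_num) (by norm_num) (by norm_num) (by norm_num) (by norm_num) (by norm_num)
    (by norm_num) (by norm_num)
    (by norm_num) (by norm_num) (by norm_num) (by norm_num) (by norm_num)
    rfl rfl rfl rfl rfl rfl (by norm_num) (by norm_num) (by norm_num) hp hpb hq hqb hpq

theorem rowL9_69 {p q : ℝ} (hp : 0 < p) (hpb : p ≤ (10745917 / 10000000 : ℝ)) (hq : 0 < q) (hqb : q ≤ (2378553 / 1000000 : ℝ))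
    (hpq : 1 < p * q) : NoSol 9 p q :=
  noSol_rect (n := 9) (by norm_num) (N := 9) (a := (966299 / 1000000 : ℝ)) (b := (750647 / 1000000 : ℝ))
    (τ := (2073759 / 5000000 : ℝ)) (A5 := (493777 / 1000000 : ℝ)) (A6 := (617119 / 1000000 : ℝ))
    (A9 := (668399 / 1000000 : ℝ)) (A10 := (265601 / 500000 : ℝ)) (s := (2607 / 50000 : ℝ)) (e := (1 / 10000000 : ℝ))
    (pb := (10745917 / 10000000 : ℝ)) (qb := (2378553 / 1000000 : ℝ)) (by norm_num)
    (by norm_num) (by norm_num) (by norm_num) (by norm_num) (by norm_num) (by norm_num) (by norm_num)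
    (by norm_num) (by norm_num)
    (by norm_num) (by norm_num) (by norm_num) (by norm_num) (by norm_num)
    rfl rfl rfl rfl rfl rfl (by norm_num) (by norm_num) (by norm_num) hp hpb hq hqb hpq

theorem rowL9_70 {p q : ℝ} (hp : 0 < p) (hpb : p ≤ (1360487 / 1250000 : ℝ)) (hq : 0 < q) (hqb : q ≤ (23427037 / 10000000 : ℝ))
    (hpq : 1 < p * q) : NoSol 9 p q :=
  noSol_rect (n := 9) (by norm_num) (N := 9) (a := (119651 / 125000 : ℝ)) (b := (382257 / 500000 : ℝ))
    (τ := (2117767 / 5000000 : ℝ)) (A5 := (12417 / 25000 : ℝ)) (A6 := (122669 / 200000 : ℝ))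
    (A9 := (41981 / 62500 : ℝ)) (A10 := (26393 / 50000 : ℝ)) (s := (2591 / 50000 : ℝ)) (e := (1 / 10000000 : ℝ))
    (pb := (1360487 / 1250000 : ℝ)) (qb := (23427037 / 10000000 : ℝ)) (by norm_num)
    (by norm_num) (by norm_num) (by norm_num) (by norm_num) (by norm_num) (by norm_num) (by norm_num)
    (by norm_num) (by norm_num)
    (by norm_num) (by norm_num) (by norm_num) (by norm_num) (by norm_num)
    rfl rfl rfl rfl rfl rfl (by norm_num) (by norm_num) (by norm_num) hp hpb hq hqb hpq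

theorem rowL9_71 {p q : ℝ} (hp : 0 < p) (hpb : p ≤ (689019 / 625000 : ℝ)) (hq : 0 < q) (hqb : q ≤ (23074937 / 10000000 : ℝ))
    (hpq : 1 < p * q) : NoSol 9 p q :=
  noSol_rect (n := 9) (by norm_num) (N := 9) (a := (476113 / 500000 : ℝ)) (b := (19021 / 25000 : ℝ))
    (τ := (879221 / 2000000 : ℝ)) (A5 := (496389 / 1000000 : ℝ)) (A6 := (76919 / 125000 : ℝ))
    (A9 := (666429 / 1000000 : ℝ)) (A10 := (132299 / 250000 : ℝ)) (s := (5251 / 100000 : ℝ)) (e := (1 / 10000000 : ℝ))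
    (pb := (689019 / 625000 : ℝ)) (qb := (23074937 / 10000000 : ℝ)) (by norm_num)
    (by norm_num) (by norm_num) (by norm_num) (by norm_num) (by norm_num) (by norm_num) (by norm_num)
    (by norm_num) (by norm_num)
    (by norm_num) (by norm_num) (by norm_num) (by norm_num) (by norm_num)
    rfl rfl rfl rfl rfl rfl (by norm_num) (by norm_num) (by norm_num) hp hpb hq hqb hpq

theorem rowL9_72 {p q : ℝ} (hp : 0 < p) (hpb : p ≤ (2233379 / 2000000 : ℝ)) (hq : 0 < q) (hqb : q ≤ (22728769 / 10000000 : ℝ))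
    (hpq : 1 < p * q) : NoSol 9 p q :=
  noSol_rect (n := 9) (by norm_num) (N := 9) (a := (95119 / 100000 : ℝ)) (b := (769307 / 1000000 : ℝ))
    (τ := (4523187 / 10000000 : ℝ)) (A5 := (30951 / 62500 : ℝ)) (A6 := (77011 / 125000 : ℝ))
    (A9 := (668649 / 1000000 : ℝ)) (A10 := (526121 / 1000000 : ℝ)) (s := (5251 / 100000 : ℝ)) (e := (1 / 10000000 : ℝ))
    (pb := (2233379 / 2000000 : ℝ)) (qb := (22728769 / 10000000 : ℝ)) (by norm_num)
    (by norm_num) (by norm_num) (by norm_num) (by norm_num) (by norm_num) (by norm_num) (by norm_num)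
    (by norm_num) (by norm_num)
    (by norm_num) (by norm_num) (by norm_num) (by norm_num) (by norm_num)
    rfl rfl rfl rfl rfl rfl (by norm_num) (by norm_num) (by norm_num) hp hpb hq hqb hpq

theorem rowL9_73 {p q : ℝ} (hp : 0 < p) (hpb : p ≤ (11311923 / 10000000 : ℝ)) (hq : 0 < q) (hqb : q ≤ (22389111 / 10000000 : ℝ))
    (hpq : 1 < p * q) : NoSol 9 p q :=
  noSol_rect (n := 9) (by norm_num) (N := 9) (a := (474059 / 500000 : ℝ)) (b := (386027 / 500000 : ℝ))
    (τ := (2343763 / 5000000 : ℝ)) (A5 := (247151 / 500000 : ℝ)) (A6 := (618037 / 1000000 : ℝ))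
    (A9 := (665359 / 1000000 : ℝ)) (A10 := (263271 / 500000 : ℝ)) (s := (1061 / 20000 : ℝ)) (e := (1 / 10000000 : ℝ))
    (pb := (11311923 / 10000000 : ℝ)) (qb := (22389111 / 10000000 : ℝ)) (by norm_num)
    (by norm_num) (by norm_num) (by norm_num) (by norm_num) (by norm_num) (by norm_num) (by norm_num)
    (by norm_num) (by norm_num)
    (by norm_num) (by norm_num) (by norm_num) (by norm_num) (by norm_num)
    rfl rfl rfl rfl rfl rfl (by norm_num) (by norm_num) (by norm_num) hp hpb hq hqb hpq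

theorem rowL9_74 {p q : ℝ} (hp : 0 < p) (hpb : p ≤ (5729831 / 5000000 : ℝ)) (hq : 0 < q) (hqb : q ≤ (22055323 / 10000000 : ℝ))
    (hpq : 1 < p * q) : NoSol 9 p q :=
  noSol_rect (n := 9) (by norm_num) (N := 9) (a := (940251 / 1000000 : ℝ)) (b := (779403 / 1000000 : ℝ))
    (τ := (4864527 / 10000000 : ℝ)) (A5 := (247971 / 500000 : ℝ)) (A6 := (12349 / 20000 : ℝ))
    (A9 := (658703 / 1000000 : ℝ)) (A10 := (530333 / 1000000 : ℝ)) (s := (5367 / 100000 : ℝ)) (e := (1 / 10000000 : ℝ))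
    (pb := (5729831 / 5000000 : ℝ)) (qb := (22055323 / 10000000 : ℝ)) (by norm_num)
    (by norm_num) (by norm_num) (by norm_num) (by norm_num) (by norm_num) (by norm_num) (by norm_num)
    (by norm_num) (by norm_num)
    (by norm_num) (by norm_num) (by norm_num) (by norm_num) (by norm_num)
    rfl rfl rfl rfl rfl rfl (by norm_num) (by norm_num) (by norm_num) hp hpb hq hqb hpq

theorem rowL9_75 {p q : ℝ} (hp : 0 < p) (hpb : p ≤ (1451277 / 1250000 : ℝ)) (hq : 0 < q) (hqb : q ≤ (2715849 / 1250000 : ℝ))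
    (hpq : 1 < p * q) : NoSol 9 p q :=
  noSol_rect (n := 9) (by norm_num) (N := 9) (a := (939351 / 1000000 : ℝ)) (b := (388507 / 500000 : ℝ))
    (τ := (1250959 / 2500000 : ℝ)) (A5 := (249343 / 500000 : ℝ)) (A6 := (2463 / 4000 : ℝ))
    (A9 := (8211 / 12500 : ℝ)) (A10 := (529797 / 1000000 : ℝ)) (s := (2709 / 50000 : ℝ)) (e := (1 / 10000000 : ℝ))
    (pb := (1451277 / 1250000 : ℝ)) (qb := (2715849 / 1250000 : ℝ)) (by norm_num)
    (by norm_num) (by norm_num) (by norm_num) (by norm_num) (by norm_num) (by norm_num) (by norm_num)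
    (by norm_num) (by norm_num)
    (by norm_num) (by norm_num) (by norm_num) (by norm_num) (by norm_num)
    rfl rfl rfl rfl rfl rfl (by norm_num) (by norm_num) (by norm_num) hp hpb hq hqb hpq

theorem rowL9_76 {p q : ℝ} (hp : 0 < p) (hpb : p ≤ (11763419 / 10000000 : ℝ)) (hq : 0 < q) (hqb : q ≤ (10701669 / 5000000 : ℝ))
    (hpq : 1 < p * q) : NoSol 9 p q :=
  noSol_rect (n := 9) (by norm_num) (N := 9) (a := (470011 / 500000 : ℝ)) (b := (194137 / 250000 : ℝ))
    (τ := (2578563 / 5000000 : ℝ)) (A5 := (249919 / 500000 : ℝ)) (A6 := (24641 / 40000 : ℝ))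
    (A9 := (163823 / 250000 : ℝ)) (A10 := (264279 / 500000 : ℝ)) (s := (219 / 4000 : ℝ)) (e := (1 / 10000000 : ℝ))
    (pb := (11763419 / 10000000 : ℝ)) (qb := (10701669 / 5000000 : ℝ)) (by norm_num)
    (by norm_num) (by norm_num) (by norm_num) (by norm_num) (by norm_num) (by norm_num) (by norm_num)
    (by norm_num) (by norm_num)
    (by norm_num) (by norm_num) (by norm_num) (by norm_num) (by norm_num)
    rfl rfl rfl rfl rfl rfl (by norm_num) (by norm_num) (by norm_num) hp hpb hq hqb hpq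

theorem rowL9_77 {p q : ℝ} (hp : 0 < p) (hpb : p ≤ (2979843 / 2500000 : ℝ)) (hq : 0 < q) (hqb : q ≤ (21085349 / 10000000 : ℝ))
    (hpq : 1 < p * q) : NoSol 9 p q :=
  noSol_rect (n := 9) (by norm_num) (N := 9) (a := (117677 / 125000 : ℝ)) (b := (777601 / 1000000 : ℝ))
    (τ := (2657789 / 5000000 : ℝ)) (A5 := (500673 / 1000000 : ℝ)) (A6 := (153903 / 250000 : ℝ))
    (A9 := (32717 / 50000 : ℝ)) (A10 := (131973 / 250000 : ℝ)) (s := (5511 / 100000 : ℝ)) (e := (1 / 10000000 : ℝ))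
    (pb := (2979843 / 2500000 : ℝ)) (qb := (21085349 / 10000000 : ℝ)) (by norm_num)
    (by norm_num) (by norm_num) (by norm_num) (by norm_num) (by norm_num) (by norm_num) (by norm_num)
    (by norm_num) (by norm_num)
    (by norm_num) (by norm_num) (by norm_num) (by norm_num) (by norm_num)
    rfl rfl rfl rfl rfl rfl (by norm_num) (by norm_num) (by norm_num) hp hpb hq hqb hpq

theorem rowL9_78 {p q : ℝ} (hp : 0 < p) (hpb : p ≤ (1509759 / 1250000 : ℝ)) (hq : 0 < q) (hqb : q ≤ (10386313 / 5000000 : ℝ))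
    (hpq : 1 < p * q) : NoSol 9 p q :=
  noSol_rect (n := 9) (by norm_num) (N := 9) (a := (235771 / 250000 : ℝ)) (b := (48469 / 62500 : ℝ))
    (τ := (5495839 / 10000000 : ℝ)) (A5 := (62677 / 125000 : ℝ)) (A6 := (307977 / 500000 : ℝ))
    (A9 := (130261 / 200000 : ℝ)) (A10 := (528509 / 1000000 : ℝ)) (s := (223 / 4000 : ℝ)) (e := (1 / 10000000 : ℝ))
    (pb := (1509759 / 1250000 : ℝ)) (qb := (10386313 / 5000000 : ℝ)) (by norm_num)
    (by norm_num) (by norm_num) (by norm_num) (by norm_num) (by norm_num) (by norm_num) (by norm_num)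
    (by norm_num) (by norm_num)
    (by norm_num) (by norm_num) (by norm_num) (by norm_num) (by norm_num)
    rfl rfl rfl rfl rfl rfl (by norm_num) (by norm_num) (by norm_num) hp hpb hq hqb hpq

theorem rowL9_79 {p q : ℝ} (hp : 0 < p) (hpb : p ≤ (3059867 / 2500000 : ℝ)) (hq : 0 < q) (hqb : q ≤ (20465189 / 10000000 : ℝ))
    (hpq : 1 < p * q) : NoSol 9 p q :=
  noSol_rect (n := 9) (by norm_num) (N := 9) (a := (7483 / 8000 : ℝ)) (b := (777903 / 1000000 : ℝ))
    (τ := (5636659 / 10000000 : ℝ)) (A5 := (20071 / 40000 : ℝ)) (A6 := (123241 / 200000 : ℝ))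
    (A9 := (654089 / 1000000 : ℝ)) (A10 := (26209 / 50000 : ℝ)) (s := (699 / 12500 : ℝ)) (e := (1 / 10000000 : ℝ))
    (pb := (3059867 / 2500000 : ℝ)) (qb := (20465189 / 10000000 : ℝ)) (by norm_num)
    (by norm_num) (by norm_num) (by norm_num) (by norm_num) (by norm_num) (by norm_num) (by norm_num)
    (by norm_num) (by norm_num)
    (by norm_num) (by norm_num) (by norm_num) (by norm_num) (by norm_num)
    rfl rfl rfl rfl rfl rfl (by norm_num) (by norm_num) (by norm_num) hp hpb hq hqb hpq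

end Vale.Agent.Lib.P100
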