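import Vale.Agent.Lib.P100.Cover

/-!
Rational certificates, dimension 9.
-/

namespace Vale.Agent.Lib.P100

theorem rowL9_80 {p q : ℝ} (hp : 0 < p) (hpb : p ≤ (12403903 / 10000000 : ℝ)) (hq : 0 < q) (hqb : q ≤ (20163133 / 10000000 : ℝ))
    (hpq : 1 < p * q) : NoSol 9 p q :=
  noSol_rect (n := 9) (by norm_num) (N := 9) (a := (941333 / 1000000 : ℝ)) (b := (776297 / 1000000 : ℝ))
    (τ := (2916919 / 5000000 : ℝ)) (A5 := (503107 / 1000000 : ℝ)) (A6 := (153883 / 250000 : ℝ))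
    (A9 := (650033 / 1000000 : ℝ)) (A10 := (526401 / 1000000 : ℝ)) (s := (1131 / 20000 : ℝ)) (e := (1 / 10000000 : ℝ))
    (pb := (12403903 / 10000000 : ℝ)) (qb := (20163133 / 10000000 : ℝ)) (by norm_num)
    (by norm_num) (by norm_num) (by norm_num) (by norm_num) (by norm_num) (by norm_num) (by norm_num)
    (by norm_num) (by norm_num)
    (by norm_num) (by norm_num) (by norm_num) (by norm_num) (by norm_num)
    rfl rfl rfl rfl rfl rfl (by norm_num) (by norm_num) (by norm_num) hp hpb hq hqb hpq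

theorem rowL9_81 {p q : ℝ} (hp : 0 < p) (hpb : p ≤ (12570043 / 10000000 : ℝ)) (hq : 0 < q) (hqb : q ≤ (2483229 / 1250000 : ℝ))
    (hpq : 1 < p * q) : NoSol 9 p q :=
  noSol_rect (n := 9) (by norm_num) (N := 9) (a := (946531 / 1000000 : ℝ)) (b := (384377 / 500000 : ℝ))
    (τ := (3035631 / 5000000 : ℝ)) (A5 := (126597 / 250000 : ℝ)) (A6 := (614543 / 1000000 : ℝ))
    (A9 := (79997 / 125000 : ℝ)) (A10 := (532713 / 1000000 : ℝ)) (s := (5787 / 100000 : ℝ)) (e := (1 / 10000000 : ℝ))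
    (pb := (12570043 / 10000000 : ℝ)) (qb := (2483229 / 1250000 : ℝ)) (by norm_num)
    (by norm_num) (by norm_num) (by norm_num) (by norm_num) (by norm_num) (by norm_num) (by norm_num)
    (by norm_num) (by norm_num)
    (by norm_num) (by norm_num) (by norm_num) (by norm_num) (by norm_num)
    rfl rfl rfl rfl rfl rfl (by norm_num) (by norm_num) (by norm_num) hp hpb hq hqb hpq

theorem rowL9_82 {p q : ℝ} (hp : 0 < p) (hpb : p ≤ (12739951 / 10000000 : ℝ)) (hq : 0 < q) (hqb : q ≤ (4893903 / 2500000 : ℝ))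
    (hpq : 1 < p * q) : NoSol 9 p q :=
  noSol_rect (n := 9) (by norm_num) (N := 9) (a := (945501 / 1000000 : ℝ)) (b := (385533 / 500000 : ℝ))
    (τ := (3123627 / 5000000 : ℝ)) (A5 := (50591 / 100000 : ℝ)) (A6 := (123267 / 200000 : ℝ))
    (A9 := (320671 / 500000 : ℝ)) (A10 := (52913 / 100000 : ℝ)) (s := (729 / 12500 : ℝ)) (e := (1 / 10000000 : ℝ))
    (pb := (12739951 / 10000000 : ℝ)) (qb := (4893903 / 2500000 : ℝ)) (by norm_num)
    (by norm_num) (by norm_num) (by norm_num) (by norm_num) (by norm_num) (by norm_num) (by norm_num)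
    (by norm_num) (by norm_num)
    (by norm_num) (by norm_num) (by norm_num) (by norm_num) (by norm_num)
    rfl rfl rfl rfl rfl rfl (by norm_num) (by norm_num) (by norm_num) hp hpb hq hqb hpq

theorem rowL9_83 {p q : ℝ} (hp : 0 < p) (hpb : p ≤ (1614171 / 1250000 : ℝ)) (hq : 0 < q) (hqb : q ≤ (9644423 / 5000000 : ℝ))
    (hpq : 1 < p * q) : NoSol 9 p q :=
  noSol_rect (n := 9) (by norm_num) (N := 9) (a := (59181 / 62500 : ℝ)) (b := (386611 / 500000 : ℝ))
    (τ := (6444709 / 10000000 : ℝ)) (A5 := (504139 / 1000000 : ℝ)) (A6 := (123821 / 200000 : ℝ))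
    (A9 := (160641 / 250000 : ℝ)) (A10 := (526027 / 1000000 : ℝ)) (s := (5873 / 100000 : ℝ)) (e := (1 / 10000000 : ℝ))
    (pb := (1614171 / 1250000 : ℝ)) (qb := (9644423 / 5000000 : ℝ)) (by norm_num)
    (by norm_num) (by norm_num) (by norm_num) (by norm_num) (by norm_num) (by norm_num) (by norm_num)
    (by norm_num) (by norm_num)
    (by norm_num) (by norm_num) (by norm_num) (by norm_num) (by norm_num)
    rfl rfl rfl rfl rfl rfl (by norm_num) (by norm_num) (by norm_num) hp hpb hq hqb hpq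

theorem rowL9_84 {p q : ℝ} (hp : 0 < p) (hpb : p ≤ (2617941 / 2000000 : ℝ)) (hq : 0 < q) (hqb : q ≤ (3801219 / 2000000 : ℝ))
    (hpq : 1 < p * q) : NoSol 9 p q :=
  noSol_rect (n := 9) (by norm_num) (N := 9) (a := (959543 / 1000000 : ℝ)) (b := (770163 / 1000000 : ℝ))
    (τ := (3312417 / 5000000 : ℝ)) (A5 := (126203 / 250000 : ℝ)) (A6 := (123529 / 200000 : ℝ))
    (A9 := (161047 / 250000 : ℝ)) (A10 := (524567 / 1000000 : ℝ)) (s := (5867 / 100000 : ℝ)) (e := (1 / 10000000 : ℝ))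
    (pb := (2617941 / 2000000 : ℝ)) (qb := (3801219 / 2000000 : ℝ)) (by norm_num)
    (by norm_num) (by norm_num) (by norm_num) (by norm_num) (by norm_num) (by norm_num) (by norm_num)
    (by norm_num) (by norm_num)
    (by norm_num) (by norm_num) (by norm_num) (by norm_num) (by norm_num)
    rfl rfl rfl rfl rfl rfl (by norm_num) (by norm_num) (by norm_num) hp hpb hq hqb hpq

theorem rowL9_85 {p q : ℝ} (hp : 0 < p) (hpb : p ≤ (6634551 / 5000000 : ℝ)) (hq : 0 < q) (hqb : q ≤ (4682089 / 2500000 : ℝ))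
    (hpq : 1 < p * q) : NoSol 9 p q :=
  noSol_rect (n := 9) (by norm_num) (N := 9) (a := (480087 / 500000 : ℝ)) (b := (768253 / 1000000 : ℝ))
    (τ := (1709701 / 2500000 : ℝ)) (A5 := (125541 / 250000 : ℝ)) (A6 := (155547 / 250000 : ℝ))
    (A9 := (645717 / 1000000 : ℝ)) (A10 := (104059 / 200000 : ℝ)) (s := (741 / 12500 : ℝ)) (e := (1 / 10000000 : ℝ))
    (pb := (6634551 / 5000000 : ℝ)) (qb := (4682089 / 2500000 : ℝ)) (by norm_num)
    (by norm_num) (by norm_num) (by norm_num) (by norm_num) (by norm_num) (by norm_num) (by norm_num)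
    (by norm_num) (by norm_num)
    (by norm_num) (by norm_num) (by norm_num) (by norm_num) (by norm_num)
    rfl rfl rfl rfl rfl rfl (by norm_num) (by norm_num) (by norm_num) hp hpb hq hqb hpq

theorem rowL9_86 {p q : ℝ} (hp : 0 < p) (hpb : p ≤ (13451933 / 10000000 : ℝ)) (hq : 0 < q) (hqb : q ≤ (92277 / 50000 : ℝ))
    (hpq : 1 < p * q) : NoSol 9 p q :=
  noSol_rect (n := 9) (by norm_num) (N := 9) (a := (959291 / 1000000 : ℝ)) (b := (766543 / 1000000 : ℝ))
    (τ := (7060667 / 10000000 : ℝ)) (A5 := (503111 / 1000000 : ℝ)) (A6 := (19457 / 31250 : ℝ))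
    (A9 := (643771 / 1000000 : ℝ)) (A10 := (32507 / 62500 : ℝ)) (s := (2999 / 50000 : ℝ)) (e := (1 / 10000000 : ℝ))
    (pb := (13451933 / 10000000 : ℝ)) (qb := (92277 / 50000 : ℝ)) (by norm_num)
    (by norm_num) (by norm_num) (by norm_num) (by norm_num) (by norm_num) (by norm_num) (by norm_num)
    (by norm_num) (by norm_num)
    (by norm_num) (by norm_num) (by norm_num) (by norm_num) (by norm_num)
    rfl rfl rfl rfl rfl rfl (by norm_num) (by norm_num) (by norm_num) hp hpb hq hqb hpq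

theorem rowL9_87 {p q : ℝ} (hp : 0 < p) (hpb : p ≤ (545497 / 400000 : ℝ)) (hq : 0 < q) (hqb : q ≤ (454667 / 250000 : ℝ))
    (hpq : 1 < p * q) : NoSol 9 p q :=
  noSol_rect (n := 9) (by norm_num) (N := 9) (a := (955179 / 1000000 : ℝ)) (b := (194267 / 250000 : ℝ))
    (τ := (146663 / 200000 : ℝ)) (A5 := (505233 / 1000000 : ℝ)) (A6 := (621451 / 1000000 : ℝ))
    (A9 := (159239 / 250000 : ℝ)) (A10 := (525153 / 1000000 : ℝ)) (s := (38 / 625 : ℝ)) (e := (1 / 10000000 : ℝ))
    (pb := (545497 / 400000 : ℝ)) (qb := (454667 / 250000 : ℝ)) (by norm_num)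
    (by norm_num) (by norm_num) (by norm_num) (by norm_num) (by norm_num) (by norm_num) (by norm_num)
    (by norm_num) (by norm_num)
    (by norm_num) (by norm_num) (by norm_num) (by norm_num) (by norm_num)
    rfl rfl rfl rfl rfl rfl (by norm_num) (by norm_num) (by norm_num) hp hpb hq hqb hpq

theorem rowL9_88 {p q : ℝ} (hp : 0 < p) (hpb : p ≤ (276509 / 200000 : ℝ)) (hq : 0 < q) (hqb : q ≤ (4480829 / 2500000 : ℝ))
    (hpq : 1 < p * q) : NoSol 9 p q :=
  noSol_rect (n := 9) (by norm_num) (N := 9) (a := (956201 / 1000000 : ℝ)) (b := (781457 / 1000000 : ℝ))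
    (τ := (1494437 / 2000000 : ℝ)) (A5 := (254977 / 500000 : ℝ)) (A6 := (617857 / 1000000 : ℝ))
    (A9 := (159919 / 250000 : ℝ)) (A10 := (13021 / 25000 : ℝ)) (s := (3051 / 50000 : ℝ)) (e := (1 / 10000000 : ℝ))
    (pb := (276509 / 200000 : ℝ)) (qb := (4480829 / 2500000 : ℝ)) (by norm_num)
    (by norm_num) (by norm_num) (by norm_num) (by norm_num) (by norm_num) (by norm_num) (by norm_num)
    (by norm_num) (by norm_num)
    (by norm_num) (by norm_num) (by norm_num) (by norm_num) (by norm_num)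
    rfl rfl rfl rfl rfl rfl (by norm_num) (by norm_num) (by norm_num) hp hpb hq hqb hpq

theorem rowL9_89 {p q : ℝ} (hp : 0 < p) (hpb : p ≤ (14016811 / 10000000 : ℝ)) (hq : 0 < q) (hqb : q ≤ (88327 / 50000 : ℝ))
    (hpq : 1 < p * q) : NoSol 9 p q :=
  noSol_rect (n := 9) (by norm_num) (N := 9) (a := (92701 / 100000 : ℝ)) (b := (396057 / 500000 : ℝ))
    (τ := (312029 / 400000 : ℝ)) (A5 := (32051 / 62500 : ℝ)) (A6 := (154517 / 250000 : ℝ))
    (A9 := (628399 / 1000000 : ℝ)) (A10 := (132091 / 250000 : ℝ)) (s := (1259 / 20000 : ℝ)) (e := (1 / 10000000 : ℝ))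
    (pb := (14016811 / 10000000 : ℝ)) (qb := (88327 / 50000 : ℝ)) (by norm_num)
    (by norm_num) (by norm_num) (by norm_num) (by norm_num) (by norm_num) (by norm_num) (by norm_num)
    (by norm_num) (by norm_num)
    (by norm_num) (by norm_num) (by norm_num) (by norm_num) (by norm_num)
    rfl rfl rfl rfl rfl rfl (by norm_num) (by norm_num) (by norm_num) hp hpb hq hqb hpq

theorem rowL9_90 {p q : ℝ} (hp : 0 < p) (hpb : p ≤ (14212453 / 10000000 : ℝ)) (hq : 0 < q) (hqb : q ≤ (17411787 / 10000000 : ℝ))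
    (hpq : 1 < p * q) : NoSol 9 p q :=
  noSol_rect (n := 9) (by norm_num) (N := 9) (a := (925541 / 1000000 : ℝ)) (b := (158217 / 200000 : ℝ))
    (τ := (8029659 / 10000000 : ℝ)) (A5 := (512689 / 1000000 : ℝ)) (A6 := (77429 / 125000 : ℝ))
    (A9 := (629603 / 1000000 : ℝ)) (A10 := (105101 / 200000 : ℝ)) (s := (6359 / 100000 : ℝ)) (e := (1 / 10000000 : ℝ))
    (pb := (14212453 / 10000000 : ℝ)) (qb := (17411787 / 10000000 : ℝ)) (by norm_num)
    (by norm_num) (by norm_num) (by norm_num) (by norm_num) (by norm_num) (by norm_num) (by norm_num)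
    (by norm_num) (by norm_num)
    (by norm_num) (by norm_num) (by norm_num) (by norm_num) (by norm_num)
    rfl rfl rfl rfl rfl rfl (by norm_num) (by norm_num) (by norm_num) hp hpb hq hqb hpq

theorem rowL9_91 {p q : ℝ} (hp : 0 < p) (hpb : p ≤ (14412327 / 10000000 : ℝ)) (hq : 0 < q) (hqb : q ≤ (8580647 / 5000000 : ℝ))
    (hpq : 1 < p * q) : NoSol 9 p q :=
  noSol_rect (n := 9) (by norm_num) (N := 9) (a := (948423 / 1000000 : ℝ)) (b := (773707 / 1000000 : ℝ))
    (τ := (328723 / 400000 : ℝ)) (A5 := (513151 / 1000000 : ℝ)) (A6 := (619977 / 1000000 : ℝ))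
    (A9 := (317017 / 500000 : ℝ)) (A10 := (6497 / 12500 : ℝ)) (s := (1593 / 25000 : ℝ)) (e := (1 / 10000000 : ℝ))
    (pb := (14412327 / 10000000 : ℝ)) (qb := (8580647 / 5000000 : ℝ)) (by norm_num)
    (by norm_num) (by norm_num) (by norm_num) (by norm_num) (by norm_num) (by norm_num) (by norm_num)
    (by norm_num) (by norm_num)
    (by norm_num) (by norm_num) (by norm_num) (by norm_num) (by norm_num)
    rfl rfl rfl rfl rfl rfl (by norm_num) (by norm_num) (by norm_num) hp hpb hq hqb hpq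

theorem rowL9_92 {p q : ℝ} (hp : 0 < p) (hpb : p ≤ (14615879 / 10000000 : ℝ)) (hq : 0 < q) (hqb : q ≤ (16914099 / 10000000 : ℝ))
    (hpq : 1 < p * q) : NoSol 9 p q :=
  noSol_rect (n := 9) (by norm_num) (N := 9) (a := (948157 / 1000000 : ℝ)) (b := (773991 / 1000000 : ℝ))
    (τ := (4242917 / 5000000 : ℝ)) (A5 := (256499 / 500000 : ℝ)) (A6 := (62107 / 100000 : ℝ))
    (A9 := (31677 / 50000 : ℝ)) (A10 := (129741 / 250000 : ℝ)) (s := (201 / 3125 : ℝ)) (e := (1 / 10000000 : ℝ))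
    (pb := (14615879 / 10000000 : ℝ)) (qb := (16914099 / 10000000 : ℝ)) (by norm_num)
    (by norm_num) (by norm_num) (by norm_num) (by norm_num) (by norm_num) (by norm_num) (by norm_num)
    (by norm_num) (by norm_num)
    (by norm_num) (by norm_num) (by norm_num) (by norm_num) (by norm_num)
    rfl rfl rfl rfl rfl rfl (by norm_num) (by norm_num) (by norm_num) hp hpb hq hqb hpq

theorem rowL9_93 {p q : ℝ} (hp : 0 < p) (hpb : p ≤ (2964621 / 2000000 : ℝ)) (hq : 0 < q) (hqb : q ≤ (2083869 / 1250000 : ℝ))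
    (hpq : 1 < p * q) : NoSol 9 p q :=
  noSol_rect (n := 9) (by norm_num) (N := 9) (a := (37903 / 40000 : ℝ)) (b := (774561 / 1000000 : ℝ))
    (τ := (4384213 / 5000000 : ℝ)) (A5 := (102449 / 200000 : ℝ)) (A6 := (311563 / 500000 : ℝ))
    (A9 := (39573 / 62500 : ℝ)) (A10 := (517721 / 1000000 : ℝ)) (s := (6501 / 100000 : ℝ)) (e := (1 / 10000000 : ℝ))
    (pb := (2964621 / 2000000 : ℝ)) (qb := (2083869 / 1250000 : ℝ)) (by norm_num)
    (by norm_num) (by norm_num) (by norm_num) (by norm_num) (by norm_num) (by norm_num) (by norm_num)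
    (by norm_num) (by norm_num)
    (by norm_num) (by norm_num) (by norm_num) (by norm_num) (by norm_num)
    rfl rfl rfl rfl rfl rfl (by norm_num) (by norm_num) (by norm_num) hp hpb hq hqb hpq

theorem rowL9_94 {p q : ℝ} (hp : 0 < p) (hpb : p ≤ (1503371 / 1000000 : ℝ)) (hq : 0 < q) (hqb : q ≤ (8215937 / 5000000 : ℝ))
    (hpq : 1 < p * q) : NoSol 9 p q :=
  noSol_rect (n := 9) (by norm_num) (N := 9) (a := (950193 / 1000000 : ℝ)) (b := (774207 / 1000000 : ℝ))
    (τ := (1800581 / 2000000 : ℝ)) (A5 := (257167 / 500000 : ℝ)) (A6 := (31107 / 50000 : ℝ))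
    (A9 := (634061 / 1000000 : ℝ)) (A10 := (257757 / 500000 : ℝ)) (s := (6547 / 100000 : ℝ)) (e := (1 / 10000000 : ℝ))
    (pb := (1503371 / 1000000 : ℝ)) (qb := (8215937 / 5000000 : ℝ)) (by norm_num)
    (by norm_num) (by norm_num) (by norm_num) (by norm_num) (by norm_num) (by norm_num) (by norm_num)
    (by norm_num) (by norm_num)
    (by norm_num) (by norm_num) (by norm_num) (by norm_num) (by norm_num)
    rfl rfl rfl rfl rfl rfl (by norm_num) (by norm_num) (by norm_num) hp hpb hq hqb hpq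

theorem rowL9_95 {p q : ℝ} (hp : 0 < p) (hpb : p ≤ (3049651 / 2000000 : ℝ)) (hq : 0 < q) (hqb : q ≤ (8098599 / 5000000 : ℝ))
    (hpq : 1 < p * q) : NoSol 9 p q :=
  noSol_rect (n := 9) (by norm_num) (N := 9) (a := (237041 / 250000 : ℝ)) (b := (96597 / 125000 : ℝ))
    (τ := (290421 / 312500 : ℝ)) (A5 := (64443 / 125000 : ℝ)) (A6 := (311559 / 500000 : ℝ))
    (A9 := (632233 / 1000000 : ℝ)) (A10 := (20599 / 40000 : ℝ)) (s := (1331 / 20000 : ℝ)) (e := (1 / 10000000 : ℝ))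
    (pb := (3049651 / 2000000 : ℝ)) (qb := (8098599 / 5000000 : ℝ)) (by norm_num)
    (by norm_num) (by norm_num) (by norm_num) (by norm_num) (by norm_num) (by norm_num) (by norm_num)
    (by norm_num) (by norm_num)
    (by norm_num) (by norm_num) (by norm_num) (by norm_num) (by norm_num)
    rfl rfl rfl rfl rfl rfl (by norm_num) (by norm_num) (by norm_num) hp hpb hq hqb hpq

theorem rowL9_96 {p q : ℝ} (hp : 0 < p) (hpb : p ≤ (773343 / 500000 : ℝ)) (hq : 0 < q) (hqb : q ≤ (1995787 / 1250000 : ℝ))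
    (hpq : 1 < p * q) : NoSol 9 p q :=
  noSol_rect (n := 9) (by norm_num) (N := 9) (a := (114253 / 125000 : ℝ)) (b := (802167 / 1000000 : ℝ))
    (τ := (9637921 / 10000000 : ℝ)) (A5 := (513369 / 1000000 : ℝ)) (A6 := (627377 / 1000000 : ℝ))
    (A9 := (630961 / 1000000 : ℝ)) (A10 := (514037 / 1000000 : ℝ)) (s := (213 / 3125 : ℝ)) (e := (1 / 10000000 : ℝ))
    (pb := (773343 / 500000 : ℝ)) (qb := (1995787 / 1250000 : ℝ)) (by norm_num)
    (by norm_num) (by norm_num) (by norm_num) (by norm_num) (by norm_num) (by norm_num) (by norm_num)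
    (by norm_num) (by norm_num)
    (by norm_num) (by norm_num) (by norm_num) (by norm_num) (by norm_num)
    rfl rfl rfl rfl rfl rfl (by norm_num) (by norm_num) (by norm_num) hp hpb hq hqb hpq

theorem rowL9_97 {p q : ℝ} (hp : 0 < p) (hpb : p ≤ (15689283 / 10000000 : ℝ)) (hq : 0 < q) (hqb : q ≤ (15739071 / 10000000 : ℝ))
    (hpq : 1 < p * q) : NoSol 9 p q :=
  noSol_rect (n := 9) (by norm_num) (N := 9) (a := (914369 / 1000000 : ℝ)) (b := (80313 / 100000 : ℝ))
    (τ := (248903 / 250000 : ℝ)) (A5 := (513851 / 1000000 : ℝ)) (A6 := (62831 / 100000 : ℝ))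
    (A9 := (314851 / 500000 : ℝ)) (A10 := (256917 / 500000 : ℝ)) (s := (1381 / 20000 : ℝ)) (e := (1 / 10000000 : ℝ))
    (pb := (15689283 / 10000000 : ℝ)) (qb := (15739071 / 10000000 : ℝ)) (by norm_num)
    (by norm_num) (by norm_num) (by norm_num) (by norm_num) (by norm_num) (by norm_num) (by norm_num)
    (by norm_num) (by norm_num)
    (by norm_num) (by norm_num) (by norm_num) (by norm_num) (by norm_num)
    rfl rfl rfl rfl rfl rfl (by norm_num) (by norm_num) (by norm_num) hp hpb hq hqb hpq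

end Vale.Agent.Lib.P100
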